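import Vale.Agent.P098.Exact.Sos6.Rows

/-! Absolute values of packed vectors, as packed vectors of natural numbers, and their loads. -/

namespace Vale.Agent.P098.Exact.Sos6

open Sos (pk base half npk)

/-- Absolute values of a packed vector, packed. -/
def absV (w n : ℕ) (Z : ℤ) : ℕ :=
  let Y := Sos.offs w n Z
  let S := Sos.tops w n Y
  let P := Nat.sub (Y &&& (Nat.mul S (2 ^ w - 1))) (Nat.mul (half w) S)
  Int.toNat (Int.sub (Int.ofNat (Nat.add P P)) Z)

theorem absV_eq (w : ℕ) (hw : 0 < w) (n : ℕ) (f : ℕ → ℤ) (hf : ∀ k, |f k| < half w) :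
    absV w n (pk w n f) = npk w n fun k => (f k).natAbs := by
  have hb : (2 : ℤ) ^ w = 2 * half w := by
    obtain ⟨m, rfl⟩ : ∃ m, w = m + 1 := ⟨w - 1, by omega⟩
    simp [half, pow_succ]
    ring
  have hb' : 2 ^ w = 2 * half w := by exact_mod_cast hb
  set y : ℕ → ℕ := fun k => (f k + half w).toNat with hy
  have hyc : ∀ k, ((y k : ℕ) : ℤ) = f k + half w := fun k =>
    Int.toNat_of_nonneg (by linarith [(abs_lt.1 (hf k)).1])
  have hylt : ∀ k, y k < 2 ^ w := fun k => by
    have := hyc k; have := (abs_lt.1 (hf k)).2; omega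
  have hY : Sos.offs w n (pk w n f) = npk w n y := by
    have := Sos.offs_cast w hw n f fun k _ => hf k
    have e : ((npk w n y : ℕ) : ℤ) = pk w n f + half w * Sos.ones w n := by
      rw [Sos.ones_eq, pk, npk, Finset.mul_sum, ← Finset.sum_add_distrib]
      push_cast
      exact Finset.sum_congr rfl fun k _ => by rw [hyc k, add_mul]
    omega
  set s : ℕ → ℕ := fun k => if 0 ≤ f k then 1 else 0 with hs'
  have hS : Sos.tops w n (Sos.offs w n (pk w n f)) = npk w n s := by
    rw [hY, Sos.tops_npk w hw n y hylt]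
    congr 1
    funext k
    have h1 := hyc k
    have h2 := hylt k
    simp only [hs']
    split
    · exact Nat.div_eq_of_lt_le (by omega) (by omega)
    · exact Nat.div_eq_of_lt (by omega)
  have hM : Nat.mul (npk w n s) (2 ^ w - 1) = npk w n fun k => s k * (2 ^ w - 1) := by
    simp only [Nat.mul_eq, npk, Finset.sum_mul]
    exact Finset.sum_congr rfl fun k _ => by ring
  set p : ℕ → ℕ := fun k => (f k).toNat with hp
  have hA : npk w n y &&& (npk w n fun k => s k * (2 ^ w - 1)) =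
      npk w n p + Nat.mul (half w) (npk w n s) := by
    have hm : ∀ k, s k * (2 ^ w - 1) < 2 ^ w := fun k => by
      have := Nat.one_le_two_pow (n := w)
      simp only [hs']; split <;> omega
    rw [Sos.land_npk w n y _ hylt hm]
    simp only [Nat.mul_eq, npk, Finset.mul_sum, ← Finset.sum_add_distrib]
    refine Finset.sum_congr rfl fun k _ => ?_
    rw [← mul_assoc, ← add_mul]
    congr 1
    have h1 := hyc k
    simp only [hs', hp]
    split
    · rw [one_mul, Nat.and_two_pow_sub_one_eq_mod, Nat.mod_eq_of_lt (hylt k)]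
      omega
    · simp; omega
  have hP : Nat.sub (npk w n y &&& (npk w n fun k => s k * (2 ^ w - 1)))
      (Nat.mul (half w) (npk w n s)) = npk w n p := by
    rw [hA]; exact Nat.add_sub_cancel _ _
  simp only [absV]
  rw [hS, hY, hM, hP]
  have e : ((npk w n fun k => (f k).natAbs : ℕ) : ℤ) =
      ((npk w n p + npk w n p : ℕ) : ℤ) - pk w n f := by
    simp only [npk, pk]
    push_cast
    rw [← Finset.sum_add_distrib, ← Finset.sum_sub_distrib]
    exact Finset.sum_congr rfl fun k _ => by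
      rw [← add_mul, ← sub_mul]; congr 1; simp only [hp]; rcases abs_cases (f k) with ⟨h1, h2⟩ | ⟨h1, h2⟩ <;> omega
  show (((npk w n p + npk w n p : ℕ) : ℤ) - pk w n f).toNat = _
  rw [← e, Int.toNat_natCast]

theorem npk_add (w n : ℕ) (a b : ℕ → ℕ) :
    npk w n a + npk w n b = npk w n fun k => a k + b k := by
  simp [npk, ← Finset.sum_add_distrib, add_mul]

theorem npk_smul (w n e : ℕ) (a : ℕ → ℕ) : e * npk w n a = npk w n fun k => e * a k := by
  simp [npk, Finset.mul_sum, mul_assoc]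

/-- Unsigned digits. -/
noncomputable def ndigs (w : ℕ) (n : ℕ) : ℕ → List ℕ :=
  Nat.rec (motive := fun _ => ℕ → List ℕ) (fun _ => [])
    (fun _ ih N => Nat.mod N (base w) :: ih (Nat.div N (base w))) n

theorem ndigs_npk (w : ℕ) : ∀ (n : ℕ) (a : ℕ → ℕ), (∀ k, k < n → a k < base w) →
    ndigs w n (npk w n a) = (List.range n).map a
  | 0, a, _ => rfl
  | n + 1, a, h => by
    show Nat.mod _ (base w) :: ndigs w n (Nat.div _ (base w)) = _
    have h0 := h 0 (by omega)
    have hpos : 0 < base w := Nat.two_pow_pos w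
    rw [Sos.npk_succ, show ∀ x y : ℕ, Nat.mod x y = x % y from fun _ _ => rfl,
      show ∀ x y : ℕ, Nat.div x y = x / y from fun _ _ => rfl, Nat.add_mul_mod_self_left,
      Nat.mod_eq_of_lt h0, Nat.add_mul_div_left _ _ hpos, Nat.div_eq_of_lt h0, zero_add,
      ndigs_npk w n (fun k => a (k + 1)) fun k hk => h _ (by omega), List.range_succ_eq_map]
    simp [Function.comp_def]

/-- Add at a position. -/
noncomputable def bump (c : ℕ) (i : ℕ) : List ℕ → List ℕ :=
  Nat.rec (motive := fun _ => List ℕ → List ℕ)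
    (fun L => List.rec (motive := fun _ => List ℕ) [] (fun x L' _ => Nat.add x c :: L') L)
    (fun _ ih L => List.rec (motive := fun _ => List ℕ) [] (fun x L' _ => x :: ih L') L) i

theorem bump_length (c : ℕ) : ∀ (i : ℕ) (L : List ℕ), (bump c i L).length = L.length
  | 0, [] => rfl
  | 0, _ :: _ => rfl
  | _ + 1, [] => rfl
  | i + 1, x :: L => by
    show (x :: bump c i L).length = _
    simp [bump_length c i L]

theorem bump_sum (c : ℕ) (q : ℕ → ℝ) : ∀ (i : ℕ) (L : List ℕ), i < L.length →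
    ∑ m ∈ Finset.range L.length, ((bump c i L).getD m 0 : ℝ) * q m =
      ∑ m ∈ Finset.range L.length, (L.getD m 0 : ℝ) * q m + c * q i
  | _, [], h => by simp at h
  | 0, x :: L, _ => by
    rw [show bump c 0 (x :: L) = (x + c) :: L from rfl]
    simp only [List.length_cons, Finset.sum_range_succ', List.getD_cons_succ, List.getD_cons_zero]
    push_cast
    ring
  | i + 1, x :: L, h => by
    rw [show bump c (i + 1) (x :: L) = x :: bump c i L from rfl]
    simp only [List.length_cons, Finset.sum_range_succ', List.getD_cons_succ, List.getD_cons_zero]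
    rw [bump_sum c (fun m => q (m + 1)) i L (by simpa using h)]
    ring

/-- Weight of a slot: `|v^g| ≤ mw / 64` on the ball. -/
def mw (G : Mon) : ℕ :=
  let c := (if G.g.getD 0 0 = 0 then 0 else 1) + (if G.g.getD 1 0 = 0 then 0 else 1) +
    (if G.g.getD 2 0 = 0 then 0 else 1) + (if G.g.getD 3 0 = 0 then 0 else 1) +
    (if G.g.getD 4 0 = 0 then 0 else 1) + (if G.g.getD 5 0 = 0 then 0 else 1)
  if c ≤ 1 then 64 else if c ≤ 2 then 32 else 13

/-- Loads of the coordinates from slot errors. -/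
noncomputable def loads (N : ℕ) (gl : List Mon) : List ℕ → List ℕ :=
  List.rec (motive := fun _ => List ℕ → List ℕ) (fun _ => List.replicate N 0)
    (fun G _ ih E => List.rec (motive := fun _ => List ℕ) (List.replicate N 0)
      (fun e E' _ => bump (Nat.mul (mw G) e) G.a (bump (Nat.mul (mw G) e) G.b (ih E'))) E) gl

theorem loads_length (N : ℕ) : ∀ (gl : List Mon) (E : List ℕ), (loads N gl E).length = N
  | [], _ => by simp [loads]
  | _ :: _, [] => by simp [loads]
  | G :: gl, e :: E => by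
    show (bump (mw G * e) G.a (bump (mw G * e) G.b (loads N gl E))).length = N
    rw [bump_length, bump_length, loads_length N gl E]

theorem two_le_sq (a b : ℝ) : 2 * (|a| * |b|) ≤ a ^ 2 + b ^ 2 := by
  have := two_mul_le_add_sq (|a|) (|b|)
  rw [sq_abs, sq_abs] at this
  linarith

theorem pair_half (x y : ℝ) (h : x ^ 2 + y ^ 2 ≤ 1) : 64 * (x * y) ≤ 32 := by
  linarith [two_mul_le_add_sq x y]

theorem triple_13 (x y z : ℝ) (hx : 0 ≤ x) (hy : 0 ≤ y) (hz : 0 ≤ z)
    (h : x ^ 2 + y ^ 2 + z ^ 2 ≤ 1) : 64 * (x * y * z) ≤ 13 := by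
  have h1 : 27 * (x * y * z) ^ 2 ≤ 1 := by
    have ha := sq_nonneg x; have hb := sq_nonneg y; have hc := sq_nonneg z
    have hs : (x ^ 2 + y ^ 2 + z ^ 2) ^ 3 ≤ 1 := pow_le_one₀ (by positivity) h
    nlinarith [mul_nonneg ha (sq_nonneg (y ^ 2 - z ^ 2)), mul_nonneg hb (sq_nonneg (x ^ 2 - z ^ 2)),
      mul_nonneg hc (sq_nonneg (x ^ 2 - y ^ 2)),
      mul_nonneg (add_nonneg (add_nonneg ha hb) hc) (sq_nonneg (x ^ 2 - y ^ 2)),
      mul_nonneg (add_nonneg (add_nonneg ha hb) hc) (sq_nonneg (y ^ 2 - z ^ 2)),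
      mul_nonneg (add_nonneg (add_nonneg ha hb) hc) (sq_nonneg (x ^ 2 - z ^ 2))]
  have h2 : (64 * (x * y * z)) ^ 2 ≤ 13 ^ 2 := by linarith
  exact (pow_le_pow_iff_left₀ (by positivity) (by norm_num) two_ne_zero).1 h2

theorem prod_le (L : List ℝ) (h0 : ∀ x ∈ L, 0 ≤ x) (h : (L.map (· ^ 2)).sum ≤ 1) :
    0 ≤ L.prod ∧ L.prod ≤ 1 := by
  induction L with
  | nil => simp
  | cons x L ih =>
    simp only [List.map_cons, List.sum_cons] at h
    have hL : 0 ≤ (L.map (· ^ 2)).sum := List.sum_nonneg fun y hy => by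
      obtain ⟨z, -, rfl⟩ := List.mem_map.1 hy
      positivity
    obtain ⟨a, b⟩ := ih (fun y hy => h0 y (by simp [hy])) (by linarith [sq_nonneg x])
    have hx := h0 x (by simp)
    have hx1 : x ≤ 1 := (pow_le_pow_iff_left₀ hx one_pos.le two_ne_zero).1 (by linarith)
    rw [List.prod_cons]
    exact ⟨mul_nonneg hx a, mul_le_one₀ hx1 a b⟩

theorem prod_le_count (L : List ℝ) (h0 : ∀ x ∈ L, 0 ≤ x) (h : (L.map (· ^ 2)).sum ≤ 1) :
    64 * L.prod ≤ ((if L.length ≤ 1 then 64 else if L.length ≤ 2 then 32 else 13 : ℕ) : ℝ) := by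
  have h1 := prod_le L h0 h
  match L, h0, h with
  | [], _, _ => simp
  | [x], _, _ => simp; linarith [show x ≤ 1 by simpa using h1.2]
  | [x, y], h0, h =>
    simp at h ⊢
    exact pair_half x y h
  | x :: y :: z :: L, h0, h =>
    simp only [List.map_cons, List.sum_cons] at h
    have hL : 0 ≤ (L.map (· ^ 2)).sum := List.sum_nonneg fun u hu => by
      obtain ⟨t, -, rfl⟩ := List.mem_map.1 hu
      positivity
    have h2 := prod_le L (fun u hu => h0 u (by simp [hu]))
      (by linarith [sq_nonneg x, sq_nonneg y, sq_nonneg z])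
    have hx := h0 x (by simp)
    have hy := h0 y (by simp)
    have hz := h0 z (by simp)
    simp
    calc 64 * (x * (y * (z * L.prod))) = 64 * (x * y * z) * L.prod := by ring
      _ ≤ 13 * 1 := mul_le_mul (triple_13 x y z hx hy hz (by linarith)) h2.2 h2.1 (by norm_num)
      _ = 13 := mul_one _

theorem wprod (w : ℕ → ℝ) (g : ℕ → ℕ) (hw : ∀ i, 0 ≤ w i)
    (h : w 0 ^ 2 + w 1 ^ 2 + w 2 ^ 2 + w 3 ^ 2 + w 4 ^ 2 + w 5 ^ 2 ≤ 1) :
    64 * ((if g 0 = 0 then 1 else w 0) * (if g 1 = 0 then 1 else w 1) *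
      (if g 2 = 0 then 1 else w 2) * (if g 3 = 0 then 1 else w 3) *
      (if g 4 = 0 then 1 else w 4) * (if g 5 = 0 then 1 else w 5)) ≤
    ((if (if g 0 = 0 then 0 else 1) + (if g 1 = 0 then 0 else 1) + (if g 2 = 0 then 0 else 1) +
        (if g 3 = 0 then 0 else 1) + (if g 4 = 0 then 0 else 1) + (if g 5 = 0 then 0 else 1) ≤ 1
      then 64
      else if (if g 0 = 0 then 0 else 1) + (if g 1 = 0 then 0 else 1) + (if g 2 = 0 then 0 else 1) +
        (if g 3 = 0 then 0 else 1) + (if g 4 = 0 then 0 else 1) + (if g 5 = 0 then 0 else 1) ≤ 2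
      then 32 else 13 : ℕ) : ℝ) := by
  obtain ⟨F, hF⟩ : ∃ F : ℕ → List ℝ, ∀ i, F i = if g i = 0 then [] else [w i] := ⟨_, fun i => rfl⟩
  have e1 : ∀ i, (F i).prod = if g i = 0 then 1 else w i := fun i => by rw [hF]; split <;> simp
  have e2 : ∀ i, (F i).length = if g i = 0 then 0 else 1 := fun i => by rw [hF]; split <;> simp
  have e3 : ∀ i, ((F i).map (· ^ 2)).sum ≤ w i ^ 2 := fun i => by
    rw [hF]; split <;> simp [sq_nonneg]
  have hm : ∀ i, ∀ x ∈ F i, 0 ≤ x := fun i x hx => by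
    rw [hF] at hx
    split at hx <;> simp_all
  have := prod_le_count (F 0 ++ F 1 ++ F 2 ++ F 3 ++ F 4 ++ F 5)
    (fun x hx => by
      simp only [List.mem_append] at hx
      rcases hx with ((((hx | hx) | hx) | hx) | hx) | hx <;> exact hm _ x hx)
    (by
      simp only [List.map_append, List.sum_append]
      linarith [e3 0, e3 1, e3 2, e3 3, e3 4, e3 5])
  simpa only [List.prod_append, List.length_append, e1, e2] using this

theorem mw_bound (G : Mon) (z v : ℕ → ℝ)
    (hv : v 0 ^ 2 + v 1 ^ 2 + v 2 ^ 2 + v 3 ^ 2 + v 4 ^ 2 + v 5 ^ 2 ≤ 1) :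
    128 * |G.ev z v| ≤ mw G * (z G.a ^ 2 + z G.b ^ 2) := by
  have key : 64 * |v 0 ^ G.g.getD 0 0 * v 1 ^ G.g.getD 1 0 * v 2 ^ G.g.getD 2 0 *
      v 3 ^ G.g.getD 3 0 * v 4 ^ G.g.getD 4 0 * v 5 ^ G.g.getD 5 0| ≤ mw G := by
    obtain ⟨g, hg⟩ : ∃ g : ℕ → ℕ, ∀ i, G.g.getD i 0 = g i := ⟨_, fun i => rfl⟩
    simp only [mw, hg, abs_mul, abs_pow]
    have hle : ∀ x : ℝ, x ^ 2 ≤ 1 → ∀ k, |x| ^ k ≤ if k = 0 then 1 else |x| := fun x hx k => by
      cases k with
      | zero => simp
      | succ k =>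
        simp only [Nat.succ_ne_zero, if_false, pow_succ]
        exact mul_le_of_le_one_left (abs_nonneg x)
          (pow_le_one₀ (abs_nonneg x) ((sq_le_one_iff_abs_le_one x).1 hx))
    obtain ⟨w, hw⟩ : ∃ w : ℕ → ℝ, ∀ i, |v i| = w i := ⟨_, fun i => rfl⟩
    have hw2 : w 0 ^ 2 + w 1 ^ 2 + w 2 ^ 2 + w 3 ^ 2 + w 4 ^ 2 + w 5 ^ 2 ≤ 1 := by
      simpa [← hw, sq_abs] using hv
    have hw0 : ∀ i, 0 ≤ w i := fun i => hw i ▸ abs_nonneg _
    have hp : ∀ i, i < 6 → w i ^ g i ≤ if g i = 0 then 1 else w i := fun i hi => by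
      rw [← hw]
      refine hle _ ?_ _
      interval_cases i <;>
        nlinarith [sq_nonneg (v 0), sq_nonneg (v 1), sq_nonneg (v 2), sq_nonneg (v 3),
          sq_nonneg (v 4), sq_nonneg (v 5)]
    simp only [hw]
    calc 64 * (w 0 ^ g 0 * w 1 ^ g 1 * w 2 ^ g 2 * w 3 ^ g 3 * w 4 ^ g 4 * w 5 ^ g 5)
        ≤ 64 * ((if g 0 = 0 then 1 else w 0) * (if g 1 = 0 then 1 else w 1) *
          (if g 2 = 0 then 1 else w 2) * (if g 3 = 0 then 1 else w 3) *
          (if g 4 = 0 then 1 else w 4) * (if g 5 = 0 then 1 else w 5)) := by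
          have := hw0 0; have := hw0 1; have := hw0 2; have := hw0 3; have := hw0 4; have := hw0 5
          gcongr <;> first
            | exact hp _ (by norm_num)
            | positivity
      _ ≤ _ := by
          exact wprod w g hw0 hw2
  have h2 := two_le_sq (z G.a) (z G.b)
  rw [Mon.ev, abs_mul, abs_mul]
  calc 128 * (|z G.a| * |z G.b| * |_|) = (2 * (|z G.a| * |z G.b|)) * (64 * |_|) := by ring
    _ ≤ (z G.a ^ 2 + z G.b ^ 2) * mw G :=
        mul_le_mul h2 key (by positivity) (by positivity)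
    _ = _ := by ring

theorem loads_bound (N : ℕ) (z v : ℕ → ℝ)
    (hv : v 0 ^ 2 + v 1 ^ 2 + v 2 ^ 2 + v 3 ^ 2 + v 4 ^ 2 + v 5 ^ 2 ≤ 1) :
    ∀ (gl : List Mon) (E : List ℕ), (∀ G ∈ gl, G.a < N ∧ G.b < N) →
      128 * ∑ k ∈ Finset.range gl.length, (E.getD k 0 : ℝ) * |(gl.map fun G => G.ev z v).getD k 0| ≤
        ∑ m ∈ Finset.range N, ((loads N gl E).getD m 0 : ℝ) * z m ^ 2
  | [], E, _ => by simp; positivity
  | G :: gl, [], _ => by simp; positivity
  | G :: gl, e :: E, h => by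
    have hG := h G (by simp)
    have ih := loads_bound N z v hv gl E fun G' hG' => h G' (by simp [hG'])
    have hl := loads_length N gl E
    rw [show loads N (G :: gl) (e :: E) =
      bump (mw G * e) G.a (bump (mw G * e) G.b (loads N gl E)) from rfl]
    have h1 := bump_sum (mw G * e) (fun m => z m ^ 2) G.b (loads N gl E) (by omega)
    have h2 := bump_sum (mw G * e) (fun m => z m ^ 2) G.a (bump (mw G * e) G.b (loads N gl E))
      (by rw [bump_length]; omega)
    simp only [bump_length, hl] at h1 h2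
    rw [h2, h1, List.map_cons, List.length_cons, Finset.sum_range_succ']
    simp only [List.getD_cons_succ, List.getD_cons_zero]
    have h3 := mul_le_mul_of_nonneg_left (mw_bound G z v hv) (Nat.cast_nonneg (α := ℝ) e)
    push_cast at *
    linarith

end Vale.Agent.P098.Exact.Sos6
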