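import Mathlib

/-! Bernstein form of polynomials of degree at most four in each of three variables on `[-1, 1]`. -/

namespace Vale.Agent.P098.Exact.Sos6

/-- The quartic Bernstein weights on `[-1, 1]`. -/
noncomputable def bB (s : ℝ) : ℕ → ℝ
  | 0 => ((1 - s) / 2) ^ 4
  | 1 => 4 * ((1 + s) / 2) * ((1 - s) / 2) ^ 3
  | 2 => 6 * ((1 + s) / 2) ^ 2 * ((1 - s) / 2) ^ 2
  | 3 => 4 * ((1 + s) / 2) ^ 3 * ((1 - s) / 2)
  | 4 => ((1 + s) / 2) ^ 4
  | _ => 0

theorem bB_nonneg {s : ℝ} (hs : |s| ≤ 1) (i : ℕ) : 0 ≤ bB s i := by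
  have h1 : 0 ≤ (1 - s) / 2 := by linarith [(abs_le.1 hs).2]
  have h2 : 0 ≤ (1 + s) / 2 := by linarith [(abs_le.1 hs).1]
  unfold bB
  split <;> positivity

theorem bB_sum (s : ℝ) : ∑ i ∈ Finset.range 5, bB s i = 1 := by
  simp only [Finset.sum_range_succ, Finset.sum_range_zero, bB]; ring

/-- Twelve times the Bernstein coefficients of the powers. -/
def bM : ℕ → ℕ → ℤ
  | 0, q => [12, -12, 12, -12, 12].getD q 0
  | 1, q => [12, -6, 0, 6, -12].getD q 0
  | 2, q => [12, 0, -4, 0, 12].getD q 0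
  | 3, q => [12, 6, 0, -6, -12].getD q 0
  | _, q => [12, 12, 12, 12, 12].getD q 0

theorem bern1 (s : ℝ) (p : ℕ → ℝ) :
    12 * ∑ k ∈ Finset.range 5, p k * s ^ k =
      ∑ i ∈ Finset.range 5, bB s i * ∑ k ∈ Finset.range 5, (bM i k : ℝ) * p k := by
  simp only [Finset.sum_range_succ, Finset.sum_range_zero, bB, bM, List.getD_cons_zero, List.getD_cons_succ]
  push_cast
  ring

/-- One control along the last axis, from every consecutive five entries. -/
def bpart (w0 w1 w2 w3 w4 : ℤ) : List ℤ → List ℤ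
  | a :: b :: c :: d :: e :: r => (w0 * a + w1 * b + w2 * c + w3 * d + w4 * e) :: bpart w0 w1 w2 w3 w4 r
  | _ => []

/-- The five rows. -/
def brows (i : ℕ) (L : List ℤ) : List ℤ := bpart (bM i 0) (bM i 1) (bM i 2) (bM i 3) (bM i 4) L

/-- One transformation step: the last axis becomes the first. -/
def bstep (L : List ℤ) : List ℤ := brows 0 L ++ brows 1 L ++ brows 2 L ++ brows 3 L ++ brows 4 L

/-- All hundred and twenty-five controls, order `25 i + 5 j + k`. -/
def ctrls (L : List ℤ) : List ℤ := bstep (bstep (bstep L))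

theorem bpart_spec (w0 w1 w2 w3 w4 : ℤ) : ∀ (N : ℕ) (L : List ℤ), L.length = 5 * N →
    (bpart w0 w1 w2 w3 w4 L).length = N ∧ ∀ n < N, (bpart w0 w1 w2 w3 w4 L).getD n 0 =
      w0 * L.getD (5 * n) 0 + w1 * L.getD (5 * n + 1) 0 + w2 * L.getD (5 * n + 2) 0 +
        w3 * L.getD (5 * n + 3) 0 + w4 * L.getD (5 * n + 4) 0
  | 0, L, h => by
    rw [mul_zero, List.length_eq_zero_iff] at h
    simp [h, bpart]
  | N + 1, [], h => by simp at h
  | N + 1, [a], h => by simp at h; omega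
  | N + 1, [a, b], h => by simp at h; omega
  | N + 1, [a, b, c], h => by simp at h; omega
  | N + 1, [a, b, c, d], h => by simp at h; omega
  | N + 1, a :: b :: c :: d :: e :: r, h => by
    obtain ⟨h1, h2⟩ := bpart_spec w0 w1 w2 w3 w4 N r (by simp at h; omega)
    refine ⟨by simp [bpart, h1], fun n hn => ?_⟩
    cases n with
    | zero => simp [bpart]
    | succ n =>
      simp only [bpart, List.getD_cons_succ, Nat.mul_add, mul_one,
        show 5 * n + 5 + 1 = 5 * n + 1 + 1 + 1 + 1 + 1 + 1 by omega,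
        show 5 * n + 5 + 2 = 5 * n + 2 + 1 + 1 + 1 + 1 + 1 by omega,
        show 5 * n + 5 + 3 = 5 * n + 3 + 1 + 1 + 1 + 1 + 1 by omega,
        show 5 * n + 5 + 4 = 5 * n + 4 + 1 + 1 + 1 + 1 + 1 by omega]
      exact h2 n (by omega)

theorem brows_spec (i : ℕ) {L : List ℤ} {N : ℕ} (h : L.length = 5 * N) :
    (brows i L).length = N ∧
      ∀ n < N, (brows i L).getD n 0 = ∑ q ∈ Finset.range 5, bM i q * L.getD (5 * n + q) 0 := by
  obtain ⟨h1, h2⟩ := bpart_spec (bM i 0) (bM i 1) (bM i 2) (bM i 3) (bM i 4) N L h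
  exact ⟨h1, fun n hn => by rw [brows, h2 n hn]; simp [Finset.sum_range_succ]⟩

theorem bstep_spec {L : List ℤ} {N : ℕ} (h : L.length = 5 * N) :
    (bstep L).length = 5 * N ∧ ∀ i < 5, ∀ n < N,
      (bstep L).getD (i * N + n) 0 = ∑ q ∈ Finset.range 5, bM i q * L.getD (5 * n + q) 0 := by
  have hl := fun i => (brows_spec i h).1
  refine ⟨by simp [bstep, hl]; ring, fun i hi n hn => ?_⟩
  rw [← (brows_spec i h).2 n hn, bstep]
  interval_cases i <;> simp only [List.getD_eq_getElem?_getD, List.append_assoc]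
  · rw [List.getElem?_append_left (by rw [hl]; omega)]; simp
  · rw [List.getElem?_append_right (by rw [hl]; omega), List.getElem?_append_left (by rw [hl, hl]; omega), hl]
    simp
  · rw [List.getElem?_append_right (by rw [hl]; omega), List.getElem?_append_right (by rw [hl, hl]; omega),
      List.getElem?_append_left (by rw [hl, hl, hl]; omega), hl, hl]
    congr 2; omega
  · rw [List.getElem?_append_right (by rw [hl]; omega), List.getElem?_append_right (by rw [hl, hl]; omega),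
      List.getElem?_append_right (by rw [hl, hl, hl]; omega),
      List.getElem?_append_left (by rw [hl, hl, hl, hl]; omega), hl, hl, hl]
    congr 2; omega
  · rw [List.getElem?_append_right (by rw [hl]; omega), List.getElem?_append_right (by rw [hl, hl]; omega),
      List.getElem?_append_right (by rw [hl, hl, hl]; omega), List.getElem?_append_right (by rw [hl, hl, hl, hl]; omega),
      hl, hl, hl, hl]
    congr 2; omega

theorem ctrls_length {L : List ℤ} (h : L.length = 125) : (ctrls L).length = 125 :=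
  (bstep_spec (N := 25) (bstep_spec (N := 25) (bstep_spec (N := 25) h).1).1).1

theorem ctrls_spec {L : List ℤ} (h : L.length = 125) {i j k : ℕ} (hi : i < 5) (hj : j < 5) (hk : k < 5) :
    (ctrls L).getD (25 * i + 5 * j + k) 0 = ∑ p ∈ Finset.range 5, ∑ q ∈ Finset.range 5, ∑ r ∈ Finset.range 5,
      bM i p * bM j q * bM k r * L.getD (25 * p + 5 * q + r) 0 := by
  obtain ⟨h1, e1⟩ := bstep_spec (N := 25) h
  obtain ⟨h2, e2⟩ := bstep_spec (N := 25) h1
  obtain ⟨-, e3⟩ := bstep_spec (N := 25) h2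
  rw [ctrls, show 25 * i + 5 * j + k = i * 25 + (5 * j + k) by omega, e3 i hi _ (by omega)]
  refine Finset.sum_congr rfl fun p hp => ?_
  have hp' := Finset.mem_range.1 hp
  rw [show 5 * (5 * j + k) + p = j * 25 + (5 * k + p) by omega, e2 j hj _ (by omega), Finset.mul_sum]
  refine Finset.sum_congr rfl fun q hq => ?_
  have hq' := Finset.mem_range.1 hq
  rw [show 5 * (5 * k + p) + q = k * 25 + (5 * p + q) by omega, e1 k hk _ (by omega), Finset.mul_sum, Finset.mul_sum]
  refine Finset.sum_congr rfl fun r _ => ?_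
  rw [show 5 * (5 * p + q) + r = 25 * p + 5 * q + r by omega]
  ring

/-- The weight of the control `(i, j, k)`. -/
noncomputable def bW (s t u : ℝ) (i j k : ℕ) : ℝ := bB s i * bB t j * bB u k

theorem bW_nonneg {s t u : ℝ} (hs : |s| ≤ 1) (ht : |t| ≤ 1) (hu : |u| ≤ 1) (i j k : ℕ) :
    0 ≤ bW s t u i j k :=
  mul_nonneg (mul_nonneg (bB_nonneg hs i) (bB_nonneg ht j)) (bB_nonneg hu k)

theorem bW_sum (s t u : ℝ) : ∑ i ∈ Finset.range 5, ∑ j ∈ Finset.range 5, ∑ k ∈ Finset.range 5, bW s t u i j k = 1 := by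
  simp only [bW, ← Finset.mul_sum, bB_sum, mul_one]

/-- Value at `(s, t, u)` of the coefficients, order `25 k + 5 l + m` for `s^k t^l u^m`. -/
noncomputable def polyR (c : ℕ → ℝ) (s t u : ℝ) : ℝ :=
  ∑ k ∈ Finset.range 5, ∑ l ∈ Finset.range 5, ∑ m ∈ Finset.range 5,
    c (25 * k + 5 * l + m) * (s ^ k * t ^ l * u ^ m)

/-- A control, scaled by `1728`. -/
noncomputable def ctrlR (c : ℕ → ℝ) (i j k : ℕ) : ℝ :=
  ∑ p ∈ Finset.range 5, ∑ q ∈ Finset.range 5, ∑ r ∈ Finset.range 5,
    (bM i p : ℝ) * bM j q * bM k r * c (25 * p + 5 * q + r)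

theorem polyR_eq (c : ℕ → ℝ) (s t u : ℝ) :
    1728 * polyR c s t u = ∑ i ∈ Finset.range 5, ∑ j ∈ Finset.range 5, ∑ k ∈ Finset.range 5,
      bW s t u i j k * ctrlR c i j k := by
  have h3 : ∀ p q, 12 * ∑ r ∈ Finset.range 5, c (25 * p + 5 * q + r) * u ^ r =
      ∑ k ∈ Finset.range 5, bB u k * ∑ r ∈ Finset.range 5, (bM k r : ℝ) * c (25 * p + 5 * q + r) :=
    fun p q => bern1 u _
  have h2 : ∀ p, 12 * ∑ q ∈ Finset.range 5, (12 * ∑ r ∈ Finset.range 5, c (25 * p + 5 * q + r) * u ^ r) * t ^ q =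
      ∑ j ∈ Finset.range 5, bB t j * ∑ q ∈ Finset.range 5, (bM j q : ℝ) *
        (12 * ∑ r ∈ Finset.range 5, c (25 * p + 5 * q + r) * u ^ r) := fun p => bern1 t _
  have h1 := bern1 s fun p => 12 * ∑ q ∈ Finset.range 5, (12 * ∑ r ∈ Finset.range 5, c (25 * p + 5 * q + r) * u ^ r) * t ^ q
  have e : 1728 * polyR c s t u = 12 * ∑ p ∈ Finset.range 5,
      (12 * ∑ q ∈ Finset.range 5, (12 * ∑ r ∈ Finset.range 5, c (25 * p + 5 * q + r) * u ^ r) * t ^ q) * s ^ p := by
    simp only [polyR, Finset.mul_sum, Finset.sum_mul]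
    exact Finset.sum_congr rfl fun p _ => Finset.sum_congr rfl fun q _ => Finset.sum_congr rfl fun r _ => by ring
  rw [e, h1]
  simp only [h2]
  simp only [h3, bW, ctrlR]
  simp only [Finset.mul_sum]
  refine Finset.sum_congr rfl fun i _ => ?_
  rw [Finset.sum_comm]
  refine Finset.sum_congr rfl fun j _ => ?_
  -- now `p, q, k, r` on the left and `k, p, q, r` on the right
  rw [Finset.sum_comm (γ := ℕ) (f := fun k p => ∑ q ∈ Finset.range 5, ∑ r ∈ Finset.range 5,
    bB s i * bB t j * bB u k * ((bM i p : ℝ) * bM j q * bM k r * c (25 * p + 5 * q + r)))]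
  refine Finset.sum_congr rfl fun p _ => ?_
  rw [Finset.sum_comm (γ := ℕ) (f := fun k q => ∑ r ∈ Finset.range 5,
    bB s i * bB t j * bB u k * ((bM i p : ℝ) * bM j q * bM k r * c (25 * p + 5 * q + r)))]
  exact Finset.sum_congr rfl fun q _ => Finset.sum_congr rfl fun k _ => Finset.sum_congr rfl fun r _ => by ring

theorem ctrlR_list {L : List ℤ} (h : L.length = 125) {i j k : ℕ} (hi : i < 5) (hj : j < 5) (hk : k < 5) :
    ctrlR (fun n => (L.getD n 0 : ℝ)) i j k = ((ctrls L).getD (25 * i + 5 * j + k) 0 : ℝ) := by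
  rw [ctrls_spec h hi hj hk]
  push_cast [ctrlR]
  rfl

end Vale.Agent.P098.Exact.Sos6
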