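import Vale.Agent.P098.Exact.Sos6.Cover
import Vale.Agent.P098.Exact.Sos6.Bern

/-! From target bounds and checked controls to the per-box conclusion. -/

noncomputable section

namespace Vale.Agent.P098.Exact.Sos6

/-- Slot sums are additive in the slot vector. -/
theorem gsum_smul (z v : ℕ → ℝ) (k : ℝ) : ∀ (Gs : List Mon) (X : List ℝ),
    gsum z v Gs (X.map (k * ·)) = k * gsum z v Gs X
  | [], X => by simp [gsum]
  | G :: Gs, [] => by simp [gsum]
  | G :: Gs, x :: X => by simp [gsum, gsum_smul z v k Gs X]; ring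

/-- Slot sums are additive. -/
theorem gsum_add (z v : ℕ → ℝ) : ∀ (Gs : List Mon) (X Y : List ℝ), X.length = Y.length →
    gsum z v Gs (List.zipWith (· + ·) X Y) = gsum z v Gs X + gsum z v Gs Y
  | [], X, Y, _ => by simp [gsum]
  | G :: Gs, [], [], _ => by simp [gsum]
  | G :: Gs, x :: X, y :: Y, h => by
    simp only [List.zipWith_cons_cons, gsum, gsum_add z v Gs X Y (by simpa using h)]
    ring

/-- **A box with bounded targets and positive controls is good.** `P` gives the slot sums of the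
targets; `el` loads their errors; the checked controls carry the factor `1728`. -/
theorem good_of_controls (al : ℝ) (L : List Term) (δ : ℝ) (x : Box) {SC : ℝ} (hSC : 0 < SC)
    (P : (ℕ → ℝ) → (ℕ → ℝ) → ℕ → ℝ) (el gap : ℕ → ℕ) (hδ : δ * (2 * 1728 * SC) ≤ gap 31)
    (hT : ∀ (s t u : ℝ), |s| ≤ 1 → |t| ≤ 1 → |u| ≤ 1 →
      ∀ (v : Fin 6 → ℝ) (τ : Fin 6 → Fin 6 → Fin 6 → ℝ) (a : ℝ),
        Admissible (chartH (x.pt s t u).1 (x.pt s t u).2.1 (x.pt s t u).2.2) v τ → 0 ≤ a →
        2 * |SC * Qval al L (chartH (x.pt s t u).1 (x.pt s t u).2.1 (x.pt s t u).2.2) v τ a 1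
              - polyR (P (zvar τ a 1) (vvar v)) s t u|
          ≤ ∑ n ∈ Finset.range 32, (el n : ℝ) * zvar τ a 1 n ^ 2)
    (hC : ∀ z v, Dom z v → ∀ i < 5, ∀ j < 5, ∀ k < 5,
      ∑ n ∈ Finset.range 32, ((1728 * el n + gap n : ℕ) : ℝ) * z n ^ 2 ≤ 2 * ctrlR (P z v) i j k) :
    x.Good al L δ := by
  intro s t u hs ht hu v τ a hA ha
  obtain ⟨Q, eQ⟩ : ∃ Q, Q = Qval al L (chartH (x.pt s t u).1 (x.pt s t u).2.1 (x.pt s t u).2.2) v τ a 1 := ⟨_, rfl⟩
  rw [← eQ]
  have hD := dom_of_admissible (a := a) (b := 1) hA (by simpa using ha)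
  have h := hT s t u hs ht hu v τ a hA ha
  rw [← eQ] at h
  obtain ⟨z, ez⟩ : ∃ z, z = zvar τ a 1 := ⟨_, rfl⟩
  rw [← ez] at hD h
  obtain ⟨E, eE⟩ : ∃ E, E = ∑ n ∈ Finset.range 32, (el n : ℝ) * z n ^ 2 := ⟨_, rfl⟩
  have hg : 1728 * E + gap 31 ≤ 2 * (1728 * polyR (P z (vvar v)) s t u) := by
    have hb : ∀ i < 5, ∀ j < 5, ∀ k < 5, 1728 * E + gap 31 ≤ 2 * ctrlR (P z (vvar v)) i j k :=
      fun i hi j hj k hk => by
        refine le_trans ?_ (hC z (vvar v) hD i hi j hj k hk)
        rw [eE, Finset.mul_sum]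
        have h31 : z 31 = 1 := by simp [ez, zvar]
        have : (gap 31 : ℝ) ≤ ∑ n ∈ Finset.range 32, (gap n : ℝ) * z n ^ 2 := by
          refine le_trans (by simp [h31]) (Finset.single_le_sum (f := fun n => (gap n : ℝ) * z n ^ 2)
            (fun n _ => by positivity) (Finset.mem_range.2 (by norm_num : 31 < 32)))
        simp only [Nat.cast_add, Nat.cast_mul, Nat.cast_ofNat, add_mul, Finset.sum_add_distrib, mul_assoc]
        linarith
    rw [polyR_eq]
    simp only [Finset.mul_sum]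
    calc 1728 * E + gap 31
        = ∑ i ∈ Finset.range 5, ∑ j ∈ Finset.range 5, ∑ k ∈ Finset.range 5, bW s t u i j k * (1728 * E + gap 31) := by
          simp only [← Finset.sum_mul, bW_sum, one_mul]
      _ ≤ _ := Finset.sum_le_sum fun i hi => Finset.sum_le_sum fun j hj => Finset.sum_le_sum fun k hk => by
          refine (mul_le_mul_of_nonneg_left (hb i (Finset.mem_range.1 hi) j (Finset.mem_range.1 hj) k
            (Finset.mem_range.1 hk)) (bW_nonneg hs ht hu i j k)).trans_eq ?_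
          ring
  have h2 : 2 * (polyR (P z (vvar v)) s t u - SC * Q) ≤ E := by
    rw [eE]
    linarith [neg_le_abs (SC * Q - polyR (P z (vvar v)) s t u)]
  by_contra hcon
  have := mul_lt_mul_of_pos_right (not_le.1 hcon) (show 0 < 2 * 1728 * SC by positivity)
  linarith

end Vale.Agent.P098.Exact.Sos6
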