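import Vale.Agent.P098.Exact.Sos6.Pipe
import Vale.Agent.P098.Exact.Sos6.Bern

/-!
The targets of a box: packed kept coefficients of the scaled interior form and the loads of
everything dropped, with the bound they satisfy.
-/

namespace Vale.Agent.P098.Exact.Sos6

open Sos (pk base half npk)

/-- Model of the dependent coordinate on a box: `|U h - m| ≤ e` with `m = hd + ...`. -/
structure HData where
  /-- polynomial in the box coordinates -/
  hm : List (List (List ℤ))
  /-- units -/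
  U : ℕ
  /-- constant part -/
  hd : ℕ
  /-- error -/
  e : ℕ

/-- Absolute sum of a list. -/
noncomputable def sumN (L : List ℤ) : ℕ :=
  List.rec (motive := fun _ => ℕ) 0 (fun x _ ih => Nat.add (Int.natAbs x) ih) L

/-- Absolute sum of the coefficients. -/
noncomputable def sumN3 (L : List (List (List ℤ))) : ℕ := sumN L.flatten.flatten

/-- The nonconstant absolute sum of the model. -/
noncomputable def HData.rest (H : HData) : ℕ :=
  sumN3 (zOps.poly3.add H.hm [[[Int.neg (Int.ofNat H.hd)]]])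

/-- The model is valid on the box. -/
noncomputable def HData.ok (H : HData) (x : Box) : Bool :=
  Nat.blt 0 H.U && Nat.blt H.rest H.hd &&
    Nat.ble (sumN3 (zOps.poly3.add (zOps.poly3.smul 16777216 (mul3 zOps H.hm H.hm))
      (zOps.poly3.smul (Int.neg (Int.ofNat (Nat.mul H.U H.U))) (atBox zOps 2 x R4))))
      (Nat.mul 16777216 (Nat.mul H.e (Nat.sub H.hd H.rest)))

/-- Even and odd parts of the parts, scaled by `2 ^ e`. -/
noncomputable def partsP (W e : ℕ) (rs : List Part) :
    List (List (List PV)) × List (List (List PV)) :=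
  red pOps (sub6 pOps (mkP pOps (leafU W) rs)) e

/-- Box independent conditions. -/
noncomputable def globalOK (W n D : ℕ) (rs : List Part) : Bool :=
  Nat.blt 0 W && partsOK n rs &&
    Nat.ble (sub6 pOps (mkP pOps (leafU W) rs)).length (Nat.add D 1) &&
    ok3 D (partsP W D rs).1 && ok3 D (partsP W D rs).2

/-- Digit bound of a list. -/
noncomputable def sumB (L : List PV) : ℕ :=
  List.rec (motive := fun _ => ℕ) 0 (fun x _ ih => Nat.add x.2 ih) L

/-- Sum of absolute vectors. -/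
noncomputable def sumA (W n : ℕ) (L : List PV) : ℕ :=
  List.rec (motive := fun _ => ℕ) 0 (fun x _ ih => Nat.add (absV W n x.1) ih) L

/-- The combined polynomial at a box. -/
noncomputable def polyAt (W D : ℕ) (rs : List Part) (x : Box) (H : HData) : List (List (List PV)) :=
  pOps.poly3.add (pOps.poly3.smul (Int.ofNat H.U) (atBox pOps D x (partsP W D rs).1))
    (mul3 pOps H.hm (atBox pOps D x (partsP W D rs).2))

/-- Packed targets. -/
noncomputable def boxV (W D : ℕ) (rs : List Part) (x : Box) (H : HData) : List ℤ :=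
  (keptL (0, 0) (polyAt W D rs x H)).map Prod.fst

/-- Loads of the dropped part. -/
noncomputable def boxEl (W N D : ℕ) (gl : List Mon) (rs : List Part) (x : Box) (H : HData) : List ℕ :=
  (loads N gl (ndigs W gl.length
    (Nat.add (sumA W gl.length (drop3 (polyAt W D rs x H)))
      (Nat.mul H.e (sumA W gl.length (atBox pOps D x (partsP W D rs).2).flatten.flatten))))).map
    fun l => Nat.div (Nat.add l 63) 64

/-- A box: valid model, no overflow, and a check of targets and loads. -/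
noncomputable def boxOK (W N D : ℕ) (gl : List Mon) (rs : List Part) (x : Box) (H : HData)
    (k : List ℤ → List ℕ → Bool) : Bool :=
  H.ok x &&
    Nat.blt (Nat.add (Nat.add (sumB (keptL (0, 0) (polyAt W D rs x H)))
      (sumB (drop3 (polyAt W D rs x H))))
      (Nat.mul (Nat.add H.e 1) (sumB (atBox pOps D x (partsP W D rs).2).flatten.flatten))) (half W) &&
    k (boxV W D rs x H) (boxEl W N D gl rs x H)

theorem sumN_bound : ∀ L : List ℤ, (L.map fun z : ℤ => |(z : ℝ)|).sum = (sumN L : ℝ)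
  | [] => by simp [sumN]
  | x :: L => by
    rw [show sumN (x :: L) = x.natAbs + sumN L from rfl, List.map_cons, List.sum_cons, sumN_bound L,
      Nat.cast_add, ← Int.cast_abs, ← Int.natCast_natAbs, Int.cast_natCast]

theorem ev3_le (s t u : ℝ) (hs : |s| ≤ 1) (ht : |t| ≤ 1) (hu : |u| ≤ 1)
    (L : List (List (List ℤ))) : |ev3 (fun z : ℤ => (z : ℝ)) s t u L| ≤ (sumN3 L : ℝ) := by
  rw [sumN3, ← sumN_bound, sum_map_flatten, sum_map_flatten]
  exact evP_abs _ _ (fun K => evP_abs _ _ (fun J => evP_abs _ _ (fun z => le_rfl) u hu J) t ht K)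
    s hs L

theorem HData.bound (H : HData) (x : Box) (hH : H.ok x = true) (s t u h : ℝ) (hs : |s| ≤ 1)
    (ht : |t| ≤ 1) (hu : |u| ≤ 1) (h0 : 0 ≤ h)
    (hh : h ^ 2 = 1 - 2 * (x.pt s t u).1 ^ 2 - 2 * (x.pt s t u).2.1 ^ 2 - 20 * (x.pt s t u).2.2 ^ 2) :
    |(H.U : ℝ) * h - ev3 (fun z : ℤ => (z : ℝ)) s t u H.hm| ≤ H.e := by
  simp only [HData.ok, Bool.and_eq_true, Nat.blt_eq, Nat.ble_eq] at hH
  obtain ⟨⟨hU, hr⟩, hS⟩ := hH
  have V := zOps_val
  obtain ⟨m, hm⟩ : ∃ m, m = ev3 (fun z : ℤ => (z : ℝ)) s t u H.hm := ⟨_, rfl⟩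
  have b1 := ev3_le s t u hs ht hu (zOps.poly3.add H.hm [[[Int.neg (Int.ofNat H.hd)]]])
  have b2 := (ev3_le s t u hs ht hu _).trans (Nat.cast_le.2 hS)
  rw [ev3_add V, ← hm] at b1
  rw [ev3_add V, ev3_smul V, ev3_smul V, ev3_mul3 V, ← hm, ev_atBox V 2 x R4 (by decide +kernel),
    ev3_R4, ← hh] at b2
  change |m + ev3 _ s t u [[[Int.neg (Int.ofNat H.hd)]]]| ≤ (H.rest : ℝ) at b1
  have hn : ∀ y : ℤ, Int.neg y = -y := fun _ => rfl
  simp [ev3, evP, hn, Int.ofNat_eq_natCast] at b1
  simp [hn, Int.ofNat_eq_natCast, show (4096 : ℝ) ^ 2 = 16777216 by norm_num] at b2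
  rw [Nat.cast_sub hr.le] at b2
  have hr' : (H.rest : ℝ) < H.hd := Nat.cast_lt.2 hr
  have hlow : (H.hd : ℝ) - H.rest ≤ m := by linarith [(abs_le.1 b1).1]
  have hpos : (0 : ℝ) < H.hd - H.rest := by linarith
  have hsum : (H.hd : ℝ) - H.rest ≤ (H.U : ℝ) * h + m := by
    linarith [mul_nonneg (Nat.cast_nonneg (α := ℝ) H.U) h0]
  have e : 16777216 * (m * m) + -((H.U : ℝ) * H.U * (16777216 * h ^ 2)) =
      -(16777216 * (((H.U : ℝ) * h - m) * ((H.U : ℝ) * h + m))) := by ring
  rw [e, abs_neg, abs_mul, abs_mul, abs_of_pos (by linarith : (0 : ℝ) < (H.U : ℝ) * h + m),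
    abs_of_pos (by norm_num : (0 : ℝ) < 16777216)] at b2
  rw [← hm]
  by_contra hc
  have h2 := mul_lt_mul' (a := (H.hd : ℝ) - H.rest) hsum (not_le.1 hc) (Nat.cast_nonneg _)
    (by linarith)
  linarith

theorem mem_le_sumB : ∀ (L : List PV) (p : PV), p ∈ L → p.2 ≤ sumB L
  | x :: L, p, h => by
    show p.2 ≤ x.2 + sumB L
    rcases List.mem_cons.1 h with rfl | h
    · exact Nat.le_add_right _ _
    · exact le_trans (mem_le_sumB L p h) (Nat.le_add_left _ _)

theorem sumA_rel (W : ℕ) (hW : 0 < W) (gs : List ℝ) : ∀ {L : List PV} {L' : List ℝ},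
    List.Forall₂ (PRel W gs) L L' → sumB L < half W →
    ∃ a : ℕ → ℕ, sumA W gs.length L = npk W gs.length a ∧ (∀ k, a k ≤ sumB L) ∧
      (L'.map fun x => |x|).sum ≤ ∑ k ∈ Finset.range gs.length, (a k : ℝ) * |gs.getD k 0| := by
  intro L L' h
  induction h with
  | nil => intro _; exact ⟨fun _ => 0, by simp [sumA, npk], by simp, by simp⟩
  | @cons p x L L' hp _ ih =>
    intro hb
    change p.2 + sumB L < half W at hb
    obtain ⟨a, a1, a2, a3⟩ := ih (by omega)
    obtain ⟨f, f1, f2, f3⟩ := hp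
    refine ⟨fun k => (f k).natAbs + a k, ?_, fun k => Nat.add_le_add (f1 k) (a2 k), ?_⟩
    · show absV W gs.length p.1 + sumA W gs.length L = _
      rw [a1, f2, absV_eq W hW, npk_add]
      intro k
      rw [← Int.natCast_natAbs]
      have := f1 k
      omega
    · rw [List.map_cons, List.sum_cons]
      have : |x| ≤ ∑ k ∈ Finset.range gs.length, ((f k).natAbs : ℝ) * |gs.getD k 0| := by
        rw [f3]
        refine (Finset.abs_sum_le_sum_abs _ _).trans (le_of_eq ?_)
        refine Finset.sum_congr rfl fun k _ => ?_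
        rw [abs_mul, ← Int.cast_abs, ← Int.natCast_natAbs, Int.cast_natCast]
      push_cast
      simp only [add_mul, Finset.sum_add_distrib]
      linarith

theorem gsum_range (z v : ℕ → ℝ) : ∀ (gl : List Mon) (X : List ℝ), X.length = gl.length →
    gsum z v gl X =
      ∑ k ∈ Finset.range gl.length, X.getD k 0 * (gl.map fun G => G.ev z v).getD k 0
  | [], X, _ => by simp [gsum]
  | G :: gl, [], h => by simp at h
  | G :: gl, x :: X, h => by
    simp only [gsum, List.length_cons, Finset.sum_range_succ', List.map_cons, List.getD_cons_succ,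
      List.getD_cons_zero, gsum_range z v gl X (by simpa using h)]
    ring

theorem decode_gsum (W : ℕ) (hW : 0 < W) (gl : List Mon) (z v : ℕ → ℝ) (p : PV) (x : ℝ)
    (h : PRel W (gl.map fun G => G.ev z v) p x) (hb : p.2 < half W) :
    gsumZ z v gl (Sos.decode W gl.length p.1) = x := by
  obtain ⟨f, f1, f2, f3⟩ := h
  rw [List.length_map] at f2 f3
  rw [gsumZ, gsum_range z v gl _ (by simp [Sos.decode_length]), f3, f2]
  refine Finset.sum_congr rfl fun k hk => ?_
  have hc : ∀ (L : List ℤ) (j : ℕ), (L.map fun y : ℤ => (y : ℝ)).getD j 0 = ((L.getD j 0 : ℤ) : ℝ) :=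
    fun L j => by simp [List.getD_eq_getElem?_getD]; cases L[j]? <;> simp
  rw [hc]
  rw [Sos.decode_getD W hW gl.length f (fun j _ => by
    rw [← Int.natCast_natAbs]; have := f1 j; omega) k (Finset.mem_range.1 hk)]

/-- **Targets and loads of a checked box.** -/
theorem target (W N D : ℕ) (gl : List Mon) (rs : List Part) (x : Box) (H : HData)
    (k : List ℤ → List ℕ → Bool) (hg : globalOK W gl.length D rs = true)
    (hgl : ∀ G ∈ gl, G.a < N ∧ G.b < N) (hB : boxOK W N D gl rs x H k = true) :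
    k (boxV W D rs x H) (boxEl W N D gl rs x H) = true ∧
      ∀ (s t u : ℝ), |s| ≤ 1 → |t| ≤ 1 → |u| ≤ 1 → ∀ (z v : ℕ → ℝ) (h X : ℝ), 0 ≤ h →
        h ^ 2 = 1 - 2 * (x.pt s t u).1 ^ 2 - 2 * (x.pt s t u).2.1 ^ 2 - 20 * (x.pt s t u).2.2 ^ 2 →
        v 0 ^ 2 + v 1 ^ 2 + v 2 ^ 2 + v 3 ^ 2 + v 4 ^ 2 + v 5 ^ 2 ≤ 1 →
        partsVal (gl.map fun G => G.ev z v)
          (lsG (h / 2) (x.pt s t u).1 (x.pt s t u).2.1 (x.pt s t u).2.2) rs = X →
        2 * |(H.U : ℝ) * 4096 ^ D * 2 ^ D * X - polyR (fun m =>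
            gsumZ z v gl (Sos.decode W gl.length ((boxV W D rs x H).getD m 0))) s t u| ≤
          ∑ m ∈ Finset.range N, ((boxEl W N D gl rs x H).getD m 0 : ℝ) * z m ^ 2 := by
  simp only [boxOK, Bool.and_eq_true, Nat.blt_eq] at hB
  obtain ⟨⟨hH, hsum⟩, hk⟩ := hB
  refine ⟨hk, fun s t u hs ht hu z v h X h0 hh hv hX => ?_⟩
  simp only [globalOK, Bool.and_eq_true, Nat.blt_eq, Nat.ble_eq] at hg
  obtain ⟨⟨⟨⟨hW, hrs⟩, hlen⟩, hoE⟩, hoO⟩ := hg
  obtain ⟨gs, hgs⟩ : ∃ gs, gs = gl.map fun G => G.ev z v := ⟨_, rfl⟩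
  have hn : gs.length = gl.length := by simp [hgs]
  rw [← hgs] at hX
  have hmk5 := mkP_rel W gs rs (by rw [hn]; exact hrs)
  have hmk := sub6_rel (prel W gs) hmk5
  obtain ⟨hE, hO⟩ := red_rel (prel W gs) hmk D
  rw [← partsP] at hE hO
  have hbE := atBox_rel (prel W gs) D x hE
  have hbO := atBox_rel (prel W gs) D x hO
  have hP : Rel3 (PRel W gs) (polyAt W D rs x H) _ :=
    add3_rel (prel W gs) (smul3_rel (prel W gs) (Int.ofNat H.U) hbE) (mul3_rel (prel W gs) H.hm hbO)
  obtain ⟨Pr, hPr⟩ : ∃ Pr, Pr = rOps.poly3.add (rOps.poly3.smul (Int.ofNat H.U)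
      (atBox rOps D x (red rOps (sub6 rOps (mkP rOps (leafR gs) rs)) D).1))
      (mul3 rOps H.hm (atBox rOps D x (red rOps (sub6 rOps (mkP rOps (leafR gs) rs)) D).2)) := ⟨_, rfl⟩
  obtain ⟨Or, hOr⟩ : ∃ Or, Or = atBox rOps D x (red rOps (sub6 rOps (mkP rOps (leafR gs) rs)) D).2 := ⟨_, rfl⟩
  rw [← hPr] at hP
  rw [← hOr] at hbO
  -- the exact value
  have V := rOps_val
  have e1 := ev_red V (x.pt s t u).1 (x.pt s t u).2.1 (x.pt s t u).2.2 h hh
    (sub6 rOps (mkP rOps (leafR gs) rs)) D (by rw [← hmk.length_eq]; exact hlen)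
  rw [ev4_sub6 V, ev6_mkP gs _ rs (fun p hp => by
    simp only [partsOK, List.all_eq_true, Bool.and_eq_true, Nat.blt_eq] at hrs
    exact (hrs p hp).1.1), hX] at e1
  have e2 : (H.U : ℝ) * 4096 ^ D * 2 ^ D * X - ev3 id s t u Pr =
      ((H.U : ℝ) * h - ev3 (fun z : ℤ => (z : ℝ)) s t u H.hm) * ev3 id s t u Or := by
    rw [hPr, hOr, ev3_add V, ev3_smul V, ev3_mul3 V,
      ev_atBox V D x _ (by rw [← ok3_rel D hE]; exact hoE),
      ev_atBox V D x _ (by rw [← ok3_rel D hO]; exact hoO)]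
    simp only [Int.ofNat_eq_natCast, Int.cast_natCast]
    linear_combination ((H.U : ℝ) * 4096 ^ D) * e1
  have hd := H.bound x hH s t u h hs ht hu h0 hh
  have hko := ev3_kept s t u hs ht hu Pr
  have hO1 : |ev3 id s t u Or| ≤ (Or.flatten.flatten.map fun y => |y|).sum := by
    rw [sum_map_flatten, sum_map_flatten]
    exact evP_abs _ _ (fun K => evP_abs _ _ (fun J => evP_abs _ _ (fun y => le_rfl) u hu J) t ht K)
      s hs Or
  -- the absolute vectors
  obtain ⟨bO, hbOdef⟩ : ∃ b, b = sumB (atBox pOps D x (partsP W D rs).2).flatten.flatten := ⟨_, rfl⟩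
  rw [← hbOdef] at hsum
  have hsum' : sumB (keptL (0, 0) (polyAt W D rs x H)) + sumB (drop3 (polyAt W D rs x H))
      + (H.e + 1) * bO < half W := hsum
  have hbO' : bO ≤ (H.e + 1) * bO := Nat.le_mul_of_pos_left _ (Nat.succ_pos _)
  obtain ⟨a, a1, a2, a3⟩ := sumA_rel W hW gs (drop3_rel hP) (by omega)
  obtain ⟨b, b1, b2, b3⟩ := sumA_rel W hW gs (List.rel_flatten (List.rel_flatten hbO))
    (by rw [← hbOdef]; omega)
  rw [← hbOdef] at b2
  have hdig : ndigs W gl.length (Nat.add (sumA W gl.length (drop3 (polyAt W D rs x H)))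
      (Nat.mul H.e (sumA W gl.length (atBox pOps D x (partsP W D rs).2).flatten.flatten))) =
      (List.range gl.length).map fun k => a k + H.e * b k := by
    rw [← hn, a1, b1]
    show ndigs W gs.length (npk W gs.length a + H.e * npk W gs.length b) = _
    rw [npk_smul, npk_add]
    refine ndigs_npk W _ _ fun k _ => ?_
    have h1 : H.e * b k ≤ H.e * bO := Nat.mul_le_mul_left _ (b2 k)
    have h2 : H.e * bO ≤ (H.e + 1) * bO := Nat.mul_le_mul_right _ (Nat.le_succ _)
    have h3 := a2 k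
    have h4 : half W ≤ base W := Nat.pow_le_pow_right (by norm_num) (Nat.sub_le _ _)
    omega
  have hL := loads_bound N z v hv gl ((List.range gl.length).map fun k => a k + H.e * b k) hgl
  rw [← hgs, ← hdig] at hL
  -- the kept part
  have hkept : polyR (fun m => gsumZ z v gl (Sos.decode W gl.length ((boxV W D rs x H).getD m 0)))
      s t u = ∑ i ∈ Finset.range 5, ∑ j ∈ Finset.range 5, ∑ l ∈ Finset.range 5,
        s ^ i * (t ^ j * (u ^ l * kept 0 Pr i j l)) := by
    refine Finset.sum_congr rfl fun i hi => Finset.sum_congr rfl fun j hj =>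
      Finset.sum_congr rfl fun l hl => ?_
    simp only [Finset.mem_range] at hi hj hl
    have hV : (boxV W D rs x H).getD (25 * i + 5 * j + l) 0 =
        (kept (0, 0) (polyAt W D rs x H) i j l).1 := by
      rw [boxV, keptL, List.getD_eq_getElem?_getD, List.getElem?_map, List.getElem?_map,
        List.getElem?_range (by omega)]
      simp only [Option.map_some, Option.getD_some]
      rw [show (25 * i + 5 * j + l) / 25 = i by omega,
        show (25 * i + 5 * j + l) / 5 % 5 = j by omega, show (25 * i + 5 * j + l) % 5 = l by omega]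
    have hm : (kept (0, 0) (polyAt W D rs x H) i j l).2 ≤
        sumB (keptL (0, 0) (polyAt W D rs x H)) := by
      refine mem_le_sumB _ _ ?_
      rw [keptL, List.mem_map]
      refine ⟨25 * i + 5 * j + l, List.mem_range.2 (by omega), ?_⟩
      rw [show (25 * i + 5 * j + l) / 25 = i by omega,
        show (25 * i + 5 * j + l) / 5 % 5 = j by omega, show (25 * i + 5 * j + l) % 5 = l by omega]
    simp only [hV]
    rw [decode_gsum W hW gl z v _ _ (hgs ▸ kept_rel (prel W gs).zero hP i j l) (by omega)]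
    show kept 0 Pr i j l * _ = _
    ring
  have hQ : |(H.U : ℝ) * 4096 ^ D * 2 ^ D * X - polyR (fun m =>
      gsumZ z v gl (Sos.decode W gl.length ((boxV W D rs x H).getD m 0))) s t u| ≤
      ∑ k ∈ Finset.range gl.length, ((a k + H.e * b k : ℕ) : ℝ) * |gs.getD k 0| := by
    rw [hkept]
    refine (abs_sub_le _ (ev3 id s t u Pr) _).trans ?_
    rw [e2, abs_mul]
    have h5 : |(H.U : ℝ) * h - ev3 (fun z : ℤ => (z : ℝ)) s t u H.hm| * |ev3 id s t u Or| ≤
        (H.e : ℝ) * ∑ k ∈ Finset.range gl.length, (b k : ℝ) * |gs.getD k 0| :=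
      mul_le_mul hd (hO1.trans (hn ▸ b3)) (abs_nonneg _) (Nat.cast_nonneg _)
    rw [Finset.mul_sum] at h5
    push_cast
    simp only [add_mul, mul_assoc, Finset.sum_add_distrib] at h5 ⊢
    have h6 := hko.trans (hn ▸ a3)
    linarith
  have hel : ∀ m, ((loads N gl (ndigs W gl.length (Nat.add (sumA W gl.length (drop3 (polyAt W D rs x H)))
      (Nat.mul H.e (sumA W gl.length (atBox pOps D x (partsP W D rs).2).flatten.flatten))))).getD m 0 : ℝ)
      ≤ 64 * ((boxEl W N D gl rs x H).getD m 0 : ℝ) := by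
    intro m
    rw [boxEl]
    generalize loads N gl _ = L
    have : L.getD m 0 ≤ 64 * (L.map fun l => Nat.div (Nat.add l 63) 64).getD m 0 := by
      rcases lt_or_ge m L.length with hm | hm
      · simp [List.getD_eq_getElem?_getD, hm]
        show L[m] ≤ 64 * ((L[m] + 63) / 64)
        omega
      · simp [List.getD_eq_getElem?_getD, hm]
    exact_mod_cast this
  have h7 : ∀ k ∈ Finset.range gl.length, ((a k + H.e * b k : ℕ) : ℝ) * |gs.getD k 0| =
      ((((List.range gl.length).map fun k => a k + H.e * b k).getD k 0 : ℕ) : ℝ) * |gs.getD k 0| :=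
    fun k hk => by simp [List.getD_eq_getElem?_getD, Finset.mem_range.1 hk]
  rw [Finset.sum_congr rfl h7, ← hdig] at hQ
  have h8 := hL.trans (Finset.sum_le_sum fun m _ =>
    mul_le_mul_of_nonneg_right (hel m) (sq_nonneg (z m)))
  simp only [mul_assoc, ← Finset.mul_sum] at h8
  simp only [mul_assoc] at hQ ⊢
  linarith

end Vale.Agent.P098.Exact.Sos6
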