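import Vale.Agent.P098.Exact.Sos6.Cert
import Vale.Agent.P098.Exact.Sos6.Target

/-!
Checking the controls of one box against nonnegative combinations of a few Gram certificates.
The residual of a control is one packed integer; its absolute values are weighted by classes and
summed for each coordinate by a mask and a remainder.
-/

namespace Vale.Agent.P098.Exact.Sos6

open Sos (pk base half npk)

/-- The monomial is a pure square. -/
def isSq6 (G : Mon) : Bool :=
  G.a == G.b && G.g.getD 0 0 == 0 && G.g.getD 1 0 == 0 && G.g.getD 2 0 == 0 &&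
    G.g.getD 3 0 == 0 && G.g.getD 4 0 == 0 && G.g.getD 5 0 == 0

/-- Weight of a monomial, in units `1/64` of a square; nothing for a pure square. -/
def wt (G : Mon) : ℕ := if isSq6 G then 0 else if G.a = G.b then 2 * mw G else mw G

/-- The monomial touches a coordinate. -/
def hitB (a : ℕ) (G : Mon) : Bool := Nat.beq G.a a || Nat.beq G.b a

/-- Full slots of the selected monomials of one group. -/
noncomputable def maskL (W : ℕ) (p : Mon → Bool) (L : List Mon) : ℕ :=
  List.rec (motive := fun _ => ℕ) 0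
    (fun G _ ih => Nat.add (Bool.rec 0 (Nat.sub (Nat.pow 2 W) 1) (p G)) (Nat.shiftLeft ih W)) L

/-- Full slots of the selected monomials. -/
noncomputable def maskG (W : ℕ) (p : Mon → Bool) (gam : List (List Mon)) : ℕ :=
  List.rec (motive := fun _ => ℕ) 0
    (fun g _ ih => Nat.add (maskL W p g) (Nat.shiftLeft ih (Nat.mul W g.length))) gam

/-- Positions of the pure squares of a coordinate. -/
def sqFrom (a : ℕ) : List Mon → ℕ → List ℕ
  | [], _ => []
  | G :: L, o => if isSq6 G && Nat.beq G.a a then o :: sqFrom a L (o + 1) else sqFrom a L (o + 1)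

/-- Grouped and listed monomials agree. -/
def sameFrom6 (gam : List (List Mon)) : List Mon → ℕ → Bool
  | [], _ => true
  | G :: Gs, o => sameMon (monAt gam o) G && sameFrom6 gam Gs (o + 1)

/-- What the check knows about a coordinate: mask, square positions, gap. -/
abbrev Coord : Type := ℕ × List ℕ × ℕ

/-- Everything fixed by the table. -/
structure Tbl where
  /-- slot width -/
  W : ℕ
  /-- target digits lie within `2 ^ c` -/
  c : ℕ
  /-- number of coordinates -/
  N : ℕ
  /-- number of monomials -/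
  n : ℕ
  /-- monomials in groups of sixty-four -/
  gam : List (List Mon)
  /-- Gram blocks -/
  blocks : List Block
  /-- total weight of the blocks -/
  wsum : ℕ
  /-- constant shift of the blocks -/
  bias : ℕ
  /-- monomials of weight 13 -/
  c13 : ℕ
  /-- monomials of weight 26 -/
  c26 : ℕ
  /-- monomials of weight 32 -/
  c32 : ℕ
  /-- monomials of weight 64 -/
  c64 : ℕ
  /-- monomials of weight 128 -/
  c128 : ℕ
  /-- coordinates -/
  coords : List Coord

/-- The monomials of a table. -/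
def Tbl.gl (Y : Tbl) : List Mon := Y.gam.flatten

/-- Gap at a coordinate. -/
def Tbl.gapAt (Y : Tbl) (a : ℕ) : ℕ := (Y.coords.getD a (0, [], 0)).2.2

/-- The monomial list is right. -/
def Tbl.listsOK (Y : Tbl) : Bool :=
  decide (Y.gl.length = Y.n) && decide (Y.coords.length = Y.N) &&
    Y.gl.all (fun G => Nat.blt G.a Y.N && Nat.blt G.b Y.N) && sameFrom6 Y.gam Y.gl 0

/-- The blocks are right. -/
noncomputable def Tbl.blocksOK (Y : Tbl) : Bool :=
  Y.blocks.all (fun b => b.ok Y.n Y.gam) &&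
    Nat.beq (Y.blocks.map fun b => blockW b.rows).sum Y.wsum && Nat.beq (biasAll Y.W Y.blocks) Y.bias

/-- The weight classes are right. -/
noncomputable def Tbl.classesOK (Y : Tbl) : Bool :=
  Nat.beq (maskG Y.W (fun G => Nat.beq (wt G) 13) Y.gam) Y.c13 &&
    Nat.beq (maskG Y.W (fun G => Nat.beq (wt G) 26) Y.gam) Y.c26 &&
    Nat.beq (maskG Y.W (fun G => Nat.beq (wt G) 32) Y.gam) Y.c32 &&
    Nat.beq (maskG Y.W (fun G => Nat.beq (wt G) 64) Y.gam) Y.c64 &&
    Nat.beq (maskG Y.W (fun G => Nat.beq (wt G) 128) Y.gam) Y.c128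

/-- One coordinate is right. -/
noncomputable def Tbl.coordOK (Y : Tbl) (a : ℕ) : Bool :=
  Nat.beq (maskG Y.W (hitB a) Y.gam) (Y.coords.getD a (0, [], 0)).1 &&
    decide ((Y.coords.getD a (0, [], 0)).2.1 = sqFrom a Y.gl 0)

/-- Consistency of a table. -/
structure Tbl.Ok (Y : Tbl) : Prop where
  /-- lists -/
  lists : Y.listsOK = true
  /-- blocks -/
  blks : Y.blocksOK = true
  /-- classes -/
  classes : Y.classesOK = true
  /-- coordinates -/
  crds : ∀ a, a < Y.N → Y.coordOK a = true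

/-! ### Kernel functions -/

/-- Digits lie within `2 ^ c`. -/
noncomputable def smallP (W c n : ℕ) (Z : ℤ) : Bool :=
  Int.rec (motive := fun _ => Bool)
    (fun Y => Nat.blt Y (Nat.pow 2 (Nat.mul W n)) &&
      Nat.beq (Nat.land Y (Nat.mul (Nat.sub (Nat.pow 2 W) (Nat.pow 2 (Nat.add c 1)))
        (Sos.onesF W n))) 0)
    (fun _ => false) (Int.add Z (Int.ofNat (Nat.mul (Nat.pow 2 c) (Sos.onesF W n))))

/-- All digits of all vectors lie within `2 ^ c`. -/
noncomputable def smallAll (W c n : ℕ) (V : List ℤ) : Bool :=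
  List.rec (motive := fun _ => Bool) true (fun Z _ ih => smallP W c n Z && ih) V

/-- Gram values of several factor lists. -/
noncomputable def gramsOf (W bias : ℕ) (Bs : List Block) (facs : List (List ℕ)) : List ℤ :=
  List.rec (motive := fun _ => List ℤ) [] (fun Ns _ ih => fAll W bias Bs Ns :: ih) facs

/-- Combination of Gram values. -/
noncomputable def fMix (lam : List ℕ) : List ℤ → ℤ :=
  List.rec (motive := fun _ => List ℤ → ℤ) (fun _ => Int.ofNat 0)
    (fun l _ ih Fs => List.rec (motive := fun _ => ℤ) (Int.ofNat 0)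
      (fun F Fs' _ => Nat.rec (motive := fun _ => ℤ) (ih Fs')
        (fun l' _ => Int.add (Int.mul (Int.ofNat (Nat.succ l')) F) (ih Fs')) l) Fs) lam

/-- Sum of weights. -/
noncomputable def lamSum (lam : List ℕ) : ℕ :=
  List.rec (motive := fun _ => ℕ) 0 (fun l _ ih => Nat.add l ih) lam

/-- Sum of raw digits at positions. -/
noncomputable def sqSum (W Y : ℕ) (L : List ℕ) : ℕ :=
  List.rec (motive := fun _ => ℕ) 0
    (fun k _ ih => Nat.add (Nat.mod (Nat.shiftRight Y (Nat.mul W k)) (base W)) ih) L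

/-- Weighted absolute residual. -/
def Tbl.wAbs (Y : Tbl) (A : ℕ) : ℕ :=
  Nat.add (Nat.mul 13 (Nat.land A Y.c13)) (Nat.add (Nat.mul 26 (Nat.land A Y.c26))
    (Nat.add (Nat.mul 32 (Nat.land A Y.c32)) (Nat.add (Nat.mul 64 (Nat.land A Y.c64))
      (Nat.mul 128 (Nat.land A Y.c128)))))

/-- Credit of all coordinates. -/
noncomputable def coordsOK (W Aw Yo : ℕ) (cs : List Coord) : List ℕ → Bool :=
  List.rec (motive := fun _ => List ℕ → Bool)
    (fun el => List.rec (motive := fun _ => Bool) true (fun _ _ _ => false) el)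
    (fun q _ ih el => List.rec (motive := fun _ => Bool) false
      (fun e el' _ => Nat.ble
        (Nat.add (Nat.mod (Nat.land Aw q.1) (Nat.sub (Nat.pow 2 W) 1))
          (Nat.add (Nat.mul 64 (Nat.add (Nat.mul 1728 e) q.2.2))
            (Nat.mul (Nat.mul 128 (half W)) q.2.1.length)))
        (Nat.mul 128 (sqSum W Yo q.2.1)) && ih el') el) cs

/-- The residual `R` carries the loads. -/
noncomputable def Tbl.resOK (Y : Tbl) (W n : ℕ) (el : List ℕ) (R : ℤ) : Bool :=
  coordsOK W (Y.wAbs (absV W n R)) (Sos.offs W n R) Y.coords el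

/-- One control. -/
noncomputable def Tbl.ctlOK (Y : Tbl) (W n c : ℕ) (el : List ℕ) (Fs : List ℤ) (lam : List ℕ)
    (P : ℤ) : Bool :=
  Nat.blt (Nat.mul (Nat.add n 1) (Nat.mul 256 (Nat.add (Nat.pow 2 (Nat.add c 18))
      (Nat.mul (lamSum lam) (Nat.mul 4503599627370496 Y.wsum))))) (Nat.pow 2 W) &&
    Y.resOK W n el (Int.sub P (fMix lam Fs))

/-- All controls. -/
noncomputable def Tbl.ctlsOK (Y : Tbl) (W n c : ℕ) (el : List ℕ) (Fs : List ℤ)
    (plan : List (List ℕ)) : List ℤ → Bool :=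
  List.rec (motive := fun _ => List ℤ → Bool)
    (fun Ps => List.rec (motive := fun _ => Bool) true (fun _ _ _ => false) Ps)
    (fun lam _ ih Ps => List.rec (motive := fun _ => Bool) false
      (fun P Ps' _ => Y.ctlOK W n c el Fs lam P && ih Ps') Ps) plan

/-- Check of a box: small targets, and each control dominated by its combination. -/
noncomputable def Tbl.check (Y : Tbl) (facs plan : List (List ℕ)) (V : List ℤ) (el : List ℕ) :
    Bool :=
  forceN Y.W fun W => forceN Y.n fun n => forceN Y.c fun c =>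
    Nat.beq V.length 125 && smallAll W c n V &&
      Y.ctlsOK W n c el (gramsOf W Y.bias Y.blocks facs) plan (ctrls V)

/-! ### Soundness -/

theorem maskL_spec (W : ℕ) (p : Mon → Bool) : ∀ L : List Mon,
    maskL W p L = npk W L.length fun k => if p (L.getD k ⟨0, 0, []⟩) then 2 ^ W - 1 else 0
  | [] => rfl
  | G :: L => by
    show Bool.rec 0 (2 ^ W - 1) (p G) + Nat.shiftLeft (maskL W p L) W = _
    rw [maskL_spec W p L, List.length_cons, Sos.npk_succ]
    simp only [List.getD_cons_zero, List.getD_cons_succ]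
    rw [show ∀ x, Nat.shiftLeft x W = x * base W from fun x => by
      simpa using shl_base W x 1]
    cases p G <;> simp <;> ring

theorem maskG_spec (W : ℕ) (p : Mon → Bool) : ∀ gam : List (List Mon),
    maskG W p gam = npk W gam.flatten.length
      fun k => if p (gam.flatten.getD k ⟨0, 0, []⟩) then 2 ^ W - 1 else 0
  | [] => rfl
  | g :: gam => by
    show maskL W p g + Nat.shiftLeft (maskG W p gam) (W * g.length) = _
    rw [maskG_spec W p gam, shl_base, maskL_spec, List.flatten_cons, List.length_append, npk_append,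
      npk_congr W g.length
        (fun k => if p ((g ++ gam.flatten).getD k ⟨0, 0, []⟩) then 2 ^ W - 1 else 0)
        (fun k => if p (g.getD k ⟨0, 0, []⟩) then 2 ^ W - 1 else 0)
        fun k hk => by rw [List.getD_append _ _ _ _ hk],
      npk_congr W gam.flatten.length
        (fun k => if p ((g ++ gam.flatten).getD (g.length + k) ⟨0, 0, []⟩) then 2 ^ W - 1 else 0)
        (fun k => if p (gam.flatten.getD k ⟨0, 0, []⟩) then 2 ^ W - 1 else 0)
        fun k hk => by rw [List.getD_append_right _ _ _ _ (by omega), Nat.add_sub_cancel_left]]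
    ring

theorem land_mask (W n : ℕ) (a : ℕ → ℕ) (p : ℕ → Bool) (ha : ∀ k, a k < 2 ^ W) :
    npk W n a &&& (npk W n fun k => if p k then 2 ^ W - 1 else 0) =
      npk W n fun k => if p k then a k else 0 := by
  rw [Sos.land_npk W n _ _ ha fun k => by
    have := Nat.one_le_two_pow (n := W)
    split <;> omega]
  refine npk_congr W n _ _ fun k _ => ?_
  split
  · rw [Nat.and_two_pow_sub_one_eq_mod, Nat.mod_eq_of_lt (ha k)]
  · simp

theorem wt_cases (G : Mon) :
    wt G = 0 ∨ wt G = 13 ∨ wt G = 26 ∨ wt G = 32 ∨ wt G = 64 ∨ wt G = 128 := by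
  simp only [wt, mw]
  split_ifs <;> simp

theorem sameFrom6_spec (gam : List (List Mon)) : ∀ (Gs : List Mon) (o : ℕ),
    sameFrom6 gam Gs o = true → ∀ k, k < Gs.length →
      sameMon (monAt gam (o + k)) (Gs.getD k ⟨0, 0, []⟩) = true
  | [], _, _, k, hk => by simp at hk
  | G :: Gs, o, h, k, hk => by
    simp only [sameFrom6, Bool.and_eq_true] at h
    cases k with
    | zero => simpa using h.1
    | succ k =>
      simpa [add_assoc, add_comm 1] using sameFrom6_spec gam Gs (o + 1) h.2 k (by simpa using hk)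

theorem sqFrom_sum (a : ℕ) (f : ℕ → ℤ) : ∀ (L : List Mon) (o : ℕ),
    ((sqFrom a L o).map f).sum = ∑ k ∈ Finset.range L.length,
      if isSq6 (L.getD k ⟨0, 0, []⟩) && Nat.beq (L.getD k ⟨0, 0, []⟩).a a then f (o + k) else 0
  | [], o => by simp [sqFrom]
  | G :: L, o => by
    rw [List.length_cons, Finset.sum_range_succ']
    simp only [List.getD_cons_zero, List.getD_cons_succ, sqFrom, Nat.add_zero]
    have ih := sqFrom_sum a f L (o + 1)
    simp only [Nat.add_assoc, Nat.add_comm 1] at ih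
    split <;> simp [ih, add_comm]

theorem sqFrom_lt (a : ℕ) : ∀ (L : List Mon) (o : ℕ), ∀ k ∈ sqFrom a L o, k < o + L.length
  | [], o, k, hk => by simp [sqFrom] at hk
  | G :: L, o, k, hk => by
    have ih := sqFrom_lt a L (o + 1) k
    simp only [sqFrom, List.length_cons] at hk ⊢
    split at hk
    · rcases List.mem_cons.1 hk with rfl | hk
      · omega
      · have := ih hk; omega
    · have := ih hk; omega

theorem sqSum_eq (W Y : ℕ) (r : ℕ → ℤ) : ∀ (L : List ℕ), (∀ k ∈ L, Sos.dg W Y k = r k) →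
    (sqSum W Y L : ℤ) = (L.map r).sum + half W * L.length
  | [], _ => by simp [sqSum]
  | k :: L, h => by
    have ih := sqSum_eq W Y r L fun j hj => h j (by simp [hj])
    have h0 := h k (by simp)
    change Int.subNatNat ((Y >>> (W * k)) % base W) (half W) = r k at h0
    rw [Int.subNatNat_eq_coe] at h0
    show (((Y >>> (W * k)) % base W + sqSum W Y L : ℕ) : ℤ) = _
    rw [Nat.cast_add, ih, List.map_cons, List.sum_cons, List.length_cons, Nat.cast_add, ← h0]
    push_cast
    ring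

/-- Part of a coordinate in the bound of one monomial with coefficient `r`. -/
def cred (G : Mon) (r : ℤ) (a : ℕ) : ℤ :=
  128 * (if isSq6 G && Nat.beq G.a a then r else 0) -
    (if hitB a G then (wt G : ℤ) * |r| else 0)

theorem cred_le (N : ℕ) (G : Mon) (r : ℤ) (z v : ℕ → ℝ) (hD : Dom z v) (ha : G.a < N)
    (hb : G.b < N) :
    ∑ a ∈ Finset.range N, (cred G r a : ℝ) * z a ^ 2 ≤ 128 * ((r : ℝ) * G.ev z v) := by
  by_cases h : isSq6 G = true
  · have hg : G.ev z v = z G.a ^ 2 := by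
      simp only [isSq6, Bool.and_eq_true, beq_iff_eq] at h
      obtain ⟨⟨⟨⟨⟨⟨e, h0⟩, h1⟩, h2⟩, h3⟩, h4⟩, h5⟩ := h
      rw [Mon.ev, h0, h1, h2, h3, h4, h5, ← e]
      ring
    simp [cred, wt, h, hg, apply_ite (fun q : ℤ => (q : ℝ)), ite_mul, Finset.sum_ite_eq, ha,
      mul_assoc]
  · simp only [Bool.not_eq_true] at h
    have hs : ∑ a ∈ Finset.range N, (if hitB a G then (wt G : ℝ) * z a ^ 2 else 0) =
        (mw G : ℝ) * (z G.a ^ 2 + z G.b ^ 2) := by
      by_cases hab : G.a = G.b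
      · simp [hitB, wt, h, hab, Finset.sum_ite_eq, hb]
        ring
      · have : ∀ a, (if hitB a G then (wt G : ℝ) * z a ^ 2 else 0) =
            (if G.a = a then (mw G : ℝ) * z a ^ 2 else 0) + (if G.b = a then (mw G : ℝ) * z a ^ 2 else 0) := by
          intro a
          by_cases h1 : G.a = a <;> by_cases h2 : G.b = a
          · exact absurd (h1.trans h2.symm) hab
          all_goals simp [hitB, wt, h, hab, h1, h2]
          exact fun e => absurd e.symm h2
        simp [this, Finset.sum_add_distrib, Finset.sum_ite_eq, ha, hb, mul_add]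
    have e : ∑ a ∈ Finset.range N, (cred G r a : ℝ) * z a ^ 2 =
        -(|(r : ℝ)| * ∑ a ∈ Finset.range N, (if hitB a G then (wt G : ℝ) * z a ^ 2 else 0)) := by
      rw [Finset.mul_sum, ← Finset.sum_neg_distrib]
      refine Finset.sum_congr rfl fun a _ => ?_
      simp only [cred, h, Bool.false_and, Bool.false_eq_true, if_false]
      split <;> push_cast <;> ring
    rw [e, hs]
    have h1 := mul_le_mul_of_nonneg_left (mw_bound G z v hD.ball) (abs_nonneg (r : ℝ))
    have h2 : -(|(r : ℝ)| * |G.ev z v|) ≤ (r : ℝ) * G.ev z v := by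
      rw [← abs_mul]; exact neg_abs_le _
    linarith

theorem fMix_spec (W n : ℕ) (gam : List (List Mon)) (z v : ℕ → ℝ) (hD : Dom z v)
    (bias : ℕ) (Bs : List Block) (hbias : biasAll W Bs = bias)
    (hBs : Bs.all (fun b => b.ok n gam) = true) :
    ∀ (lam : List ℕ) (facs : List (List ℕ)), ∃ U, 0 ≤ U ∧
      Rep W n gam z v (fMix lam (gramsOf W bias Bs facs))
        ((lamSum lam : ℕ) * (2 ^ 52 * ((Bs.map fun b => blockW b.rows).sum : ℕ))) U
  | [], _ => ⟨0, le_rfl, by simpa [fMix, lamSum] using Rep.zero W n gam z v⟩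
  | l :: lam, [] => ⟨0, le_rfl, by
      refine Rep.mono W n gam z v (B := 0) (by positivity) ?_
      simpa [fMix, gramsOf] using Rep.zero W n gam z v⟩
  | l :: lam, Ns :: facs => by
    obtain ⟨U, hU, h⟩ := fMix_spec W n gam z v hD bias Bs hbias hBs lam facs
    obtain ⟨V, hV, g⟩ := fAll_spec W n gam z v hD bias Bs hbias hBs Ns
    cases l with
    | zero =>
      refine ⟨U, hU, ?_⟩
      rw [show lamSum (0 :: lam) = 0 + lamSum lam from rfl, Nat.zero_add]
      exact h
    | succ l =>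
      refine ⟨(((l + 1 : ℕ) : ℤ) : ℝ) * V + U, by positivity, ?_⟩
      refine Rep.mono W n gam z v ?_ (Rep.add W n gam z v
        (Rep.smul W n gam z v ((l + 1 : ℕ) : ℤ) (C := (l + 1 : ℕ)) (by rw [Nat.abs_cast]) g) h)
      rw [show lamSum ((l + 1) :: lam) = (l + 1) + lamSum lam from rfl]
      push_cast
      ring_nf
      exact le_rfl

theorem digs_npk (W n N : ℕ) (h : N < base W ^ n) :
    N = npk W n fun k => N / base W ^ k % base W := by
  have e := Sos.sval_eq W n N h
  rw [Sos.sval_def, pk] at e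
  simp only [Sos.dig, sub_mul, Finset.sum_sub_distrib, ← Finset.mul_sum] at e
  rw [Nat.cast_mul, Sos.ones_eq] at e
  have e' : (N : ℤ) = ((npk W n fun k => N / base W ^ k % base W : ℕ) : ℤ) := by
    simp only [npk]
    push_cast at e ⊢
    linarith
  exact_mod_cast e'

theorem npk_eq_zero (S : ℕ) : ∀ (n : ℕ) (a : ℕ → ℕ), npk S n a = 0 → ∀ k, k < n → a k = 0
  | 0, _, _, k, hk => by simp at hk
  | n + 1, a, h, k, hk => by
    rw [Sos.npk_succ, Nat.add_eq_zero_iff, Nat.mul_eq_zero] at h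
    have hb : base S ≠ 0 := (Nat.two_pow_pos S).ne'
    cases k with
    | zero => exact h.1
    | succ k => exact npk_eq_zero S n _ (h.2.resolve_left hb) k (by omega)

theorem smallP_spec (W c n : ℕ) (hW : 0 < W) (hc : c + 1 ≤ W) (Z : ℤ) (h : smallP W c n Z = true) :
    ∃ f : ℕ → ℤ, Z = pk W n f ∧ ∀ k, |f k| ≤ 2 ^ c := by
  rw [smallP] at h
  obtain ⟨Y, hY⟩ : ∃ Y : ℕ, Int.add Z (Int.ofNat (Nat.mul (Nat.pow 2 c) (Sos.onesF W n))) = Int.ofNat Y := by
    cases hI : Int.add Z (Int.ofNat (Nat.mul (Nat.pow 2 c) (Sos.onesF W n))) with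
    | ofNat Y => exact ⟨Y, rfl⟩
    | negSucc Y => rw [hI] at h; simp at h
  rw [hY] at h
  simp only [Bool.and_eq_true, Nat.blt_eq] at h
  obtain ⟨hlt, hm⟩ := h
  have hm' : Y &&& ((2 ^ W - 2 ^ (c + 1)) * Sos.onesF W n) = 0 := Nat.eq_of_beq_eq_true hm
  have hlt' : Y < base W ^ n := by
    rw [base, ← pow_mul]; exact hlt
  obtain ⟨y, hy⟩ : ∃ y : ℕ → ℕ, y = fun k => Y / base W ^ k % base W := ⟨_, rfl⟩
  have hyl : ∀ k, y k < 2 ^ W := fun k => by
    rw [hy]; exact Nat.mod_lt _ (Nat.two_pow_pos W)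
  have hYy : Y = npk W n y := hy ▸ digs_npk W n Y hlt'
  have hmask : (2 ^ W - 2 ^ (c + 1)) * Sos.onesF W n = npk W n fun _ => 2 ^ W - 2 ^ (c + 1) := by
    rw [Sos.onesF_eq W hW]
    generalize 2 ^ W - 2 ^ (c + 1) = M
    clear hY hm hm' hlt hlt' hy hyl hYy
    induction n with
    | zero => rfl
    | succ m ih => rw [Sos.ones_succ, Sos.npk_succ, ← ih]; ring
  rw [hmask, hYy, Sos.land_npk W n _ _ hyl (fun _ => by
    have := Nat.two_pow_pos (c + 1); have := Nat.two_pow_pos W; omega)] at hm'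
  have hsmall : ∀ k, k < n → y k < 2 ^ (c + 1) := by
    intro k hk
    have h0 := npk_eq_zero W n _ hm' k hk
    obtain ⟨d, rfl⟩ : ∃ d, W = (c + 1) + d := ⟨W - (c + 1), by omega⟩
    have e1 : y k = y k % 2 ^ (c + 1) + 2 ^ (c + 1) * (y k / 2 ^ (c + 1)) := (Nat.mod_add_div _ _).symm
    have e2 : 2 ^ (c + 1 + d) - 2 ^ (c + 1) = 0 + 2 ^ (c + 1) * (2 ^ d - 1) := by
      rw [pow_add, Nat.mul_sub, mul_one, zero_add]
    rw [e1, e2, Sos.land_split (c + 1) _ _ _ _ (Nat.mod_lt _ (Nat.two_pow_pos _)) (Nat.two_pow_pos _),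
      Nat.and_zero, Nat.zero_add, Nat.and_two_pow_sub_one_eq_mod, Nat.mul_eq_zero] at h0
    have h1 := h0.resolve_left (Nat.two_pow_pos _).ne'
    have h2 : y k / 2 ^ (c + 1) < 2 ^ d := by
      rw [Nat.div_lt_iff_lt_mul (Nat.two_pow_pos _), mul_comm, ← pow_add]
      exact hyl k
    rw [Nat.mod_eq_of_lt h2] at h1
    exact (Nat.div_eq_zero_iff.1 h1).resolve_left (Nat.two_pow_pos _).ne'
  refine ⟨fun k => if k < n then (y k : ℤ) - 2 ^ c else 0, ?_, fun k => ?_⟩
  · have hY' : Z + ((2 ^ c * Sos.onesF W n : ℕ) : ℤ) = (Y : ℤ) := hY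
    rw [Sos.onesF_eq W hW, Nat.cast_mul, Sos.ones_eq] at hY'
    rw [pk, Finset.sum_congr rfl fun k hk => by rw [if_pos (Finset.mem_range.1 hk), sub_mul],
      Finset.sum_sub_distrib, ← Finset.mul_sum]
    rw [hYy, npk] at hY'
    push_cast at hY'
    linarith
  · dsimp only
    split
    · rename_i hk
      have := hsmall k hk
      rw [pow_succ] at this
      rw [abs_le]
      constructor
      · linarith [Int.natCast_nonneg (y k)]
      · have h3 : ((y k : ℕ) : ℤ) < ((2 ^ c * 2 : ℕ) : ℤ) := Int.ofNat_lt.2 this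
        push_cast at h3
        linarith
    · simp

theorem smallAll_mem (W c n : ℕ) : ∀ V : List ℤ, smallAll W c n V = true →
    ∀ Z ∈ V, smallP W c n Z = true
  | [], _, Z, hZ => by simp at hZ
  | x :: V, h, Z, hZ => by
    change (smallP W c n x && smallAll W c n V) = true at h
    rw [Bool.and_eq_true] at h
    rcases List.mem_cons.1 hZ with rfl | hZ
    · exact h.1
    · exact smallAll_mem W c n V h.2 Z hZ

theorem coordsOK_spec (W Aw Yo : ℕ) : ∀ (cs : List Coord) (el : List ℕ),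
    coordsOK W Aw Yo cs el = true → ∀ a, a < cs.length →
      (Aw &&& (cs.getD a (0, [], 0)).1) % (2 ^ W - 1) +
        (64 * (1728 * el.getD a 0 + (cs.getD a (0, [], 0)).2.2) +
          128 * half W * (cs.getD a (0, [], 0)).2.1.length) ≤
        128 * sqSum W Yo (cs.getD a (0, [], 0)).2.1
  | [], _, _, a, ha => by simp at ha
  | q :: cs, [], h, _, _ => by simp [coordsOK] at h
  | q :: cs, e :: el, h, a, ha => by
    change (Nat.ble _ _ && coordsOK W Aw Yo cs el) = true at h
    rw [Bool.and_eq_true, Nat.ble_eq] at h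
    cases a with
    | zero =>
      simp only [List.getD_cons_zero]
      exact h.1
    | succ a => simpa using coordsOK_spec W Aw Yo cs el h.2 a (by simpa using ha)

/-- A checked residual has at least the credited squares. -/
theorem resOK_sound (Y : Tbl) (hY : Y.Ok) (el : List ℕ) (R : ℤ) (r : ℕ → ℤ)
    (hR : R = pk Y.W Y.n r) (B : ℕ) (hr : ∀ k, |r k| ≤ B)
    (hB : (Y.n + 1) * (256 * B) < 2 ^ Y.W) (hW : 0 < Y.W) (h : Y.resOK Y.W Y.n el R = true) (z v : ℕ → ℝ)
    (hD : Dom z v) :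
    ∑ a ∈ Finset.range Y.N, ((64 * (1728 * el.getD a 0 + Y.gapAt a) : ℕ) : ℝ) * z a ^ 2 ≤
      128 * ∑ k ∈ Finset.range Y.n, (r k : ℝ) * (Y.gl.getD k ⟨0, 0, []⟩).ev z v := by
  obtain ⟨hlists, -, hcl, hcrd⟩ := hY
  simp only [Tbl.listsOK, Bool.and_eq_true, decide_eq_true_eq, List.all_eq_true, Nat.blt_eq] at hlists
  obtain ⟨⟨⟨hgl, hN⟩, hglr⟩, -⟩ := hlists
  simp only [Tbl.classesOK, Bool.and_eq_true] at hcl
  obtain ⟨⟨⟨⟨h13, h26⟩, h32⟩, h64⟩, h128⟩ := hcl
  have hB' : 256 * B ≤ (Y.n + 1) * (256 * B) := Nat.le_mul_of_pos_left _ (Nat.succ_pos _)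
  have hhalf : 2 ^ Y.W = 2 * half Y.W := by
    rw [half, ← pow_succ']
    congr 1
    omega
  have hrh : ∀ k, |r k| < half Y.W := fun k => lt_of_le_of_lt (hr k) (by omega)
  obtain ⟨G, hG⟩ : ∃ G : ℕ → Mon, G = fun k => Y.gl.getD k ⟨0, 0, []⟩ := ⟨_, rfl⟩
  obtain ⟨ab, hab⟩ : ∃ ab : ℕ → ℕ, ab = fun k => (r k).natAbs := ⟨_, rfl⟩
  have hab1 : ∀ k, ab k ≤ B := fun k => by
    have := abs_le.1 (hr k); simp only [hab]; omega
  have hab2 : ∀ k, ab k < 2 ^ Y.W := fun k => by have := hab1 k; omega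
  have hwt : ∀ k, wt (G k) * ab k ≤ 128 * B := fun k => by
    refine Nat.mul_le_mul ?_ (hab1 k)
    rcases wt_cases (G k) with e | e | e | e | e | e <;> omega
  have hmask : ∀ p : Mon → Bool, npk Y.W Y.n ab &&& maskG Y.W p Y.gam =
      npk Y.W Y.n fun k => if p (G k) then ab k else 0 := fun p => by
    rw [maskG_spec, ← hgl]
    rw [hG]
    exact land_mask Y.W _ ab (fun k => p (Y.gl.getD k ⟨0, 0, []⟩)) hab2
  have hA : Y.wAbs (absV Y.W Y.n R) = npk Y.W Y.n fun k => wt (G k) * ab k := by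
    rw [hR, absV_eq Y.W hW Y.n r hrh, ← hab]
    show 13 * (_ &&& Y.c13) + (26 * (_ &&& Y.c26) + (32 * (_ &&& Y.c32) + (64 * (_ &&& Y.c64) +
      128 * (_ &&& Y.c128)))) = _
    rw [← Nat.eq_of_beq_eq_true h13, ← Nat.eq_of_beq_eq_true h26, ← Nat.eq_of_beq_eq_true h32,
      ← Nat.eq_of_beq_eq_true h64, ← Nat.eq_of_beq_eq_true h128, hmask, hmask, hmask, hmask, hmask,
      npk_smul, npk_smul, npk_smul, npk_smul, npk_smul, npk_add, npk_add, npk_add, npk_add]
    refine npk_congr _ _ _ _ fun k _ => ?_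
    rcases wt_cases (G k) with e | e | e | e | e | e <;> simp [e]
  have key : ∀ a, a < Y.N →
      (64 * (1728 * el.getD a 0 + Y.gapAt a) : ℕ) ≤
        ∑ k ∈ Finset.range Y.n, cred (G k) (r k) a := by
    intro a ha
    have hc := coordsOK_spec Y.W _ _ Y.coords el h a (by omega)
    have hq := hcrd a ha
    simp only [Tbl.coordOK, Bool.and_eq_true, decide_eq_true_eq] at hq
    obtain ⟨hq1, hq2⟩ := hq
    have hle : ∀ k, (if hitB a (G k) then wt (G k) * ab k else 0) ≤ 128 * B := fun k => by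
      split
      · exact hwt k
      · exact Nat.zero_le _
    have hT : ∑ k ∈ Finset.range Y.n, (if hitB a (G k) then wt (G k) * ab k else 0) < 2 ^ Y.W - 1 := by
      have := Finset.sum_le_card_nsmul (Finset.range Y.n)
        (fun k => if hitB a (G k) then wt (G k) * ab k else 0) (128 * B) fun k _ => hle k
      simp only [Finset.card_range, smul_eq_mul] at this
      have h2 : Y.n * (128 * B) ≤ Y.n * (256 * B) := Nat.mul_le_mul_left _ (by omega)
      rw [Nat.add_mul, one_mul] at hB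
      rcases Nat.eq_zero_or_pos B with hB0 | hB0
      · subst hB0; simp only [Nat.mul_zero] at this; omega
      · omega
    have hTa : (Y.wAbs (absV Y.W Y.n R) &&& (Y.coords.getD a (0, [], 0)).1) % (2 ^ Y.W - 1) =
        ∑ k ∈ Finset.range Y.n, (if hitB a (G k) then wt (G k) * ab k else 0) := by
      rw [hA, ← Nat.eq_of_beq_eq_true hq1, maskG_spec, ← hgl]
      rw [show (fun k => if hitB a (Y.gam.flatten.getD k ⟨0, 0, []⟩) then 2 ^ Y.W - 1 else 0) =
        fun k => if hitB a (G k) then 2 ^ Y.W - 1 else 0 by rw [hG]; rfl]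
      rw [show Y.gam.flatten.length = Y.gl.length from rfl, land_mask _ _ _ (fun k => hitB a (G k))
        fun k => lt_of_le_of_lt (hwt k) (by omega)]
      exact Sos.npk_mod _ _ _ (by rwa [hgl])
    have hlt : ∀ k ∈ (Y.coords.getD a (0, [], 0)).2.1, k < Y.n := fun k hk => by
      rw [hq2] at hk
      have := sqFrom_lt a Y.gl 0 k hk
      omega
    have hS := sqSum_eq Y.W (Sos.offs Y.W Y.n R) r (Y.coords.getD a (0, [], 0)).2.1 fun k hk => by
      rw [hR]; exact Sos.dg_offs Y.W hW Y.n r (fun j _ => hrh j) k (hlt k hk)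
    have hsum : ((Y.coords.getD a (0, [], 0)).2.1.map r).sum = ∑ k ∈ Finset.range Y.n,
        if isSq6 (G k) && Nat.beq (G k).a a then r k else 0 := by
      rw [hq2, sqFrom_sum, hgl, hG]
      exact Finset.sum_congr rfl fun k _ => by rw [Nat.zero_add]
    rw [hTa] at hc
    have hc' := Int.ofNat_le.2 hc
    push_cast at hc'
    rw [hS, hsum] at hc'
    have e : ∑ k ∈ Finset.range Y.n, cred (G k) (r k) a =
        128 * (∑ k ∈ Finset.range Y.n, if isSq6 (G k) && Nat.beq (G k).a a then r k else 0) -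
          ∑ k ∈ Finset.range Y.n, (if hitB a (G k) then (wt (G k) : ℤ) * (ab k : ℤ) else 0) := by
      rw [Finset.mul_sum, ← Finset.sum_sub_distrib]
      refine Finset.sum_congr rfl fun k _ => ?_
      simp only [cred, hab, Int.natCast_natAbs]
    rw [e, Tbl.gapAt]
    push_cast
    linarith
  calc ∑ a ∈ Finset.range Y.N, ((64 * (1728 * el.getD a 0 + Y.gapAt a) : ℕ) : ℝ) * z a ^ 2
      ≤ ∑ a ∈ Finset.range Y.N, ∑ k ∈ Finset.range Y.n, (cred (G k) (r k) a : ℝ) * z a ^ 2 := by
        refine Finset.sum_le_sum fun a ha => ?_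
        rw [← Finset.sum_mul]
        refine mul_le_mul_of_nonneg_right ?_ (sq_nonneg _)
        rw [← Int.cast_sum]
        exact_mod_cast key a (Finset.mem_range.1 ha)
    _ = ∑ k ∈ Finset.range Y.n, ∑ a ∈ Finset.range Y.N, (cred (G k) (r k) a : ℝ) * z a ^ 2 :=
        Finset.sum_comm
    _ ≤ ∑ k ∈ Finset.range Y.n, 128 * ((r k : ℝ) * (G k).ev z v) := by
        refine Finset.sum_le_sum fun k hk => ?_
        have hk' : k < Y.gl.length := by rw [hgl]; exact Finset.mem_range.1 hk
        have hmem : G k ∈ Y.gl := by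
          rw [hG]; simp only [List.getD_eq_getElem _ _ hk']; exact List.getElem_mem hk'
        exact cred_le Y.N _ _ z v hD (hglr _ hmem).1 (hglr _ hmem).2
    _ = _ := by rw [hG, Finset.mul_sum]

theorem ctlsOK_spec (Y : Tbl) (W n c : ℕ) (el : List ℕ) (Fs : List ℤ) :
    ∀ (plan : List (List ℕ)) (Ps : List ℤ), Y.ctlsOK W n c el Fs plan Ps = true →
      ∀ m, m < Ps.length → ∃ lam, Y.ctlOK W n c el Fs lam (Ps.getD m 0) = true
  | [], [], _, m, hm => by simp at hm
  | [], _ :: _, h, _, _ => by simp [Tbl.ctlsOK] at h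
  | _ :: _, [], _, m, hm => by simp at hm
  | lam :: plan, P :: Ps, h, m, hm => by
    change (Y.ctlOK W n c el Fs lam P && Y.ctlsOK W n c el Fs plan Ps) = true at h
    rw [Bool.and_eq_true] at h
    cases m with
    | zero => exact ⟨lam, by simpa using h.1⟩
    | succ m => simpa using ctlsOK_spec Y W n c el Fs plan Ps h.2 m (by simpa using hm)

theorem bM_abs (i q : ℕ) : |bM i q| ≤ 12 := by
  unfold bM
  rcases i with _ | _ | _ | _ | i <;> rcases q with _ | _ | _ | _ | _ | q <;> simp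

/-- **The controls of a checked box are positive.** -/
theorem Tbl.check_sound (Y : Tbl) (hY : Y.Ok) (facs plan : List (List ℕ)) (V : List ℤ)
    (el : List ℕ) (h : Y.check facs plan V el = true) (z v : ℕ → ℝ) (hD : Dom z v) :
    ∀ i < 5, ∀ j < 5, ∀ k < 5,
      ∑ a ∈ Finset.range Y.N, ((1728 * el.getD a 0 + Y.gapAt a : ℕ) : ℝ) * z a ^ 2 ≤
        2 * ctrlR (fun m => gsumZ z v Y.gl (Sos.decode Y.W Y.gl.length (V.getD m 0))) i j k := by
  intro i hi j hj k hk
  have hY' := hY
  obtain ⟨hlists, hblk, -, -⟩ := hY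
  simp only [Tbl.listsOK, Bool.and_eq_true, decide_eq_true_eq] at hlists
  obtain ⟨⟨⟨hgl, -⟩, -⟩, hsame⟩ := hlists
  simp only [Tbl.blocksOK, Bool.and_eq_true] at hblk
  obtain ⟨⟨hBs, hw⟩, hbias⟩ := hblk
  have hw' := Nat.eq_of_beq_eq_true hw
  simp only [Tbl.check, forceN_eq, Bool.and_eq_true] at h
  obtain ⟨⟨hlen, hsm⟩, hctl⟩ := h
  have hlen' : V.length = 125 := Nat.eq_of_beq_eq_true hlen
  obtain ⟨lam, hlam⟩ := ctlsOK_spec Y Y.W Y.n Y.c el _ plan _ hctl (25 * i + 5 * j + k)
    (by rw [ctrls_length hlen']; omega)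
  simp only [Tbl.ctlOK, Bool.and_eq_true, Nat.blt_eq] at hlam
  obtain ⟨hbd, hres⟩ := hlam
  change (Y.n + 1) * (256 * (2 ^ (Y.c + 18) + lamSum lam * (4503599627370496 * Y.wsum))) < 2 ^ Y.W at hbd
  have hpow : 256 * 2 ^ (Y.c + 18) < 2 ^ Y.W := lt_of_le_of_lt
    ((Nat.mul_le_mul_left 256 (Nat.le_add_right _ _)).trans (Nat.le_mul_of_pos_left _ (Nat.succ_pos _))) hbd
  have hcW : Y.c + 26 < Y.W := by
    have : 2 ^ (Y.c + 26) < 2 ^ Y.W := by
      rw [show Y.c + 26 = 8 + (Y.c + 18) by ring, pow_add]; exact hpow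
    exact (Nat.pow_lt_pow_iff_right (by norm_num)).1 this
  have hW : 0 < Y.W := by omega
  have hVm : ∀ m, ∃ f : ℕ → ℤ, V.getD m 0 = pk Y.W Y.n f ∧ ∀ q, |f q| ≤ 2 ^ Y.c := by
    intro m
    rcases Nat.lt_or_ge m V.length with hm | hm
    · exact smallP_spec Y.W Y.c Y.n hW (by omega) _
        (smallAll_mem _ _ _ V hsm _ (List.getD_eq_getElem V 0 hm ▸ List.getElem_mem hm))
    · exact ⟨fun _ => 0, by rw [List.getD_eq_default _ _ hm]; simp [pk], fun _ => by simp⟩
  choose f hf1 hf2 using hVm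
  have hdec : ∀ m, gsumZ z v Y.gl (Sos.decode Y.W Y.gl.length (V.getD m 0)) =
      ∑ q ∈ Finset.range Y.n, (f m q : ℝ) * (Y.gl.getD q ⟨0, 0, []⟩).ev z v := by
    intro m
    rw [gsumZ, gsum_range z v Y.gl _ (by simp [Sos.decode_length]), hgl]
    refine Finset.sum_congr rfl fun q hq => ?_
    have hq' := Finset.mem_range.1 hq
    have hc' : ∀ (L : List ℤ) (t : ℕ), (L.map fun y : ℤ => (y : ℝ)).getD t 0 = ((L.getD t 0 : ℤ) : ℝ) :=
      fun L t => by simp [List.getD_eq_getElem?_getD]; cases L[t]? <;> simp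
    rw [hc', hf1, Sos.decode_getD Y.W hW Y.n (f m) (fun p _ => lt_of_le_of_lt (hf2 m p) ?_) q hq',
      List.getD_eq_getElem _ _ (by simpa [hgl] using hq'), List.getElem_map,
      List.getD_eq_getElem _ _ (by omega)]
    have : (2 : ℕ) ^ Y.c < half Y.W := Nat.pow_lt_pow_right (by norm_num) (by omega)
    exact_mod_cast this
  obtain ⟨pc, hpc⟩ : ∃ pc : ℕ → ℤ, pc = fun q => ∑ p ∈ Finset.range 5, ∑ s ∈ Finset.range 5,
      ∑ t ∈ Finset.range 5, bM i p * bM j s * bM k t * f (25 * p + 5 * s + t) q := ⟨_, rfl⟩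
  have hP : (ctrls V).getD (25 * i + 5 * j + k) 0 = pk Y.W Y.n pc := by
    rw [ctrls_spec hlen' hi hj hk, hpc]
    simp only [hf1, pk, Finset.mul_sum, Finset.sum_mul]
    rw [Finset.sum_comm (s := Finset.range Y.n)]
    refine Finset.sum_congr rfl fun p _ => ?_
    rw [Finset.sum_comm (s := Finset.range Y.n)]
    refine Finset.sum_congr rfl fun s _ => ?_
    rw [Finset.sum_comm (s := Finset.range Y.n)]
    exact Finset.sum_congr rfl fun t _ => Finset.sum_congr rfl fun q _ => by ring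
  obtain ⟨U, hU, F, hF1, hF2, hF3⟩ := fMix_spec Y.W Y.n Y.gam z v hD Y.bias Y.blocks (Nat.eq_of_beq_eq_true hbias) hBs lam facs
  rw [hw'] at hF2
  have hpcb : ∀ q, |pc q| ≤ 2 ^ (Y.c + 18) := by
    intro q
    rw [hpc]
    refine le_trans ?_ (show (5 * (5 * (5 * (1728 * 2 ^ Y.c))) : ℤ) ≤ 2 ^ (Y.c + 18) by
      rw [pow_add]; nlinarith [pow_pos (show (0 : ℤ) < 2 by norm_num) Y.c])
    refine (Finset.abs_sum_le_sum_abs _ _).trans ?_
    refine (Finset.sum_le_card_nsmul _ _ (5 * (5 * (1728 * 2 ^ Y.c))) fun p _ => ?_).trans (by simp)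
    refine (Finset.abs_sum_le_sum_abs _ _).trans ?_
    refine (Finset.sum_le_card_nsmul _ _ (5 * (1728 * 2 ^ Y.c)) fun s _ => ?_).trans (by simp)
    refine (Finset.abs_sum_le_sum_abs _ _).trans ?_
    refine (Finset.sum_le_card_nsmul _ _ (1728 * 2 ^ Y.c) fun t _ => ?_).trans (by simp)
    rw [abs_mul, abs_mul, abs_mul, show (1728 : ℤ) = 12 * 12 * 12 by norm_num]
    exact mul_le_mul (mul_le_mul (mul_le_mul (bM_abs i p) (bM_abs j s) (abs_nonneg _) (by norm_num))
      (bM_abs k t) (abs_nonneg _) (by norm_num)) (hf2 _ q) (abs_nonneg _) (by norm_num)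
  have hR : Int.sub ((ctrls V).getD (25 * i + 5 * j + k) 0) (fMix lam (gramsOf Y.W Y.bias Y.blocks facs)) =
      pk Y.W Y.n fun q => pc q - F q := by
    rw [hP, hF1, show ∀ x y : ℤ, Int.sub x y = x - y from fun _ _ => rfl]
    simp [pk, sub_mul, Finset.sum_sub_distrib]
  have hmain := resOK_sound Y hY' el _ _ hR
    (2 ^ (Y.c + 18) + lamSum lam * (4503599627370496 * Y.wsum))
    (fun q => by
      refine (abs_sub _ _).trans ?_
      push_cast
      exact add_le_add (hpcb q) ((hF2 q).trans_eq (by norm_num)))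
    hbd hW hres z v hD
  have hgv : gv Y.n Y.gam z v F = ∑ q ∈ Finset.range Y.n, (F q : ℝ) * (Y.gl.getD q ⟨0, 0, []⟩).ev z v :=
    Finset.sum_congr rfl fun q hq => by
      rw [sameMon_sound (show sameMon (monAt Y.gam q) (Y.gl.getD q ⟨0, 0, []⟩) = true by
        simpa using sameFrom6_spec Y.gam Y.gl 0 hsame q (by rw [hgl]; exact Finset.mem_range.1 hq))]
  have hctrl : ctrlR (fun m => gsumZ z v Y.gl (Sos.decode Y.W Y.gl.length (V.getD m 0))) i j k =
      ∑ q ∈ Finset.range Y.n, (pc q : ℝ) * (Y.gl.getD q ⟨0, 0, []⟩).ev z v := by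
    rw [hpc]
    simp only [ctrlR, hdec, Int.cast_sum, Int.cast_mul, Finset.mul_sum, Finset.sum_mul]
    rw [Finset.sum_comm (s := Finset.range Y.n)]
    refine Finset.sum_congr rfl fun p _ => ?_
    rw [Finset.sum_comm (s := Finset.range Y.n)]
    refine Finset.sum_congr rfl fun s _ => ?_
    rw [Finset.sum_comm (s := Finset.range Y.n)]
    exact Finset.sum_congr rfl fun t _ => Finset.sum_congr rfl fun q _ => by ring
  rw [hctrl]
  simp only [Int.cast_sub, sub_mul, Finset.sum_sub_distrib] at hmain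
  rw [← hgv, hF3] at hmain
  push_cast [mul_assoc] at hmain ⊢
  simp only [← Finset.mul_sum] at hmain
  linarith

end Vale.Agent.P098.Exact.Sos6
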