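import Vale.Agent.P098.Exact.Sos6.CoverK
import Vale.Agent.P098.Exact.Sos6.Check

/-! One box of the dimension six table, from its kernel checks. -/

noncomputable section

namespace Vale.Agent.P098.Exact.Sos6

theorem ctrlSound_check (Y : Tbl) (hY : Y.Ok) (hN : Y.N = 38) (facs plan : List (List ℕ)) :
    CtrlSound Y.W Y.gl Y.gapAt (Y.check facs plan) := by
  intro V el h z v hD i hi j hj m hm
  have := Y.check_sound hY facs plan V el h z v hD i hi j hj m hm
  rwa [hN] at this

/-- **A box whose kernel check succeeds is good.** -/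
theorem goodK_of_check (an : ℤ) (den : ℕ) (hden : 0 < den) (L L2 : List ITerm) (KL : List KI)
    (Y : Tbl) (hY : Y.Ok) (hN : Y.N = 38) (C : ℕ) (P : ℕ → ℕ) (R0 R5 R6 : Rows)
    (hrows : rowsChk an den L L2 KL Y.gl C P R0 R5 R6) (D : ℕ)
    (hglob : globalOK Y.W Y.gl.length D (partsOf P R0 R5 R6) = true) (G : ℕ)
    (hG : ((List.range 6).all fun n => Nat.ble G (Y.gapAt (31 + n))) = true) (δ : ℝ) (x : Box)
    (H : HData) (facs plan : List (List ℕ))
    (hδ : δ * (2 * 1728 * ((H.U : ℝ) * 4096 ^ D * 2 ^ D * (40000 * den))) ≤ G)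
    (hB : boxOK Y.W 38 D Y.gl (partsOf P R0 R5 R6) x H (Y.check facs plan) = true) :
    x.GoodK ((an : ℝ) / 100) (L.map (ITerm.term den)) (L2.map (ITerm.term den))
      (KL.map (KI.term den)) δ := by
  refine goodK_of_box an den hden L L2 KL Y.gl C P R0 R5 R6 hrows Y.W D hglob _ _
    (ctrlSound_check Y hY hN facs plan) G (fun n h1 h2 => ?_) δ x H hδ hB
  simp only [List.all_eq_true, List.mem_range, Nat.ble_eq] at hG
  have := hG (n - 31) (by omega)
  rwa [Nat.add_sub_cancel' h1] at this

end Vale.Agent.P098.Exact.Sos6
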