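import Vale.Agent.P098.Exact.Sos6.Abs

/-!
Packed Gram blocks of the dimension six certificates: factor rows packed so that one product gives
one dot product, patterns accumulated inside a row, one shift for each row.
-/

namespace Vale.Agent.P098.Exact.Sos6

open Sos (pk base npk)

/-- Multiplier kinds: one, `1 - v.v`, `v 5`, `z 30 * z 31` and the last times each of the two
middle ones. -/
inductive Kind
  | one | ball | half | prod | pball | phalf

/-- Multiplier value. -/
noncomputable def Kind.ev : Kind → (ℕ → ℝ) → (ℕ → ℝ) → ℝ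
  | .one, _, _ => 1
  | .ball, _, v => 1 - (v 0 ^ 2 + v 1 ^ 2 + v 2 ^ 2 + v 3 ^ 2 + v 4 ^ 2 + v 5 ^ 2)
  | .half, _, v => v 5
  | .prod, z, _ => z 30 * z 31
  | .pball, z, v => z 30 * z 31 * (1 - (v 0 ^ 2 + v 1 ^ 2 + v 2 ^ 2 + v 3 ^ 2 + v 4 ^ 2 + v 5 ^ 2))
  | .phalf, z, v => z 30 * z 31 * v 5

theorem Kind.ev_nonneg {z v : ℕ → ℝ} (h : Dom z v) (K : Kind) : 0 ≤ K.ev z v := by
  have := h.ball; have := h.half; have := h.prod
  cases K <;> simp only [Kind.ev]
  · exact zero_le_one
  · linarith
  · assumption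
  · assumption
  · exact mul_nonneg h.prod (by linarith)
  · exact mul_nonneg h.prod h.half

/-- Basis monomial `z_a v^g`, or `v^g` for the product multiplier. -/
structure Bas where
  /-- coordinate -/
  a : ℕ
  /-- exponents -/
  g : List ℕ

/-- Monomial in the gradient. -/
noncomputable def mon6 (g : List ℕ) (v : ℕ → ℝ) : ℝ :=
  v 0 ^ g.getD 0 0 * v 1 ^ g.getD 1 0 * v 2 ^ g.getD 2 0 * v 3 ^ g.getD 3 0 * v 4 ^ g.getD 4 0 *
    v 5 ^ g.getD 5 0

/-- Basis value. -/
noncomputable def Bas.ev (K : Kind) (e : Bas) (z v : ℕ → ℝ) : ℝ :=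
  match K with
  | .one | .ball | .half => z e.a * mon6 e.g v
  | .prod | .pball | .phalf => mon6 e.g v

/-- Sum of exponent vectors, plus `k` at position `p`. -/
def addG (g h : List ℕ) (p k : ℕ) : List ℕ :=
  (List.range 6).map fun i => g.getD i 0 + h.getD i 0 + if i = p then k else 0

theorem mon6_addG (g h : List ℕ) (p k : ℕ) (v : ℕ → ℝ) (hp : p < 6) :
    mon6 (addG g h p k) v = mon6 g v * mon6 h v * v p ^ k := by
  simp only [mon6, addG, List.range, List.range.loop, List.map_cons, List.map_nil,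
    List.getD_cons_zero, List.getD_cons_succ]
  interval_cases p <;> simp [pow_add] <;> ring

/-- Monomials added by a product of two basis monomials. -/
def expandP (K : Kind) (e f : Bas) : List Mon :=
  match K with
  | .one => [⟨e.a, f.a, addG e.g f.g 0 0⟩]
  | .ball => [⟨e.a, f.a, addG e.g f.g 0 0⟩]
  | .half => [⟨e.a, f.a, addG e.g f.g 5 1⟩]
  | .prod => [⟨30, 31, addG e.g f.g 0 0⟩]
  | .pball => [⟨30, 31, addG e.g f.g 0 0⟩]
  | .phalf => [⟨30, 31, addG e.g f.g 5 1⟩]

/-- Monomials subtracted by a product of two basis monomials. -/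
def expandM (K : Kind) (e f : Bas) : List Mon :=
  match K with
  | .ball => (List.range 6).map fun p => ⟨e.a, f.a, addG e.g f.g p 2⟩
  | .pball => (List.range 6).map fun p => ⟨30, 31, addG e.g f.g p 2⟩
  | _ => []

/-- Value of a list of monomials. -/
noncomputable def monSum (z v : ℕ → ℝ) : List Mon → ℝ
  | [] => 0
  | G :: L => G.ev z v + monSum z v L

theorem monSum_expand (K : Kind) (e f : Bas) (z v : ℕ → ℝ) :
    monSum z v (expandP K e f) - monSum z v (expandM K e f) =
      K.ev z v * e.ev K z v * f.ev K z v := by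
  have h : ∀ (a b : ℕ) (g : List ℕ), Mon.ev ⟨a, b, g⟩ z v = z a * z b * mon6 g v :=
    fun _ _ _ => rfl
  have h0 := mon6_addG e.g f.g
  cases K
  · simp [expandP, expandM, monSum, h, Kind.ev, Bas.ev, h0 0 0 v (by norm_num)]; ring
  · simp [expandP, expandM, monSum, h, Kind.ev, Bas.ev, List.range, List.range.loop,
      h0 0 0 v (by norm_num), h0 0 2 v (by norm_num), h0 1 2 v (by norm_num),
      h0 2 2 v (by norm_num), h0 3 2 v (by norm_num), h0 4 2 v (by norm_num),
      h0 5 2 v (by norm_num)]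
    ring
  · simp [expandP, expandM, monSum, h, Kind.ev, Bas.ev, h0 5 1 v (by norm_num)]; ring
  · simp [expandP, expandM, monSum, h, Kind.ev, Bas.ev, h0 0 0 v (by norm_num)]; ring
  · simp [expandP, expandM, monSum, h, Kind.ev, Bas.ev, List.range, List.range.loop,
      h0 0 0 v (by norm_num), h0 0 2 v (by norm_num), h0 1 2 v (by norm_num),
      h0 2 2 v (by norm_num), h0 3 2 v (by norm_num), h0 4 2 v (by norm_num),
      h0 5 2 v (by norm_num)]
    ring
  · simp [expandP, expandM, monSum, h, Kind.ev, Bas.ev, h0 5 1 v (by norm_num)]; ring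

/-- Same monomial. -/
def sameMon (G H : Mon) : Bool :=
  ((G.a == H.a && G.b == H.b) || (G.a == H.b && G.b == H.a)) &&
    G.g.getD 0 0 == H.g.getD 0 0 && G.g.getD 1 0 == H.g.getD 1 0 && G.g.getD 2 0 == H.g.getD 2 0 &&
    G.g.getD 3 0 == H.g.getD 3 0 && G.g.getD 4 0 == H.g.getD 4 0 && G.g.getD 5 0 == H.g.getD 5 0

theorem sameMon_sound {G H : Mon} (h : sameMon G H = true) (z v : ℕ → ℝ) :
    G.ev z v = H.ev z v := by
  simp only [sameMon, Bool.and_eq_true, Bool.or_eq_true, beq_iff_eq] at h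
  obtain ⟨⟨⟨⟨⟨⟨ha, h0⟩, h1⟩, h2⟩, h3⟩, h4⟩, h5⟩ := h
  unfold Mon.ev
  rw [h0, h1, h2, h3, h4, h5]
  rcases ha with ⟨ha, hb⟩ | ⟨ha, hb⟩ <;> rw [ha, hb]
  ring

/-- Monomial of an index in groups of sixty-four. -/
def monAt (gam : List (List Mon)) (i : ℕ) : Mon :=
  (gam.getD (i / 64) []).getD (i % 64) ⟨0, 0, []⟩

/-- Local positions added and subtracted by one product. -/
abbrev Ent : Type := List ℕ × List ℕ

/-- A row of products: buckets of sixty-four slots skipped since the row before, the shift inside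
the bucket, and the products with the later rows. -/
abbrev PRow : Type := (ℕ × ℕ) × List Ent

/-- A block: kind, basis, positions. -/
structure Block where
  /-- multiplier -/
  K : Kind
  /-- basis -/
  bas : List Bas
  /-- products -/
  rows : List PRow

/-- Positions match monomials. -/
def monsOK (n : ℕ) (gam : List (List Mon)) (o : ℕ) : List ℕ → List Mon → Bool
  | [], [] => true
  | p :: P, q :: Q => Nat.blt (o + p) n && sameMon (monAt gam (o + p)) q && monsOK n gam o P Q
  | _, _ => false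

/-- One product is correctly indexed. -/
def entOK (n : ℕ) (gam : List (List Mon)) (o : ℕ) (K : Kind) (e f : Bas) (P : Ent) : Bool :=
  monsOK n gam o P.1 (expandP K e f) && monsOK n gam o P.2 (expandM K e f)

/-- One row of products. -/
def entsOK (n : ℕ) (gam : List (List Mon)) (o : ℕ) (K : Kind) (e : Bas) :
    List Bas → List Ent → Bool
  | [], [] => true
  | f :: F, P :: Ps => entOK n gam o K e f P && entsOK n gam o K e F Ps
  | _, _ => false

/-- All rows, from bucket base `o`. -/
def prowsOK (n : ℕ) (gam : List (List Mon)) (K : Kind) : ℕ → List Bas → List PRow → Bool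
  | _, [], [] => true
  | o, e :: F, R :: Rs =>
    entsOK n gam (o + 64 * R.1.1 + R.1.2) K e (e :: F) R.2 && prowsOK n gam K (o + 64 * R.1.1) F Rs
  | _, _, _ => false

/-- Total weight of the products of a row. -/
def entsW (Ps : List Ent) : ℕ := (Ps.map fun P => P.1.length + P.2.length).sum

/-- Total weight of a block. -/
def blockW (Q : List PRow) : ℕ := (Q.map fun R => 2 * entsW R.2).sum

/-! ### Kernel functions -/

/-- Packed indicator of a list of positions. -/
noncomputable def patN (W : ℕ) (P : List ℕ) : ℕ :=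
  List.rec (motive := fun _ => ℕ) 0
    (fun p _ ih => Nat.add (Nat.shiftLeft 1 (Nat.mul W p)) ih) P

/-- Contribution of one product with shifted value `g` and bias `b2 / 2`. -/
noncomputable def entV (W b2 g : ℕ) (P : Ent) : ℕ :=
  Prod.rec (motive := fun _ => ℕ)
    (fun p m => List.rec (motive := fun _ => ℕ) (Nat.mul g (patN W p))
      (fun _ _ _ => Nat.add (Nat.mul g (patN W p)) (Nat.mul (Nat.sub b2 g) (patN W m))) m) P

/-- Hits of one product. -/
noncomputable def entH (W : ℕ) (P : Ent) : ℕ :=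
  Prod.rec (motive := fun _ => ℕ) (fun p m => Nat.add (patN W p) (patN W m)) P

/-- Shifted dot product of a forward and a reversed row. -/
def gdot (K U R : ℕ) : ℕ :=
  Nat.mod (Nat.shiftRight (Nat.mul U R) (Nat.mul 56 (Nat.add K 1))) 72057594037927936

/-- Products of a row with later rows. -/
noncomputable def fOff (W K b2 U : ℕ) (S : List (ℕ × ℕ)) : List Ent → ℕ :=
  List.rec (motive := fun _ => List Ent → ℕ) (fun _ => 0)
    (fun q _ ih Ps => List.rec (motive := fun _ => ℕ) 0
      (fun P Q _ => Nat.add (entV W b2 (gdot K U q.2) P) (ih Q)) Ps) S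

/-- Hits of a row. -/
noncomputable def hOff (W : ℕ) (Ps : List Ent) : ℕ :=
  List.rec (motive := fun _ => ℕ) 0 (fun P _ ih => Nat.add (entH W P) ih) Ps

/-- Add to the head bucket. -/
noncomputable def addHead (x : ℕ) (L : List ℕ) : List ℕ :=
  List.rec (motive := fun _ => List ℕ) [x] (fun y L' _ => Nat.add x y :: L') L

/-- Skip buckets, then add to the head. -/
noncomputable def insB (skip x : ℕ) (L : List ℕ) : List ℕ :=
  Nat.rec (motive := fun _ => List ℕ) (addHead x L) (fun _ ih => 0 :: ih) skip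

/-- Sum of bucket lists. -/
noncomputable def addB (A : List ℕ) : List ℕ → List ℕ :=
  List.rec (motive := fun _ => List ℕ → List ℕ) (fun B => B)
    (fun a A' ih B => List.rec (motive := fun _ => List ℕ) (a :: A')
      (fun b B' _ => Nat.add a b :: ih B') B) A

/-- Number packed in buckets of sixty-four slots. -/
noncomputable def bval (W : ℕ) (L : List ℕ) : ℕ :=
  List.rec (motive := fun _ => ℕ) 0
    (fun x _ ih => Nat.add x (Nat.shiftLeft ih (Nat.mul W 64))) L

/-- Products of a block, in buckets. -/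
noncomputable def fRowsB (W K b2 : ℕ) (R : List (ℕ × ℕ)) : List PRow → List ℕ :=
  List.rec (motive := fun _ => List PRow → List ℕ) (fun _ => [])
    (fun r R' ih Q => List.rec (motive := fun _ => List ℕ) []
      (fun row Q' _ => List.rec (motive := fun _ => List ℕ) []
        (fun P Ps _ => insB row.1.1
          (Nat.shiftLeft (Nat.add (entV W b2 (gdot K r.1 r.2) P)
            (Nat.mul 2 (fOff W K b2 r.1 R' Ps))) (Nat.mul W row.1.2)) (ih Q')) row.2) Q) R

/-- Hits of a block, in buckets. -/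
noncomputable def hRowsB (W : ℕ) (Q : List PRow) : List ℕ :=
  List.rec (motive := fun _ => List ℕ) []
    (fun row _ ih => List.rec (motive := fun _ => List ℕ) []
      (fun P Ps _ => insB row.1.1
        (Nat.shiftLeft (Nat.add (entH W P) (Nat.mul 2 (hOff W Ps))) (Nat.mul W row.1.2)) ih) row.2) Q

/-- Entries of a stored row, in slots of 56 bits. -/
noncomputable def fwdU (L : ℕ) : ℕ → ℕ :=
  Nat.rec (motive := fun _ => ℕ → ℕ) (fun _ => 0)
    (fun _ ih N => Nat.add (Nat.mod N 16777216)
      (Nat.shiftLeft (ih (Nat.shiftRight N 24)) 56)) L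

/-- The same, reversed. -/
noncomputable def revU (L : ℕ) : ℕ → ℕ :=
  Nat.rec (motive := fun _ => ℕ → ℕ) (fun _ => 0)
    (fun L' ih N => Nat.add (Nat.shiftLeft (Nat.mod N 16777216) (Nat.mul 56 L'))
      (ih (Nat.shiftRight N 24))) L

/-- Padding entries. -/
def padU (M : ℕ) : ℕ := Nat.mul 8388608 (Sos.onesF 56 M)

/-- Last slot of an extended row. -/
def extTop (K U : ℕ) : ℕ :=
  Nat.sub (Nat.mul K 140737488355328) (Nat.mul 8388608 (Nat.mod U 72057594037927935))

/-- A row of length `K` with framing slots. -/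
def frame (K U T : ℕ) : ℕ :=
  Nat.add 1 (Nat.add (Nat.shiftLeft U 56) (Nat.shiftLeft T (Nat.mul 56 (Nat.add K 1))))

/-- A stored row of length `L`, forward and reversed. -/
noncomputable def loadRow (K L N : ℕ) : ℕ × ℕ :=
  (frame K (Nat.add (fwdU L N) (Nat.shiftLeft (padU (Nat.sub K L)) (Nat.mul 56 L)))
      (extTop K (Nat.add (fwdU L N) (Nat.shiftLeft (padU (Nat.sub K L)) (Nat.mul 56 L)))),
    frame K (Nat.add (Nat.shiftLeft (revU L N) (Nat.mul 56 (Nat.sub K L))) (padU (Nat.sub K L)))
      (extTop K (Nat.add (fwdU L N) (Nat.shiftLeft (padU (Nat.sub K L)) (Nat.mul 56 L)))))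

/-- All rows of a triangular factor. -/
noncomputable def loadRows (K : ℕ) (k : ℕ) : ℕ → ℕ → List (ℕ × ℕ) :=
  Nat.rec (motive := fun _ => ℕ → ℕ → List (ℕ × ℕ)) (fun _ _ => [])
    (fun _ ih L N => loadRow K L N :: ih (Nat.succ L) (Nat.shiftRight N (Nat.mul 24 L))) k

/-- Pass a number on in evaluated form: the recursor leaves the body with a literal. -/
noncomputable def forceN {α : Type} (x : ℕ) (f : ℕ → α) : α :=
  Nat.rec (motive := fun _ => α) (f 0) (fun k _ => f (Nat.succ k)) x

theorem forceN_eq {α : Type} (x : ℕ) (f : ℕ → α) : forceN x f = f x := by cases x <;> rfl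

/-- Buckets of a block given by its packed factor. -/
noncomputable def fBlockB (W : ℕ) (b : Block) (N : ℕ) : List ℕ :=
  forceN b.bas.length fun K =>
    fRowsB W K (Nat.mul K 422212465065984) (loadRows K K 1 N) b.rows

/-- Buckets of all blocks; a missing factor is read as zero. -/
noncomputable def fAllB (W : ℕ) (Bs : List Block) : List ℕ → List ℕ :=
  List.rec (motive := fun _ => List ℕ → List ℕ) (fun _ => [])
    (fun b _ ih Ns => addB (fBlockB W b (List.headD Ns 0)) (ih (List.tail Ns))) Bs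

/-- The constant shift of all blocks. -/
noncomputable def biasAll (W : ℕ) (Bs : List Block) : ℕ :=
  List.rec (motive := fun _ => ℕ) 0
    (fun b _ ih => Nat.add
      (Nat.mul (Nat.mul b.bas.length 211106232532992) (bval W (hRowsB W b.rows))) ih) Bs

/-- Contribution of all blocks. -/
noncomputable def fAll (W bias : ℕ) (Bs : List Block) (Ns : List ℕ) : ℤ :=
  Int.subNatNat (bval W (fAllB W Bs Ns)) bias

/-- The block is consistent. -/
noncomputable def Block.ok (b : Block) (n : ℕ) (gam : List (List Mon)) : Bool :=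
  prowsOK n gam b.K 0 b.bas b.rows && Nat.ble b.bas.length 64

theorem bval_cons (W x : ℕ) (L : List ℕ) :
    bval W (x :: L) = x + bval W L * base W ^ 64 := by
  show x + Nat.shiftLeft (bval W L) (W * 64) = _
  rw [show Nat.shiftLeft (bval W L) (W * 64) = bval W L <<< (W * 64) from rfl, Nat.shiftLeft_eq,
    base, ← pow_mul]

theorem bval_insB (W x : ℕ) (L : List ℕ) : ∀ skip,
    bval W (insB skip x L) = (x + bval W L) * base W ^ (64 * skip)
  | 0 => by
    cases L with
    | nil => simp [insB, addHead, bval]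
    | cons y L =>
      show bval W ((x + y) :: L) = _
      simp [bval_cons]
      ring
  | k + 1 => by
    show bval W (0 :: insB k x L) = _
    rw [bval_cons, bval_insB W x L k, Nat.mul_succ, pow_add]
    ring

theorem bval_addB (W : ℕ) : ∀ A B : List ℕ, bval W (addB A B) = bval W A + bval W B
  | [], B => by simp [addB, bval]
  | a :: A, [] => by simp [addB, bval]
  | a :: A, b :: B => by
    show bval W ((a + b) :: addB A B) = _
    rw [bval_cons, bval_cons, bval_cons, bval_addB W A B]
    ring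

/-! ### Digits of a product -/

theorem npk_congr (S n : ℕ) (a b : ℕ → ℕ) (h : ∀ k, k < n → a k = b k) :
    npk S n a = npk S n b :=
  Finset.sum_congr rfl fun k hk => by rw [h k (Finset.mem_range.1 hk)]

theorem npk_top (S n : ℕ) (a : ℕ → ℕ) : npk S (n + 1) a = npk S n a + a n * base S ^ n :=
  Finset.sum_range_succ _ _

theorem npk_append (S L M : ℕ) (a : ℕ → ℕ) :
    npk S (L + M) a = npk S L a + base S ^ L * npk S M fun k => a (L + k) := by
  rw [npk, Finset.sum_range_add, npk, npk, Finset.mul_sum]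
  congr 1
  exact Finset.sum_congr rfl fun k _ => by rw [pow_add]; ring

theorem npk_lt (S : ℕ) : ∀ (n : ℕ) (a : ℕ → ℕ), (∀ k, k < n → a k < base S) →
    npk S n a < base S ^ n
  | 0, a, _ => by simp [npk]
  | n + 1, a, h => by
    rw [Sos.npk_succ, pow_succ']
    have h0 := h 0 (by omega)
    have ih := npk_lt S n (fun k => a (k + 1)) fun k hk => h _ (by omega)
    have := Nat.mul_le_mul_left (base S) (Nat.succ_le_of_lt ih)
    rw [Nat.mul_succ] at this
    omega

/-- Products of slots below a slot. -/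
def conv (a c : ℕ → ℕ) (j : ℕ) : ℕ := ∑ i ∈ Finset.range (j + 1), a i * c (j - i)

theorem npk_mul_modEq (S : ℕ) : ∀ (m : ℕ) (a c : ℕ → ℕ),
    Nat.ModEq (base S ^ (m + 1)) (npk S (m + 1) a * npk S (m + 1) c) (npk S (m + 1) (conv a c))
  | 0, a, c => by simp [npk, conv]; exact Nat.ModEq.refl _
  | m + 1, a, c => by
    obtain ⟨a', ha'⟩ : ∃ a' : ℕ → ℕ, a' = fun k => a (k + 1) := ⟨_, rfl⟩
    have ih := npk_mul_modEq S m a' c
    have e1 : Nat.ModEq (base S ^ (m + 1)) (npk S (m + 1) a' * npk S (m + 2) c)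
        (npk S (m + 1) (conv a' c)) := by
      refine Nat.ModEq.trans (Nat.ModEq.mul_left _ ?_) ih
      rw [npk_top S (m + 1) c]
      exact Nat.modEq_iff_dvd.2 ⟨-(c (m + 1) : ℤ), by push_cast; ring⟩
    have e2 := Nat.ModEq.mul_left' (base S) e1
    rw [← pow_succ'] at e2
    have e3 : npk S (m + 2) (conv a c) =
        a 0 * npk S (m + 2) c + base S * npk S (m + 1) (conv a' c) := by
      rw [Sos.npk_succ S (m + 1) (conv a c), Sos.npk_succ S (m + 1) c]
      have : (fun k => conv a c (k + 1)) = fun k => a 0 * c (k + 1) + conv a' c k := by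
        funext k
        rw [conv, Finset.sum_range_succ', ha', add_comm, conv]
        simp
      rw [this, ← npk_add, ← npk_smul S (m + 1) (a 0) fun k => c (k + 1)]
      simp [conv]
      ring
    rw [e3, Sos.npk_succ S (m + 1) a, ← ha', add_mul, mul_assoc]
    exact Nat.ModEq.add_left _ e2

theorem npk_digit (S m : ℕ) (a c : ℕ → ℕ) (h : ∀ j, j ≤ m → conv a c j < base S) :
    npk S (m + 1) a * npk S (m + 1) c / base S ^ m % base S = conv a c m := by
  have hb : 0 < base S := Nat.two_pow_pos S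
  have e : (npk S (m + 1) a * npk S (m + 1) c) % base S ^ (m + 1) = npk S (m + 1) (conv a c) :=
    Eq.trans (npk_mul_modEq S m a c)
      (Nat.mod_eq_of_lt (npk_lt S _ _ fun k hk => h k (by omega)))
  rw [← Nat.mod_mul_right_div_self, ← pow_succ, e, npk_top, Nat.add_mul_div_right _ _ (pow_pos hb m),
    Nat.div_eq_of_lt (npk_lt S m _ fun k hk => h k (by omega)), zero_add]

/-! ### Loaded rows -/

/-- Signed entry. -/
def sgn24 (x : ℕ) : ℤ := (x : ℤ) - 8388608

/-- Last slot. -/
def topOf (K : ℕ) (u : ℕ → ℕ) : ℕ :=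
  K * 140737488355328 - 8388608 * ∑ c ∈ Finset.range K, u c

/-- Extended forward row. -/
def extF (K : ℕ) (u : ℕ → ℕ) (i : ℕ) : ℕ :=
  if i = 0 then 1 else if i ≤ K then u (i - 1) else topOf K u

/-- Extended reversed row. -/
def extR (K : ℕ) (u : ℕ → ℕ) (i : ℕ) : ℕ :=
  if i = 0 then 1 else if i ≤ K then u (K - i) else topOf K u

/-- A packed row pair has the entries `f`. -/
def Fac (K : ℕ) (p : ℕ × ℕ) (f : ℕ → ℤ) : Prop :=
  ∃ u : ℕ → ℕ, (∀ c, u c ≤ 16777216) ∧ (∀ c, f c = sgn24 (u c)) ∧
    p.1 = npk 56 (K + 2) (extF K u) ∧ p.2 = npk 56 (K + 2) (extR K u)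

theorem gdot_eq {K : ℕ} (hK : K ≤ 64) {p q : ℕ × ℕ} {f g : ℕ → ℤ} (hp : Fac K p f)
    (hq : Fac K q g) :
    gdot K p.1 q.2 ≤ K * 422212465065984 ∧
    (gdot K p.1 q.2 : ℤ) - (K * 211106232532992 : ℕ) = ∑ c ∈ Finset.range K, f c * g c ∧
    |∑ c ∈ Finset.range K, f c * g c| ≤ 2 ^ 52 := by
  obtain ⟨u, hu, huf, hp1, -⟩ := hp
  obtain ⟨w, hw, hwg, -, hq2⟩ := hq
  have hsum : ∀ (x : ℕ → ℕ), (∀ c, x c ≤ 16777216) →
      8388608 * ∑ c ∈ Finset.range K, x c ≤ K * 140737488355328 := fun x hx => by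
    have := Finset.sum_le_card_nsmul (Finset.range K) (fun c => x c) 16777216 fun c _ => hx c
    simp at this
    omega
  obtain ⟨su, hsu⟩ : ∃ s, s = ∑ c ∈ Finset.range K, u c := ⟨_, rfl⟩
  obtain ⟨sw, hsw⟩ : ∃ s, s = ∑ c ∈ Finset.range K, w c := ⟨_, rfl⟩
  obtain ⟨duw, hduw⟩ : ∃ s, s = ∑ c ∈ Finset.range K, u c * w c := ⟨_, rfl⟩
  have hu' := hsum u hu
  have hw' := hsum w hw
  have hm : conv (extF K u) (extR K w) (K + 1) =
      (K * 140737488355328 - 8388608 * sw) + duw + (K * 140737488355328 - 8388608 * su) := by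
    rw [conv, Finset.sum_range_succ, Finset.sum_range_succ']
    have : ∀ c ∈ Finset.range K, extF K u (c + 1) * extR K w (K + 1 - (c + 1)) = u c * w c := by
      intro c hc
      have := Finset.mem_range.1 hc
      simp only [extF, extR, Nat.add_sub_cancel, Nat.succ_ne_zero, if_false]
      rw [if_pos (by omega : c + 1 ≤ K), if_neg (by omega : ¬ K + 1 - (c + 1) = 0),
        if_pos (by omega : K + 1 - (c + 1) ≤ K), show K - (K + 1 - (c + 1)) = c by omega]
    rw [Finset.sum_congr rfl this]
    simp [extF, extR, topOf, ← hsu, ← hsw, ← hduw]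
    ring
  have hd : duw ≤ K * 281474976710656 := by
    rw [hduw]
    refine (Finset.sum_le_card_nsmul _ _ 281474976710656 fun c _ => ?_).trans (by simp)
    exact (Nat.mul_le_mul (hu c) (hw c)).trans (by norm_num)
  have hlow : ∀ j, j ≤ K + 1 → conv (extF K u) (extR K w) j < base 56 := by
    intro j hj
    rcases Nat.lt_or_ge j (K + 1) with hj' | hj'
    · refine lt_of_le_of_lt (Finset.sum_le_card_nsmul _ _ 281474976710656 fun i hi => ?_) ?_
      · have := Finset.mem_range.1 hi
        have h1 : extF K u i ≤ 16777216 := by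
          unfold extF; split
          · norm_num
          · split
            · exact hu _
            · omega
        have h2 : extR K w (j - i) ≤ 16777216 := by
          unfold extR; split
          · norm_num
          · split
            · exact hw _
            · omega
        exact (Nat.mul_le_mul h1 h2).trans (by norm_num)
      · simp [base]
        omega
    · rw [show j = K + 1 by omega, hm]
      simp [base]
      omega
  have hg : gdot K p.1 q.2 = conv (extF K u) (extR K w) (K + 1) := by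
    rw [← npk_digit 56 (K + 1) _ _ hlow, ← hp1, ← hq2]
    show (p.1 * q.2) >>> (56 * (K + 1)) % 72057594037927936 = _
    rw [Nat.shiftRight_eq_div_pow, base, ← pow_mul]
    norm_num
  have he : ∑ c ∈ Finset.range K, f c * g c =
      (duw : ℤ) - 8388608 * su - 8388608 * sw + K * 70368744177664 := by
    rw [hduw, hsu, hsw]
    simp only [huf, hwg, sgn24]
    push_cast
    simp only [Finset.mul_sum]
    rw [show (K : ℤ) * 70368744177664 = ∑ _c ∈ Finset.range K, (70368744177664 : ℤ) by simp,
      ← Finset.sum_sub_distrib, ← Finset.sum_sub_distrib, ← Finset.sum_add_distrib]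
    exact Finset.sum_congr rfl fun c _ => by ring
  have hb : |∑ c ∈ Finset.range K, f c * g c| ≤ K * 70368744177664 := by
    refine (Finset.abs_sum_le_sum_abs _ _).trans ?_
    refine (Finset.sum_le_card_nsmul _ _ 70368744177664 fun c _ => ?_).trans (by simp)
    have a1 : |f c| ≤ 8388608 := by
      rw [huf, sgn24, abs_le]; have := hu c; constructor <;> omega
    have a2 : |g c| ≤ 8388608 := by
      rw [hwg, sgn24, abs_le]; have := hw c; constructor <;> omega
    rw [abs_mul]
    exact (mul_le_mul a1 a2 (abs_nonneg _) (by norm_num)).trans (by norm_num)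
  have hb' := abs_le.1 hb
  rw [← hsu] at hu'
  rw [← hsw] at hw'
  refine ⟨?_, ?_, hb.trans ?_⟩
  · rw [hg, hm]; omega
  · rw [hg, hm, he]; omega
  · norm_num
    omega

/-- Entry of a stored row. -/
def ent24 (N c : ℕ) : ℕ := N / 16777216 ^ c % 16777216

theorem ent24_zero (N : ℕ) : ent24 N 0 = N % 16777216 := by simp [ent24]

theorem ent24_succ (N c : ℕ) : ent24 N (c + 1) = ent24 (N >>> 24) c := by
  simp [ent24, Nat.shiftRight_eq_div_pow, Nat.div_div_eq_div_mul, pow_succ']

theorem shl_base (w a m : ℕ) : Nat.shiftLeft a (w * m) = a * base w ^ m := by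
  show a <<< (w * m) = _
  rw [Nat.shiftLeft_eq, base, ← pow_mul]

theorem shl_mul (a m : ℕ) : Nat.shiftLeft a (56 * m) = a * base 56 ^ m := shl_base 56 a m

theorem fwdU_eq : ∀ (L N : ℕ), fwdU L N = npk 56 L (ent24 N)
  | 0, N => rfl
  | L + 1, N => by
    show N % 16777216 + Nat.shiftLeft (fwdU L (N >>> 24)) 56 = _
    rw [Sos.npk_succ, fwdU_eq L, ent24_zero, show (56 : ℕ) = 56 * 1 from rfl, shl_mul]
    simp only [ent24_succ, pow_one, mul_one]
    ring

theorem revU_eq : ∀ (L N : ℕ), revU L N = npk 56 L fun c => ent24 N (L - 1 - c)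
  | 0, N => rfl
  | L + 1, N => by
    show Nat.shiftLeft (N % 16777216) (56 * L) + revU L (N >>> 24) = _
    rw [revU_eq L, shl_mul, npk_top]
    rw [npk_congr 56 L (fun c => ent24 N (L + 1 - 1 - c))
      (fun c => ent24 (N >>> 24) (L - 1 - c)) fun c hc => by
        rw [← ent24_succ]; congr 1; omega]
    simp [ent24_zero]
    ring

theorem padU_eq (M : ℕ) : padU M = npk 56 M fun _ => 8388608 := by
  show 8388608 * Sos.onesF 56 M = _
  rw [Sos.onesF_eq 56 (by norm_num)]
  induction M with
  | zero => rfl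
  | succ M ih => rw [Sos.ones_succ, Sos.npk_succ, ← ih]; ring

/-- Entries of a padded row. -/
def padEnt (L N c : ℕ) : ℕ := if c < L then ent24 N c else 8388608

theorem loadRow_fac (K L N : ℕ) (hL : L ≤ K) (hK : K ≤ 64) :
    Fac K (loadRow K L N) fun c => sgn24 (padEnt L N c) := by
  obtain ⟨u, hu⟩ : ∃ u, u = padEnt L N := ⟨_, rfl⟩
  have hule : ∀ c, u c ≤ 16777216 := fun c => by
    rw [hu, padEnt]; split
    · exact (Nat.mod_lt _ (by norm_num)).le
    · norm_num
  refine ⟨u, hule, fun c => by rw [hu], ?_⟩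
  have hU : fwdU L N + Nat.shiftLeft (padU (K - L)) (56 * L) = npk 56 K u := by
    rw [shl_mul, fwdU_eq, padU_eq]
    conv_rhs => rw [show K = L + (K - L) by omega, npk_append]
    rw [npk_congr 56 L u (ent24 N) fun c hc => by simp [hu, padEnt, hc],
      npk_congr 56 (K - L) (fun k => u (L + k)) (fun _ => 8388608) fun c hc => by simp [hu, padEnt]]
    ring
  have hR : Nat.shiftLeft (revU L N) (56 * (K - L)) + padU (K - L) =
      npk 56 K fun c => u (K - 1 - c) := by
    rw [shl_mul, revU_eq, padU_eq]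
    conv_rhs => rw [show K = (K - L) + L by omega, npk_append]
    rw [npk_congr 56 (K - L) (fun k => u (K - L + L - 1 - k)) (fun _ => 8388608) fun c hc => by
        simp [hu, padEnt]; intro h; omega,
      npk_congr 56 L (fun k => u (K - L + L - 1 - (K - L + k))) (fun k => ent24 N (L - 1 - k))
        fun c hc => by
          rw [hu, padEnt, if_pos (by omega)]; congr 1; omega]
    ring
  have hs : npk 56 K u % 72057594037927935 = ∑ c ∈ Finset.range K, u c := by
    refine Sos.npk_mod 56 K u ?_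
    have := Finset.sum_le_card_nsmul (Finset.range K) (fun c => u c) 16777216 fun c _ => hule c
    simp at this ⊢
    omega
  have hT : extTop K (npk 56 K u) = topOf K u := by
    show K * 140737488355328 - 8388608 * (npk 56 K u % 72057594037927935) = _
    rw [hs, topOf]
  have hfr : ∀ (x : ℕ → ℕ) (T : ℕ),
      frame K (npk 56 K x) T =
        npk 56 (K + 2) fun i => if i = 0 then 1 else if i ≤ K then x (i - 1) else T := by
    intro x T
    show 1 + (Nat.shiftLeft (npk 56 K x) 56 + Nat.shiftLeft T (56 * (K + 1))) = _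
    rw [Sos.npk_succ, npk_top, shl_mul, show (56 : ℕ) = 56 * 1 from rfl, shl_mul]
    simp only [Nat.succ_ne_zero, if_false, if_true, Nat.add_sub_cancel, pow_one, mul_one]
    rw [npk_congr 56 K (fun k => if k + 1 ≤ K then x k else T) x fun c hc => by simp [hc],
      if_neg (by omega)]
    ring
  constructor
  · show frame K (fwdU L N + Nat.shiftLeft (padU (K - L)) (56 * L))
      (extTop K (fwdU L N + Nat.shiftLeft (padU (K - L)) (56 * L))) = _
    rw [hU, hT, hfr]
    rfl
  · show frame K (Nat.shiftLeft (revU L N) (56 * (K - L)) + padU (K - L))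
      (extTop K (fwdU L N + Nat.shiftLeft (padU (K - L)) (56 * L))) = _
    rw [hU, hT, hR, hfr]
    refine npk_congr 56 _ _ _ fun i _ => ?_
    unfold extR
    split
    · rfl
    · split
      · congr 1; omega
      · rfl

theorem loadRows_fac (K : ℕ) (hK : K ≤ 64) : ∀ (k L N : ℕ), L + k ≤ K + 1 →
    ∃ fs : List (ℕ → ℤ), List.Forall₂ (Fac K) (loadRows K k L N) fs
  | 0, _, _, _ => ⟨[], .nil⟩
  | k + 1, L, N, h => by
    obtain ⟨fs, hfs⟩ := loadRows_fac K hK k (L + 1) (N >>> (24 * L)) (by omega)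
    exact ⟨_, .cons (loadRow_fac K L N (by omega) hK) hfs⟩

theorem loadRows_length (K : ℕ) : ∀ (k L N : ℕ), (loadRows K k L N).length = k
  | 0, _, _ => rfl
  | k + 1, L, N => by
    show (_ :: loadRows K k (L + 1) _).length = _
    simp [loadRows_length K k]

/-! ### Values -/

variable (W n : ℕ) (gam : List (List Mon)) (z v : ℕ → ℝ)

/-- Value of a coefficient vector. -/
noncomputable def gv (f : ℕ → ℤ) : ℝ :=
  ∑ k ∈ Finset.range n, (f k : ℝ) * (monAt gam k).ev z v

/-- A packed integer `Z` of coefficient bound `B` and value `V`. -/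
def Rep (Z : ℤ) (B : ℤ) (V : ℝ) : Prop :=
  ∃ f : ℕ → ℤ, Z = pk W n f ∧ (∀ k, |f k| ≤ B) ∧ gv n gam z v f = V

theorem Rep.zero : Rep W n gam z v 0 0 0 := ⟨fun _ => 0, by simp [pk], by simp, by simp [gv]⟩

theorem Rep.mono {Z B B' : ℤ} {V : ℝ} (hB : B ≤ B') (h : Rep W n gam z v Z B V) :
    Rep W n gam z v Z B' V := by
  obtain ⟨f, h1, h2, h3⟩ := h
  exact ⟨f, h1, fun k => (h2 k).trans hB, h3⟩

theorem Rep.add {Z Z' B B' : ℤ} {V V' : ℝ} (h : Rep W n gam z v Z B V)
    (h' : Rep W n gam z v Z' B' V') : Rep W n gam z v (Z + Z') (B + B') (V + V') := by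
  obtain ⟨f, h1, h2, h3⟩ := h
  obtain ⟨g, g1, g2, g3⟩ := h'
  refine ⟨fun k => f k + g k, ?_, fun k => (abs_add_le _ _).trans (add_le_add (h2 k) (g2 k)), ?_⟩
  · simp [h1, g1, pk_add]
  · simp [← h3, ← g3, gv, add_mul, Finset.sum_add_distrib]

theorem Rep.smul {Z B : ℤ} {V : ℝ} (c : ℤ) {C : ℤ} (hc : |c| ≤ C) (h : Rep W n gam z v Z B V) :
    Rep W n gam z v (c * Z) (C * B) (c * V) := by
  obtain ⟨f, h1, h2, h3⟩ := h
  refine ⟨fun k => c * f k, ?_, fun k => ?_, ?_⟩
  · simp [h1, pk_smul]
  · rw [abs_mul]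
    exact mul_le_mul hc (h2 k) (abs_nonneg _) ((abs_nonneg c).trans hc)
  · simp [← h3, gv, Finset.mul_sum, mul_assoc]

theorem patN_nil : patN W [] = 0 := rfl

theorem patN_cons (p : ℕ) (P : List ℕ) :
    patN W (p :: P) = Nat.shiftLeft 1 (W * p) + patN W P := rfl

theorem patN_spec (o : ℕ) : ∀ (P : List ℕ) (Q : List Mon), monsOK n gam o P Q = true →
    Rep W n gam z v ((patN W P * base W ^ o : ℕ) : ℤ) (P.length : ℕ) (monSum z v Q)
  | [], [], _ => by simpa [patN_nil, monSum] using Rep.zero W n gam z v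
  | p :: P, q :: Q, h => by
    simp only [monsOK, Bool.and_eq_true, Nat.blt_eq] at h
    have ih := patN_spec o P Q h.2
    have h1 : Rep W n gam z v ((base W ^ (o + p) : ℕ) : ℤ) 1 (q.ev z v) := by
      refine ⟨fun k => if k = o + p then 1 else 0, ?_, fun k => by dsimp only; split <;> simp, ?_⟩
      · simp [pk, Finset.sum_ite_eq', h.1.1]
      · simp [gv, apply_ite (fun q : ℤ => (q : ℝ)), ite_mul, Finset.sum_ite_eq', h.1.1,
          sameMon_sound h.1.2]
    refine Rep.mono W n gam z v (B := 1 + (P.length : ℕ)) (by simp; omega) ?_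
    have := Rep.add W n gam z v h1 ih
    convert this using 1
    · rw [patN_cons, shl_base, one_mul, pow_add]
      push_cast
      ring
    · rfl
  | [], _ :: _, h => by simp [monsOK] at h
  | _ :: _, [], h => by simp [monsOK] at h

theorem entV_spec (o : ℕ) (K : Kind) (e f : Bas) (P : Ent) (hP : entOK n gam o K e f P = true)
    (g b : ℕ) (hg : g ≤ 2 * b) (G : ℤ) (hG : (g : ℤ) - b = G) (hb : |G| ≤ 2 ^ 52) :
    Rep W n gam z v
      (((entV W (2 * b) g P : ℕ) : ℤ) * (base W : ℤ) ^ o - b * (((entH W P : ℕ) : ℤ) * (base W : ℤ) ^ o))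
      (2 ^ 52 * (P.1.length + P.2.length : ℕ)) (G * (K.ev z v * e.ev K z v * f.ev K z v)) := by
  obtain ⟨p, m⟩ := P
  simp only [entOK, Bool.and_eq_true] at hP
  have h1 := Rep.smul W n gam z v G hb (patN_spec W n gam z v o p _ hP.1)
  have h2 := Rep.smul W n gam z v (-G) (C := 2 ^ 52) (by rwa [abs_neg]) (patN_spec W n gam z v o m _ hP.2)
  have h3 := Rep.add W n gam z v h1 h2
  rw [show (G : ℝ) * monSum z v (expandP K e f) + ((-G : ℤ) : ℝ) * monSum z v (expandM K e f) =
    G * (K.ev z v * e.ev K z v * f.ev K z v) by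
      rw [← monSum_expand]; push_cast; ring] at h3
  refine Rep.mono W n gam z v (le_of_eq ?_) ?_ (B := 2 ^ 52 * (p.length : ℕ) + 2 ^ 52 * (m.length : ℕ))
  · push_cast; ring
  · convert h3 using 1
    have e : entV W (2 * b) g (p, m) = g * patN W p + (2 * b - g) * patN W m := by
      cases m
      · show g * patN W p = _
        rw [patN_nil, mul_zero, add_zero]
      · rfl
    rw [e]
    show ((g * patN W p + (2 * b - g) * patN W m : ℕ) : ℤ) * _ - b * (((patN W p + patN W m : ℕ) : ℤ) * _) = _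
    rw [← hG]
    push_cast [Nat.cast_sub hg]
    ring

/-- Linear combination of factor rows at column `c`. -/
noncomputable def colv (K : Kind) : List Bas → List (ℕ → ℤ) → ℕ → ℝ
  | e :: F, r :: R, c => e.ev K z v * r c + colv K F R c
  | _, _, _ => 0

theorem fOff_spec (k : ℕ) (hk : k ≤ 64) (o : ℕ) (K : Kind) (e : Bas) {p : ℕ × ℕ} {r : ℕ → ℤ}
    (hp : Fac k p r) : ∀ (F : List Bas) (S : List (ℕ × ℕ)) (fs : List (ℕ → ℤ)) (Ps : List Ent),
    entsOK n gam o K e F Ps = true → List.Forall₂ (Fac k) S fs → S.length = F.length →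
    Rep W n gam z v
      (((fOff W k (k * 422212465065984) p.1 S Ps : ℕ) : ℤ) * (base W : ℤ) ^ o -
        (k * 211106232532992 : ℕ) * (((hOff W Ps : ℕ) : ℤ) * (base W : ℤ) ^ o))
      (2 ^ 52 * (entsW Ps : ℕ))
      (K.ev z v * (e.ev K z v * ∑ c ∈ Finset.range k, (r c : ℝ) * colv z v K F fs c))
  | [], [], fs, [], _, hS, _ => by
    simpa [fOff, hOff, entsW, colv] using Rep.zero W n gam z v
  | f :: F, q :: S, g :: fs, P :: Ps, h, hS, hl => by
    simp only [entsOK, Bool.and_eq_true] at h
    obtain ⟨hq, hS'⟩ := List.forall₂_cons.1 hS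
    obtain ⟨g1, g2, g3⟩ := gdot_eq hk hp hq
    have h1 := entV_spec W n gam z v o K e f P h.1 _ (k * 211106232532992) (by omega) _ g2 g3
    have h2 := fOff_spec k hk o K e hp F S fs Ps h.2 hS' (by simpa using hl)
    have h3 := Rep.add W n gam z v h1 h2
    rw [show 2 * (k * 211106232532992) = k * 422212465065984 by ring] at h3
    refine Rep.mono W n gam z v (le_of_eq ?_) ?_ (B := 2 ^ 52 * (P.1.length + P.2.length : ℕ) + 2 ^ 52 * (entsW Ps : ℕ))
    · simp [entsW]; ring
    · have ev : K.ev z v * (e.ev K z v * ∑ c ∈ Finset.range k, (r c : ℝ) * colv z v K (f :: F) (g :: fs) c) =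
          ((∑ c ∈ Finset.range k, r c * g c : ℤ) : ℝ) * (K.ev z v * e.ev K z v * f.ev K z v) +
            K.ev z v * (e.ev K z v * ∑ c ∈ Finset.range k, (r c : ℝ) * colv z v K F fs c) := by
        simp only [colv, mul_add, Finset.sum_add_distrib, Int.cast_sum, Int.cast_mul,
          Finset.mul_sum, Finset.sum_mul]
        congr 1
        exact Finset.sum_congr rfl fun c _ => by ring
      rw [ev]
      convert h3 using 1
      show ((entV W _ _ P + fOff W k _ p.1 S Ps : ℕ) : ℤ) * _ - _ * (((entH W P + hOff W Ps : ℕ) : ℤ) * _) = _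
      push_cast
      ring
  | [], _ :: _, _, _, _, _, hl => by simp at hl
  | _ :: _, [], _, _, _, _, hl => by simp at hl
  | [], [], _, _ :: _, h, _, _ => by simp [entsOK] at h
  | _ :: _, _ :: _, [], _, _, hS, _ => by cases hS
  | _ :: _, _ :: _, _ :: _, [], h, _, _ => by simp [entsOK] at h

theorem fRowsB_spec (k : ℕ) (hk : k ≤ 64) (K : Kind) :
    ∀ (F : List Bas) (R : List (ℕ × ℕ)) (fs : List (ℕ → ℤ)) (Q : List PRow) (o : ℕ),
    prowsOK n gam K o F Q = true → List.Forall₂ (Fac k) R fs → R.length = F.length →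
    Rep W n gam z v
      (((bval W (fRowsB W k (k * 422212465065984) R Q) : ℕ) : ℤ) * (base W : ℤ) ^ o -
        (k * 211106232532992 : ℕ) * (((bval W (hRowsB W Q) : ℕ) : ℤ) * (base W : ℤ) ^ o))
      (2 ^ 52 * (blockW Q : ℕ))
      (K.ev z v * ∑ c ∈ Finset.range k, colv z v K F fs c ^ 2)
  | [], [], _, [], _, _, _, _ => by
    simpa [fRowsB, hRowsB, bval, colv, blockW] using Rep.zero W n gam z v
  | e :: F, p :: R, r :: fs, ((sk, l), []) :: Q, o, h, _, _ => by simp [prowsOK, entsOK] at h
  | e :: F, p :: R, r :: fs, ((sk, l), P :: Ps) :: Q, o, h, hS, hl => by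
    simp only [prowsOK, entsOK, Bool.and_eq_true] at h
    obtain ⟨hp, hS'⟩ := List.forall₂_cons.1 hS
    obtain ⟨g1, g2, g3⟩ := gdot_eq hk hp hp
    have h1 := entV_spec W n gam z v (o + 64 * sk + l) K e e P h.1.1 _ (k * 211106232532992)
      (by omega) _ g2 g3
    have h2 := Rep.smul W n gam z v 2 (C := 2) (by norm_num)
      (fOff_spec W n gam z v k hk (o + 64 * sk + l) K e hp F R fs Ps h.1.2 hS' (by simpa using hl))
    have h3 := fRowsB_spec k hk K F R fs Q (o + 64 * sk) h.2 hS' (by simpa using hl)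
    have h4 := Rep.add W n gam z v (Rep.add W n gam z v h1 h2) h3
    rw [show 2 * (k * 211106232532992) = k * 422212465065984 by ring] at h4
    refine Rep.mono W n gam z v ?_ ?_ (B := 2 ^ 52 * (P.1.length + P.2.length : ℕ) +
      2 * (2 ^ 52 * (entsW Ps : ℕ)) + 2 ^ 52 * (blockW Q : ℕ))
    · simp [entsW, blockW]
      linarith
    · have ev : K.ev z v * ∑ c ∈ Finset.range k, colv z v K (e :: F) (r :: fs) c ^ 2 =
          ((∑ c ∈ Finset.range k, r c * r c : ℤ) : ℝ) * (K.ev z v * e.ev K z v * e.ev K z v) +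
            ((2 : ℤ) : ℝ) * (K.ev z v * (e.ev K z v * ∑ c ∈ Finset.range k, (r c : ℝ) * colv z v K F fs c)) +
            K.ev z v * ∑ c ∈ Finset.range k, colv z v K F fs c ^ 2 := by
        push_cast
        simp only [Finset.mul_sum, Finset.sum_mul, ← Finset.sum_add_distrib]
        exact Finset.sum_congr rfl fun c _ => by simp only [colv]; ring
      rw [ev]
      convert h4 using 1
      show ((bval W (insB sk (Nat.shiftLeft (entV W _ _ P + 2 * fOff W k _ p.1 R Ps) (W * l))
          (fRowsB W k _ R Q)) : ℕ) : ℤ) * _ -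
        _ * (((bval W (insB sk (Nat.shiftLeft (entH W P + 2 * hOff W Ps) (W * l))
          (hRowsB W Q)) : ℕ) : ℤ) * _) = _
      simp only [bval_insB, shl_base]
      push_cast
      ring
  | [], _ :: _, _, _, _, _, _, hl => by simp at hl
  | _ :: _, [], _, _, _, _, _, hl => by simp at hl
  | [], [], _, _ :: _, _, h, _, _ => by simp [prowsOK] at h
  | _ :: _, _ :: _, [], _, _, _, hS, _ => by cases hS
  | _ :: _, _ :: _, _ :: _, [], _, h, _, _ => by simp [prowsOK] at h

theorem fAllB_spec (hD : Dom z v) : ∀ (Bs : List Block) (Ns : List ℕ),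
    Bs.all (fun b => b.ok n gam) = true →
    ∃ V, 0 ≤ V ∧ Rep W n gam z v (((bval W (fAllB W Bs Ns) : ℕ) : ℤ) - (biasAll W Bs : ℕ))
      (2 ^ 52 * ((Bs.map fun b => blockW b.rows).sum : ℕ)) V
  | [], Ns, _ => ⟨0, le_rfl, by simpa [fAllB, biasAll, bval] using Rep.zero W n gam z v⟩
  | b :: Bs, Ns, h => by
    simp only [List.all_cons, Bool.and_eq_true, Block.ok, Nat.ble_eq] at h
    obtain ⟨⟨hrows, hlen⟩, hBs⟩ := h
    obtain ⟨V, hV, hrep⟩ := fAllB_spec hD Bs Ns.tail (by simpa [Block.ok, List.all_eq_true] using hBs)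
    obtain ⟨fs, hfs⟩ := loadRows_fac b.bas.length hlen b.bas.length 1 (Ns.headD 0) (by omega)
    have hb := fRowsB_spec W n gam z v b.bas.length hlen b.K b.bas _ fs b.rows 0 hrows hfs
      (loadRows_length _ _ _ _)
    refine ⟨b.K.ev z v * ∑ c ∈ Finset.range b.bas.length, colv z v b.K b.bas fs c ^ 2 + V,
      add_nonneg (mul_nonneg (Kind.ev_nonneg hD _) (Finset.sum_nonneg fun c _ => sq_nonneg _)) hV, ?_⟩
    refine Rep.mono W n gam z v ?_ ?_ (B := 2 ^ 52 * (blockW b.rows : ℕ) +
      2 ^ 52 * ((Bs.map fun b => blockW b.rows).sum : ℕ))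
    · simp [mul_add]
    · convert Rep.add W n gam z v hb hrep using 1
      show ((bval W (addB (fBlockB W b (Ns.headD 0)) (fAllB W Bs Ns.tail)) : ℕ) : ℤ) -
        ((b.bas.length * 211106232532992 * bval W (hRowsB W b.rows) + biasAll W Bs : ℕ) : ℤ) = _
      rw [bval_addB, fBlockB, forceN_eq]
      show ((bval W (fRowsB W b.bas.length (b.bas.length * 422212465065984) _ b.rows) +
        bval W (fAllB W Bs Ns.tail) : ℕ) : ℤ) - _ = _
      push_cast
      ring

theorem fAll_spec (hD : Dom z v) (bias : ℕ) (Bs : List Block) (hbias : biasAll W Bs = bias)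
    (hBs : Bs.all (fun b => b.ok n gam) = true) (Ns : List ℕ) :
    ∃ V, 0 ≤ V ∧ Rep W n gam z v (fAll W bias Bs Ns)
      (2 ^ 52 * ((Bs.map fun b => blockW b.rows).sum : ℕ)) V := by
  rw [fAll, Int.subNatNat_eq_coe, ← hbias]
  exact fAllB_spec W n gam z v hD Bs Ns hBs

end Vale.Agent.P098.Exact.Sos6
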