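import Vale.Agent.P098.Exact.Sos6.DiagLoad
import Vale.Agent.P098.Exact.Sos6.BoxK

/-!
Check of a box with shared Gram certificates and residuals bounded slot by slot, the bounds being
paid by the diagonal of the Gram basis.
-/

namespace Vale.Agent.P098.Exact.Sos6

open Sos (pk base half npk)

/-- A table with its square slots, its products and the square slots of the coordinates. -/
structure DTbl where
  /-- slots, blocks, gaps -/
  Y : Tbl
  /-- square slots -/
  sq : Sq
  /-- candidate products of every slot -/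
  spl : List (List (ℕ × ℕ))
  /-- square slot of every coordinate, out of range if it has none -/
  ql : List ℕ

/-- The square slot of a coordinate is right. -/
def qlOK (sq : Sq) : List ℕ → ℕ → Bool
  | [], _ => true
  | q :: L, a => (Nat.ble sq.length q || ((sqBas sq q).a == a &&
      (List.range 6).all fun i => (sqBas sq q).g.getD i 0 == 0)) && qlOK sq L (a + 1)

/-- Consistency of the table. -/
structure DTbl.Ok (T : DTbl) : Prop where
  /-- base table -/
  base : T.Y.Ok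
  /-- square slots -/
  sqs : sqOK T.Y.n T.Y.gam T.sq = true
  /-- products -/
  prods : splOK T.Y.gam T.sq T.spl 0 = true
  /-- coordinates -/
  qls : qlOK T.sq T.ql 0 = true
  /-- sizes -/
  sizes : (decide (T.spl.length = T.Y.n) && decide (T.ql.length = T.Y.N) && Nat.ble T.Y.n 16384 &&
    Nat.ble T.sq.length 16384 && Nat.ble T.Y.N 64) = true

/-- Need of a coordinate, in units `2^sh`. -/
def elV (sh e gap : ℕ) : ℕ :=
  Nat.div (Nat.sub (Nat.add (Nat.mul 16 (Nat.add (Nat.mul 1728 e) gap)) (Nat.pow 2 sh)) 1)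
    (Nat.pow 2 sh)

/-- Packed needs of the coordinates among the square slots. -/
noncomputable def elQ (sh nq : ℕ) (cs : List Coord) : List ℕ → List ℕ → ℕ :=
  List.rec (motive := fun _ => List ℕ → List ℕ → ℕ) (fun _ _ => 0)
    (fun c _ ih ql el => Nat.add
      (Bool.rec 0 (Nat.shiftLeft (elV sh (List.headD el 0) c.2.2) (Nat.mul 64 (List.headD ql nq)))
        (Nat.blt (List.headD ql nq) nq))
      (ih (List.tail ql) (List.tail el))) cs

/-- The needs are in range. -/
noncomputable def elOK (sh nq : ℕ) (cs : List Coord) : List ℕ → List ℕ → Bool :=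
  List.rec (motive := fun _ => List ℕ → List ℕ → Bool) (fun _ _ => true)
    (fun c _ ih ql el => Nat.blt (elV sh (List.headD el 0) c.2.2) 36028797018963968 &&
      (Nat.blt (List.headD ql nq) nq || Nat.beq (elV sh (List.headD el 0) c.2.2) 0) &&
      ih (List.tail ql) (List.tail el)) cs

/-- The residual is within the bounds around the allowance. -/
def resD (W O HO Bp Lp : ℕ) (R : ℤ) : Bool :=
  nnP W O HO (Int.add R (Int.subNatNat Bp Lp)) &&
    nnP W O HO (Int.sub (Int.ofNat (Nat.add Bp (Nat.mul 1024 Lp))) R)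

/-- One control. -/
noncomputable def ctlD (W n c wsum O HO Bp Lp : ℕ) (Fs : List ℤ) (lam : List ℕ) (P : ℤ) : Bool :=
  Nat.blt (Nat.mul (Nat.add n 1) (Nat.mul 256 (Nat.add (Nat.pow 2 (Nat.add c 18))
      (Nat.mul (lamSum lam) (Nat.mul 4503599627370496 wsum))))) (Nat.pow 2 W) &&
    resD W O HO Bp Lp (Int.sub P (fMix lam Fs))

/-- All controls. -/
noncomputable def ctlsD (W n c wsum O HO Bp Lp : ℕ) (Fs : List ℤ) (plan : List (List ℕ)) :
    List ℤ → Bool :=
  List.rec (motive := fun _ => List ℤ → Bool)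
    (fun Ps => List.rec (motive := fun _ => Bool) true (fun _ _ _ => false) Ps)
    (fun lam _ ih Ps => List.rec (motive := fun _ => Bool) false
      (fun P Ps' _ => ctlD W n c wsum O HO Bp Lp Fs lam P && ih Ps') Ps) plan

/-- The allowance pays for the bounds and for the needs. -/
noncomputable def DTbl.payOK (T : DTbl) (sh D E : ℕ) (el : List ℕ) : Bool :=
  forceN T.sq.length fun nq => dOK T.spl D && elOK sh nq T.Y.coords T.ql el &&
    forceN (Sos.onesF 64 nq) fun O => nnP 64 O (Nat.mul (half 64) O)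
      (Int.subNatNat (eQ T.sq E) (Nat.add (accQ T.spl D) (elQ sh nq T.Y.coords T.ql el)))

/-- Check of a box: the allowance pays, and every control stays within the bounds around it. -/
noncomputable def DTbl.check (T : DTbl) (facs plan : List (List ℕ)) (sh D E : ℕ) (V : List ℤ)
    (el : List ℕ) : Bool :=
  forceN T.Y.W fun W => forceN T.Y.n fun n => forceN T.Y.c fun c => forceN sh fun sh =>
    Nat.beq V.length 125 && Nat.blt (Nat.pow 2 (Nat.add sh 80)) (Nat.pow 2 W) &&
      smallAll W c n V && T.payOK sh D E el &&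
      forceN (Sos.onesF W n) fun O => forceN (Nat.mul (half W) O) fun HO =>
        forceN (bPk W sh T.spl D) fun Bp => forceN (lPk W sh T.sq E) fun Lp =>
          ctlsD W n c T.Y.wsum O HO Bp Lp (gramsOf W T.Y.bias T.Y.blocks facs) plan (ctrls V)

/-! ### Soundness -/

theorem ctlsD_spec (W n c wsum O HO Bp Lp : ℕ) (Fs : List ℤ) :
    ∀ (plan : List (List ℕ)) (Ps : List ℤ), ctlsD W n c wsum O HO Bp Lp Fs plan Ps = true →
      ∀ m, m < Ps.length → ∃ lam, ctlD W n c wsum O HO Bp Lp Fs lam (Ps.getD m 0) = true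
  | [], [], _, m, hm => by simp at hm
  | [], _ :: _, h, _, _ => by simp [ctlsD] at h
  | _ :: _, [], _, m, hm => by simp at hm
  | lam :: plan, P :: Ps, h, m, hm => by
    change (ctlD W n c wsum O HO Bp Lp Fs lam P &&
      ctlsD W n c wsum O HO Bp Lp Fs plan Ps) = true at h
    rw [Bool.and_eq_true] at h
    cases m with
    | zero => exact ⟨lam, by simpa using h.1⟩
    | succ m => simpa using ctlsD_spec W n c wsum O HO Bp Lp Fs plan Ps h.2 m (by simpa using hm)

theorem elV_ge (sh e gap : ℕ) : 16 * (1728 * e + gap) ≤ 2 ^ sh * elV sh e gap := by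
  show 16 * (1728 * e + gap) ≤ 2 ^ sh * ((16 * (1728 * e + gap) + 2 ^ sh - 1) / 2 ^ sh)
  have hp : 0 < 2 ^ sh := Nat.two_pow_pos sh
  have h1 := Nat.div_add_mod (16 * (1728 * e + gap) + 2 ^ sh - 1) (2 ^ sh)
  have h2 := Nat.mod_lt (16 * (1728 * e + gap) + 2 ^ sh - 1) hp
  omega

theorem elQ_spec (sh : ℕ) (sq : Sq) (z v : ℕ → ℝ) : ∀ (cs : List Coord) (ql el : List ℕ) (a : ℕ),
    ql.length = cs.length → qlOK sq ql a = true → elOK sh sq.length cs ql el = true →
      ∃ R : ℕ → ℕ, elQ sh sq.length cs ql el = npk 64 sq.length R ∧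
        (∀ q, R q ≤ cs.length * 2 ^ 55) ∧
        ∑ j ∈ Finset.range cs.length,
            ((16 * (1728 * el.getD j 0 + (cs.getD j (0, [], 0)).2.2) : ℕ) : ℝ) * z (a + j) ^ 2 ≤
          2 ^ sh * ∑ q ∈ Finset.range sq.length, (R q : ℝ) * sqX sq z v q ^ 2
  | [], ql, el, a, _, _, _ => ⟨fun _ => 0, by simp [elQ, npk], by simp, by simp⟩
  | c :: cs, [], el, a, h, _, _ => by simp at h
  | c :: cs, q :: ql, el, a, hlen, hq, he => by
    simp only [qlOK, Bool.and_eq_true] at hq
    change (Nat.blt (elV sh (List.headD el 0) c.2.2) 36028797018963968 &&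
      (Nat.blt q sq.length || Nat.beq (elV sh (List.headD el 0) c.2.2) 0) &&
      elOK sh sq.length cs ql el.tail) = true at he
    simp only [Bool.and_eq_true, Bool.or_eq_true, Nat.blt_eq] at he
    obtain ⟨⟨hv, hq0⟩, he⟩ := he
    obtain ⟨R, hR, hRb, hsum⟩ :=
      elQ_spec sh sq z v cs ql el.tail (a + 1) (by simpa using hlen) hq.2 he
    obtain ⟨x, hx⟩ : ∃ x, x = elV sh (List.headD el 0) c.2.2 := ⟨_, rfl⟩
    rw [← hx] at hv hq0
    have hge : ((16 * (1728 * el.getD 0 0 + c.2.2) : ℕ) : ℝ) ≤ 2 ^ sh * (x : ℝ) := by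
      have h := elV_ge sh (List.headD el 0) c.2.2
      rw [← hx] at h
      rw [show el.getD 0 0 = List.headD el 0 by cases el <;> rfl]
      exact_mod_cast h
    have hb : ∀ p, (if p = q then x else 0) + R p ≤ (c :: cs).length * 2 ^ 55 := fun p => by
      have := hRb p
      rw [List.length_cons, Nat.add_mul, one_mul]
      split_ifs <;> omega
    have hsum0 : ∀ j, el.getD (j + 1) 0 = el.tail.getD j 0 := fun j => by cases el <;> simp
    refine ⟨fun p => (if p = q then x else 0) + R p, ?_, hb, ?_⟩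
    · show Bool.rec 0 (Nat.shiftLeft (elV sh (List.headD el 0) c.2.2) (64 * q)) (Nat.blt q sq.length) +
        elQ sh sq.length cs ql el.tail = _
      rw [← hx, hR]
      rcases Nat.lt_or_ge q sq.length with hlt | hge'
      · rw [show Nat.blt q sq.length = true by rw [Nat.blt_eq]; exact hlt]
        show Nat.shiftLeft x (64 * q) + _ = _
        rw [shl_base, ← npk_single 64 sq.length q _ hlt, npk_add]
      · rw [show Nat.blt q sq.length = false from Bool.eq_false_iff.2 fun h => by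
          rw [Nat.blt_eq] at h; omega]
        show 0 + _ = _
        rw [Nat.zero_add]
        exact npk_congr _ _ _ _ fun p hp => by rw [if_neg (by omega), Nat.zero_add]
    · rw [List.length_cons, Finset.sum_range_succ']
      simp only [List.getD_cons_succ, List.getD_cons_zero, hsum0, Nat.add_zero, Nat.cast_add,
        add_mul, Finset.sum_add_distrib, Nat.cast_ite, Nat.cast_zero, ite_mul, zero_mul,
        Finset.sum_ite_eq', Finset.mem_range]
      simp only [Nat.add_assoc, Nat.add_comm 1, Nat.cast_add] at hsum ⊢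
      rcases Nat.lt_or_ge q sq.length with hlt | hge'
      · have hq1 := hq.1
        simp only [Bool.or_eq_true, Nat.ble_eq, Bool.and_eq_true, beq_iff_eq, List.all_eq_true,
          List.mem_range] at hq1
        obtain ⟨ha, hg⟩ := hq1.resolve_left (by omega)
        have hX : sqX sq z v q = z a := by
          show z (sqBas sq q).a * mon6 (sqBas sq q).g v = z a
          rw [ha, mon6, hg 0 (by norm_num), hg 1 (by norm_num), hg 2 (by norm_num),
            hg 3 (by norm_num), hg 4 (by norm_num), hg 5 (by norm_num)]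
          simp
        rw [if_pos hlt, hX]
        have h1 := mul_le_mul_of_nonneg_right hge (sq_nonneg (z a))
        linarith
      · have hx0 : x = 0 := Nat.eq_of_beq_eq_true (hq0.resolve_left (by omega))
        rw [hx0] at hge
        simp only [Nat.cast_zero, mul_zero] at hge
        rw [if_neg (by omega)]
        have h1 := mul_le_mul_of_nonneg_right hge (sq_nonneg (z a))
        linarith

theorem npk_subNat (W n : ℕ) (a b : ℕ → ℕ) :
    Int.subNatNat (npk W n a) (npk W n b) = pk W n fun k => (a k : ℤ) - b k := by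
  rw [Int.subNatNat_eq_coe, npk, npk, pk]
  push_cast
  simp [sub_mul, Finset.sum_sub_distrib]

/-- The controls of small targets, digit by digit. -/
theorem ctrl_digits (Y : Tbl) (hW : 0 < Y.W) (hcW : Y.c + 26 < Y.W) (hgl : Y.gl.length = Y.n)
    (hsame : sameFrom6 Y.gam Y.gl 0 = true) (V : List ℤ) (hlen' : V.length = 125)
    (hsm : smallAll Y.W Y.c Y.n V = true) (z v : ℕ → ℝ) (i j k : ℕ) (hi : i < 5) (hj : j < 5)
    (hk : k < 5) :
    ∃ pc : ℕ → ℤ, (ctrls V).getD (25 * i + 5 * j + k) 0 = pk Y.W Y.n pc ∧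
      (∀ q, |pc q| ≤ 2 ^ (Y.c + 18)) ∧
      ctrlR (fun m => gsumZ z v Y.gl (Sos.decode Y.W Y.gl.length (V.getD m 0))) i j k =
        ∑ q ∈ Finset.range Y.n, (pc q : ℝ) * (monAt Y.gam q).ev z v := by
  have hVm : ∀ m, ∃ f : ℕ → ℤ, V.getD m 0 = pk Y.W Y.n f ∧ ∀ q, |f q| ≤ 2 ^ Y.c := by
    intro m
    rcases Nat.lt_or_ge m V.length with hm | hm
    · exact smallP_spec Y.W Y.c Y.n hW (by omega) _
        (smallAll_mem _ _ _ V hsm _ (List.getD_eq_getElem V 0 hm ▸ List.getElem_mem hm))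
    · exact ⟨fun _ => 0, by rw [List.getD_eq_default _ _ hm]; simp [pk], fun _ => by simp⟩
  choose f hf1 hf2 using hVm
  have hdec : ∀ m, gsumZ z v Y.gl (Sos.decode Y.W Y.gl.length (V.getD m 0)) =
      ∑ q ∈ Finset.range Y.n, (f m q : ℝ) * (Y.gl.getD q ⟨0, 0, []⟩).ev z v := by
    intro m
    rw [gsumZ, gsum_range z v Y.gl _ (by simp [Sos.decode_length]), hgl]
    refine Finset.sum_congr rfl fun q hq => ?_
    have hq' := Finset.mem_range.1 hq
    have hc' : ∀ (L : List ℤ) (t : ℕ), (L.map fun y : ℤ => (y : ℝ)).getD t 0 = ((L.getD t 0 : ℤ) : ℝ) :=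
      fun L t => by simp [List.getD_eq_getElem?_getD]; cases L[t]? <;> simp
    rw [hc', hf1, Sos.decode_getD Y.W hW Y.n (f m) (fun p _ => lt_of_le_of_lt (hf2 m p) ?_) q hq',
      List.getD_eq_getElem _ _ (by simpa [hgl] using hq'), List.getElem_map,
      List.getD_eq_getElem _ _ (by omega)]
    have : (2 : ℕ) ^ Y.c < half Y.W := Nat.pow_lt_pow_right (by norm_num) (by omega)
    exact_mod_cast this
  obtain ⟨pc, hpc⟩ : ∃ pc : ℕ → ℤ, pc = fun q => ∑ p ∈ Finset.range 5, ∑ s ∈ Finset.range 5,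
      ∑ t ∈ Finset.range 5, bM i p * bM j s * bM k t * f (25 * p + 5 * s + t) q := ⟨_, rfl⟩
  have hP : (ctrls V).getD (25 * i + 5 * j + k) 0 = pk Y.W Y.n pc := by
    rw [ctrls_spec hlen' hi hj hk, hpc]
    simp only [hf1, pk, Finset.mul_sum, Finset.sum_mul]
    rw [Finset.sum_comm (s := Finset.range Y.n)]
    refine Finset.sum_congr rfl fun p _ => ?_
    rw [Finset.sum_comm (s := Finset.range Y.n)]
    refine Finset.sum_congr rfl fun s _ => ?_
    rw [Finset.sum_comm (s := Finset.range Y.n)]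
    exact Finset.sum_congr rfl fun t _ => Finset.sum_congr rfl fun q _ => by ring
  have hpcb : ∀ q, |pc q| ≤ 2 ^ (Y.c + 18) := by
    intro q
    rw [hpc]
    refine le_trans ?_ (show (5 * (5 * (5 * (1728 * 2 ^ Y.c))) : ℤ) ≤ 2 ^ (Y.c + 18) by
      rw [pow_add]; nlinarith [pow_pos (show (0 : ℤ) < 2 by norm_num) Y.c])
    refine (Finset.abs_sum_le_sum_abs _ _).trans ?_
    refine (Finset.sum_le_card_nsmul _ _ (5 * (5 * (1728 * 2 ^ Y.c))) fun p _ => ?_).trans (by simp)
    refine (Finset.abs_sum_le_sum_abs _ _).trans ?_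
    refine (Finset.sum_le_card_nsmul _ _ (5 * (1728 * 2 ^ Y.c)) fun s _ => ?_).trans (by simp)
    refine (Finset.abs_sum_le_sum_abs _ _).trans ?_
    refine (Finset.sum_le_card_nsmul _ _ (1728 * 2 ^ Y.c) fun t _ => ?_).trans (by simp)
    rw [abs_mul, abs_mul, abs_mul, show (1728 : ℤ) = 12 * 12 * 12 by norm_num]
    exact mul_le_mul (mul_le_mul (mul_le_mul (bM_abs i p) (bM_abs j s) (abs_nonneg _) (by norm_num))
      (bM_abs k t) (abs_nonneg _) (by norm_num)) (hf2 _ q) (abs_nonneg _) (by norm_num)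
  refine ⟨pc, hP, hpcb, ?_⟩
  have hmon : ∀ q, q < Y.n → (monAt Y.gam q).ev z v = (Y.gl.getD q ⟨0, 0, []⟩).ev z v :=
    fun q hq => sameMon_sound (by
      simpa using sameFrom6_spec Y.gam Y.gl 0 hsame q (by rw [hgl]; exact hq)) z v
  rw [Finset.sum_congr rfl fun q hq => by rw [hmon q (Finset.mem_range.1 hq)], hpc]
  simp only [ctrlR, hdec, Int.cast_sum, Int.cast_mul, Finset.mul_sum, Finset.sum_mul]
  rw [Finset.sum_comm (s := Finset.range Y.n)]
  refine Finset.sum_congr rfl fun p _ => ?_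
  rw [Finset.sum_comm (s := Finset.range Y.n)]
  refine Finset.sum_congr rfl fun s _ => ?_
  rw [Finset.sum_comm (s := Finset.range Y.n)]
  exact Finset.sum_congr rfl fun t _ => Finset.sum_congr rfl fun q _ => by ring

/-- A residual above the allowance minus the bounds, and below the bounds where there is no
allowance, is at least the allowance minus the bounds. -/
theorem resD_sound (W n : ℕ) (hW : 0 < W) (g : ℕ → ℝ) (r : ℕ → ℤ)
    (B L : ℕ → ℕ) (hbig : ∀ q, |r q| + ((B q : ℤ) + 1024 * L q) < half W)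
    (hLg : ∀ q, q < n → L q ≠ 0 → 0 ≤ g q)
    (h : resD W (Sos.onesF W n) (Nat.mul (half W) (Sos.onesF W n)) (npk W n B) (npk W n L)
      (pk W n r) = true) :
    ∑ q ∈ Finset.range n, (L q : ℝ) * g q -
      ∑ q ∈ Finset.range n, (B q : ℝ) * |g q| ≤
      ∑ q ∈ Finset.range n, (r q : ℝ) * g q := by
  simp only [resD, Bool.and_eq_true] at h
  obtain ⟨h1, h2⟩ := h
  rw [npk_subNat] at h1
  have e1 : Int.add (pk W n r) (pk W n fun q => (B q : ℤ) - L q) =
      pk W n fun q => r q + ((B q : ℤ) - L q) := by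
    show (pk W n r + pk W n fun q => (B q : ℤ) - L q) = _
    simp [pk, add_mul, Finset.sum_add_distrib]
  have e2 : Int.sub (Int.ofNat (Nat.add (npk W n B) (Nat.mul 1024 (npk W n L)))) (pk W n r) =
      pk W n fun q => ((B q : ℤ) + 1024 * L q) - r q := by
    show ((npk W n B + 1024 * npk W n L : ℕ) : ℤ) - _ = _
    rw [npk_smul]
    simp only [npk, pk]
    push_cast
    simp only [sub_mul, add_mul, Finset.sum_sub_distrib, Finset.sum_add_distrib]
  rw [e1] at h1
  rw [e2] at h2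
  have r1 := nnP_spec _ _ hW _ (fun q => by
    refine lt_of_le_of_lt (abs_le.2 ⟨?_, ?_⟩) (hbig q) <;>
      linarith [le_abs_self (r q), neg_le_abs (r q), Int.natCast_nonneg (B q),
        Int.natCast_nonneg (L q)]) h1
  have r2 := nnP_spec _ _ hW _ (fun q => by
    refine lt_of_le_of_lt (abs_le.2 ⟨?_, ?_⟩) (hbig q) <;>
      linarith [le_abs_self (r q), neg_le_abs (r q), Int.natCast_nonneg (B q),
        Int.natCast_nonneg (L q)]) h2
  rw [← Finset.sum_sub_distrib]
  refine Finset.sum_le_sum fun q hq => ?_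
  have a1 : (0 : ℝ) ≤ ((r q + ((B q : ℤ) - L q) : ℤ) : ℝ) :=
    Int.cast_nonneg (r1 q (Finset.mem_range.1 hq))
  have a2 : (0 : ℝ) ≤ ((((B q : ℤ) + 1024 * L q) - r q : ℤ) : ℝ) :=
    Int.cast_nonneg (r2 q (Finset.mem_range.1 hq))
  push_cast at a1 a2
  rcases abs_cases (g q) with ⟨e, e'⟩ | ⟨e, e'⟩ <;> rw [e]
  · linarith [mul_nonneg a1 e']
  · have h0 : L q = 0 := by
      by_contra hne
      exact absurd (hLg q (Finset.mem_range.1 hq) hne) (not_le.2 e')
    rw [h0] at a2 ⊢
    push_cast at a2 ⊢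
    linarith [mul_nonpos_of_nonneg_of_nonpos a2 e'.le]

/-- The allowance pays for the bounds and the needs. -/
theorem payOK_sound (T : DTbl) (hT : T.Ok) (sh D E : ℕ) (el : List ℕ)
    (h : T.payOK sh D E el = true) (z v : ℕ → ℝ) :
    ∃ B L : ℕ → ℕ, bPk T.Y.W sh T.spl D = npk T.Y.W T.Y.n B ∧
      lPk T.Y.W sh T.sq E = npk T.Y.W T.Y.n L ∧ (∀ q, B q + 1024 * L q < 2 ^ (sh + 73)) ∧
      (∀ q, L q ≠ 0 → 0 ≤ (monAt T.Y.gam q).ev z v) ∧
      ∑ a ∈ Finset.range T.Y.N,
          ((16 * (1728 * el.getD a 0 + T.Y.gapAt a) : ℕ) : ℝ) * z a ^ 2 +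
        32 * ∑ q ∈ Finset.range T.Y.n, (B q : ℝ) * |(monAt T.Y.gam q).ev z v| ≤
        32 * ∑ q ∈ Finset.range T.Y.n, (L q : ℝ) * (monAt T.Y.gam q).ev z v := by
  obtain ⟨⟨hlists, -, -, -⟩, hsqs, hprod, hqls, hsz⟩ := hT
  simp only [Tbl.listsOK, Bool.and_eq_true, decide_eq_true_eq] at hlists
  obtain ⟨⟨⟨-, hN⟩, -⟩, -⟩ := hlists
  simp only [Bool.and_eq_true, decide_eq_true_eq, Nat.ble_eq] at hsz
  obtain ⟨⟨⟨⟨hspl, hql⟩, hn14⟩, hq14⟩, hN64⟩ := hsz
  simp only [DTbl.payOK, forceN_eq, Bool.and_eq_true] at h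
  obtain ⟨⟨hdok, heok⟩, hpay⟩ := h
  obtain ⟨B, Q, hB, hBb, hQ, hQb, hsum⟩ :=
    split_spec T.Y.W sh T.Y.gam T.sq z v T.spl D 0 hprod hdok
  obtain ⟨Lw, e, hL, hLb, hE, heb, hLnn, hLval⟩ := lPk_spec T.Y.W sh T.Y.n T.Y.gam z v T.sq E hsqs
  obtain ⟨R, hR, hRb, hRsum⟩ :=
    elQ_spec sh T.sq z v T.Y.coords T.ql el 0 (by omega) hqls heok
  rw [hspl] at hB hsum hQb
  rw [hN] at hRb hRsum
  simp only [Nat.zero_add] at hsum hRsum
  rw [hQ, hE, hR, show ∀ a b, Nat.add a b = a + b from fun _ _ => rfl,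
    npk_add 64 T.sq.length Q R, npk_subNat] at hpay
  have hh : half 64 = 9223372036854775808 := by norm_num [half]
  have hpay' := nnP_spec 64 T.sq.length (by norm_num) _ (fun p => by
    have h1 := (hQb p).trans (Nat.mul_le_mul_right _ hn14)
    have h2 := (hRb p).trans (Nat.mul_le_mul_right _ hN64)
    have h3 := heb p
    rw [hh, abs_lt]
    norm_num at *
    omega) hpay
  refine ⟨B, Lw, hB, hL, fun q => ?_, hLnn, ?_⟩
  · have h1 := hBb q
    have h2 := (hLb q).trans (Nat.mul_le_mul_right _ hq14)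
    have e1 : 2 ^ (32 + sh) ≤ 2 ^ (sh + 62) := Nat.pow_le_pow_right (by norm_num) (by omega)
    have e2 : 16384 * 2 ^ (48 + sh) = 2 ^ (sh + 62) := by
      rw [show sh + 62 = 14 + (48 + sh) by ring, pow_add _ 14]; norm_num
    have e3 : 2 ^ (sh + 73) = 2048 * 2 ^ (sh + 62) := by
      rw [show sh + 73 = 11 + (sh + 62) by ring, pow_add _ 11]; norm_num
    have := Nat.two_pow_pos (sh + 62)
    omega
  · rw [hLval]
    have hp : 2 ^ sh * ∑ q ∈ Finset.range T.sq.length, (Q q : ℝ) * sqX T.sq z v q ^ 2 +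
        2 ^ sh * ∑ q ∈ Finset.range T.sq.length, (R q : ℝ) * sqX T.sq z v q ^ 2 ≤
        32 * (2 ^ sh * ∑ q ∈ Finset.range T.sq.length, (e q : ℝ) * sqX T.sq z v q ^ 2) := by
      rw [← mul_add, ← Finset.sum_add_distrib, mul_left_comm]
      refine mul_le_mul_of_nonneg_left ?_ (by positivity)
      rw [Finset.mul_sum]
      refine Finset.sum_le_sum fun q hq => ?_
      rw [← add_mul, ← mul_assoc]
      refine mul_le_mul_of_nonneg_right ?_ (sq_nonneg _)
      have := hpay' q (Finset.mem_range.1 hq)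
      have h' : Q q + R q ≤ 32 * e q := by omega
      exact_mod_cast h'
    simp only [Tbl.gapAt]
    linarith

/-- **The controls of a checked box are positive.** -/
theorem DTbl.check_sound (T : DTbl) (hT : T.Ok) (facs plan : List (List ℕ)) (sh D E : ℕ)
    (V : List ℤ) (el : List ℕ) (h : T.check facs plan sh D E V el = true) (z v : ℕ → ℝ)
    (hD : Dom z v) :
    ∀ i < 5, ∀ j < 5, ∀ k < 5,
      ∑ a ∈ Finset.range T.Y.N, ((1728 * el.getD a 0 + T.Y.gapAt a : ℕ) : ℝ) * z a ^ 2 ≤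
        2 * ctrlR (fun m => gsumZ z v T.Y.gl (Sos.decode T.Y.W T.Y.gl.length (V.getD m 0))) i j k := by
  intro i hi j hj k hk
  have hT' := hT
  obtain ⟨⟨hlists, hblk, -, -⟩, -, -, -, -⟩ := hT
  simp only [Tbl.listsOK, Bool.and_eq_true, decide_eq_true_eq] at hlists
  obtain ⟨⟨⟨hgl, -⟩, -⟩, hsame⟩ := hlists
  simp only [Tbl.blocksOK, Bool.and_eq_true] at hblk
  obtain ⟨⟨hBs, hw⟩, hbias⟩ := hblk
  have hw' := Nat.eq_of_beq_eq_true hw
  simp only [DTbl.check, forceN_eq, Bool.and_eq_true, Nat.blt_eq] at h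
  obtain ⟨⟨⟨⟨hlen, hsh⟩, hsm⟩, hpay⟩, hctl⟩ := h
  have hlen' : V.length = 125 := Nat.eq_of_beq_eq_true hlen
  obtain ⟨lam, hlam⟩ := ctlsD_spec T.Y.W T.Y.n T.Y.c _ _ _ _ _ _ plan _ hctl (25 * i + 5 * j + k)
    (by rw [ctrls_length hlen']; omega)
  simp only [ctlD, Bool.and_eq_true, Nat.blt_eq] at hlam
  obtain ⟨hbd, hres⟩ := hlam
  simp only [show ∀ a b, Nat.pow a b = a ^ b from fun _ _ => rfl, Nat.add_eq, Nat.mul_eq]
    at hbd hsh
  have hcW : T.Y.c + 26 < T.Y.W := by
    have : 2 ^ (T.Y.c + 26) < 2 ^ T.Y.W := by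
      refine lt_of_le_of_lt ?_ hbd
      rw [show T.Y.c + 26 = 8 + (T.Y.c + 18) by ring, pow_add]
      exact (Nat.mul_le_mul_left 256 (Nat.le_add_right _ _)).trans
        (Nat.le_mul_of_pos_left _ (Nat.succ_pos _))
    exact (Nat.pow_lt_pow_iff_right (by norm_num)).1 this
  have hW : 0 < T.Y.W := by omega
  obtain ⟨pc, hP, hpcb, hctrl⟩ :=
    ctrl_digits T.Y hW hcW hgl hsame V hlen' hsm z v i j k hi hj hk
  obtain ⟨U, hU, F, hF1, hF2, hF3⟩ := fMix_spec T.Y.W T.Y.n T.Y.gam z v hD T.Y.bias T.Y.blocks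
    (Nat.eq_of_beq_eq_true hbias) hBs lam facs
  rw [hw'] at hF2
  obtain ⟨B, L, hB, hL, hBL, hLnn, hval⟩ := payOK_sound T hT' sh D E el hpay z v
  have hR : Int.sub ((ctrls V).getD (25 * i + 5 * j + k) 0)
      (fMix lam (gramsOf T.Y.W T.Y.bias T.Y.blocks facs)) = pk T.Y.W T.Y.n fun q => pc q - F q := by
    rw [hP, hF1, show ∀ x y : ℤ, Int.sub x y = x - y from fun _ _ => rfl]
    simp [pk, sub_mul, Finset.sum_sub_distrib]
  rw [hR, hB, hL] at hres
  have hbig : ∀ q, |pc q - F q| + ((B q : ℤ) + 1024 * L q) < half T.Y.W := by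
    intro q
    have h1 : |pc q - F q| ≤
        ((2 ^ (T.Y.c + 18) + lamSum lam * (4503599627370496 * T.Y.wsum) : ℕ) : ℤ) := by
      refine (abs_sub _ _).trans ?_
      push_cast
      exact add_le_add (hpcb q) ((hF2 q).trans_eq (by norm_num))
    have h2 := hBL q
    have h3 : 2 ^ T.Y.W = 2 * half T.Y.W := by
      rw [half, ← pow_succ']; congr 1; omega
    have h4 : 2 ^ (sh + 80) = 128 * 2 ^ (sh + 73) := by
      rw [show sh + 80 = 7 + (sh + 73) by ring, pow_add]; norm_num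
    have h5 := Nat.le_mul_of_pos_left
      (256 * (2 ^ (T.Y.c + 18) + lamSum lam * (4503599627370496 * T.Y.wsum))) (Nat.succ_pos T.Y.n)
    have h6 := lt_of_le_of_lt h5 hbd
    omega
  have hr := resD_sound T.Y.W T.Y.n hW (fun q => (monAt T.Y.gam q).ev z v) _ B L hbig
    (fun q _ hne => hLnn q hne) hres
  simp only [Int.cast_sub, sub_mul, Finset.sum_sub_distrib] at hr
  have hgv : gv T.Y.n T.Y.gam z v F =
      ∑ q ∈ Finset.range T.Y.n, (F q : ℝ) * (monAt T.Y.gam q).ev z v := rfl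
  rw [← hgv, hF3] at hr
  rw [hctrl]
  have hlhs : ∑ a ∈ Finset.range T.Y.N,
      ((16 * (1728 * el.getD a 0 + T.Y.gapAt a) : ℕ) : ℝ) * z a ^ 2 =
      16 * ∑ a ∈ Finset.range T.Y.N, ((1728 * el.getD a 0 + T.Y.gapAt a : ℕ) : ℝ) * z a ^ 2 := by
    rw [Finset.mul_sum]
    exact Finset.sum_congr rfl fun a _ => by push_cast; ring
  linarith

/-- The check delivers what the box theorem asks. -/
theorem DTbl.ctrlSound (T : DTbl) (hT : T.Ok) (hN : T.Y.N = 38) (facs plan : List (List ℕ))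
    (sh D E : ℕ) : CtrlSound T.Y.W T.Y.gl T.Y.gapAt (T.check facs plan sh D E) := by
  intro V el h z v hD i hi j hj m hm
  have := T.check_sound hT facs plan sh D E V el h z v hD i hi j hj m hm
  rwa [hN] at this

/-- **A box whose kernel check succeeds is good.** -/
theorem goodK_of_checkD (an : ℤ) (den : ℕ) (hden : 0 < den) (L L2 : List ITerm) (KL : List KI)
    (T : DTbl) (hT : T.Ok) (hN : T.Y.N = 38) (C : ℕ) (P : ℕ → ℕ) (R0 R5 R6 : Rows)
    (hrows : rowsChk an den L L2 KL T.Y.gl C P R0 R5 R6) (D : ℕ)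
    (hglob : globalOK T.Y.W T.Y.gl.length D (partsOf P R0 R5 R6) = true) (G : ℕ)
    (hG : ((List.range 6).all fun n => Nat.ble G (T.Y.gapAt (31 + n))) = true) (δ : ℝ) (x : Box)
    (H : HData) (facs plan : List (List ℕ)) (sh DD EE : ℕ)
    (hδ : δ * (2 * 1728 * ((H.U : ℝ) * 4096 ^ D * 2 ^ D * (40000 * den))) ≤ G)
    (hB : boxOK T.Y.W 38 D T.Y.gl (partsOf P R0 R5 R6) x H (T.check facs plan sh DD EE) = true) :
    x.GoodK ((an : ℝ) / 100) (L.map (ITerm.term den)) (L2.map (ITerm.term den))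
      (KL.map (KI.term den)) δ := by
  refine goodK_of_box an den hden L L2 KL T.Y.gl C P R0 R5 R6 hrows T.Y.W D hglob _ _
    (T.ctrlSound hT hN facs plan sh DD EE) G (fun n h1 h2 => ?_) δ x H hδ hB
  simp only [List.all_eq_true, List.mem_range, Nat.ble_eq] at hG
  have := hG (n - 31) (by omega)
  rwa [Nat.add_sub_cancel' h1] at this

end Vale.Agent.P098.Exact.Sos6
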