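import Vale.Agent.P098.Exact.Sos6.CheckS

/-!
Gram literals by their leading bits: a stored slot `g` stands for a true slot within `2 ^ k` of
`2 ^ k * g`, and the bucket check charges that slack to the residual.
-/

namespace Vale.Agent.P098.Exact.Sos6

open Sos (pk base half npk decode)

/-- Blocks of a factor cut from one number of `w`-bit entries, entries widened to 24 bits. -/
noncomputable def splitW (w : ℕ) (Bs : List Block) : ℕ → List ℕ :=
  List.rec (motive := fun _ => ℕ → List ℕ) (fun _ => [])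
    (fun b _ ih N => forceN N fun N =>
      forceN (Nat.div (Nat.mul b.bas.length (Nat.succ b.bas.length)) 2) fun L =>
        forceN (Nat.mul w L) fun p =>
          Nat.add (repN 24 w L (Nat.mod N (Nat.pow 2 p)))
            (Nat.mul (Nat.sub 8388608 (Nat.pow 2 (Nat.sub w 1))) (Sos.onesF 24 L)) ::
            ih (Nat.shiftRight N p)) Bs

/-- The literal `G` holds the leading bits of the Gram value of the factor `Ns`. -/
noncomputable def Tbl.facR (Y : Tbl) (W0 b0 W1 k : ℕ) (Ns : List ℕ) (G : ℤ) : Bool :=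
  Nat.blt (Nat.add W1 (Nat.add k 1)) W0 && Nat.blt 0 W1 &&
    smallP W0 k Y.n (Int.sub (fAll W0 b0 Y.blocks Ns)
      (ishl (repS W0 W1 0 Y.n (Nat.mul (half W1) (Sos.onesF W1 Y.n))
        (Nat.mul (half W1) (Sos.onesF W0 Y.n)) G) k))

/-- The residual stays within the bounds whatever lies within `S` of it. -/
noncomputable def resR (W O HO Bp Lp S : ℕ) (R : ℤ) : Bool :=
  forceN (Nat.mul S O) fun SO =>
    nnP W O HO (iadd (iadd R (nneg SO)) (Int.subNatNat Bp Lp)) &&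
      nnP W O HO (Int.sub (Int.ofNat (Nat.add Bp (Nat.mul 1024 Lp))) (iadd R (Int.ofNat SO)))

/-- One control on a bucket. -/
noncomputable def ctlR (W c W1 k O HO Bp Lp : ℕ) (Fs : List ℤ) (lam : List ℕ) (P : ℤ) : Bool :=
  Nat.blt (Nat.mul 256 (Nat.add (Nat.pow 2 (Nat.add c 18))
      (Nat.mul (lamSum lam) (Nat.pow 2 (Nat.add k W1))))) (Nat.pow 2 W) &&
    forceZ (Int.sub P (ishl (fMix lam Fs) k))
      (resR W O HO Bp Lp (Nat.mul (lamSum lam) (Nat.pow 2 k)))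

/-- All controls on a bucket. -/
noncomputable def ctlsR (W c W1 k O HO Bp Lp : ℕ) (Fs : List ℤ) (plan : List (List ℕ)) :
    List ℤ → Bool :=
  List.rec (motive := fun _ => List ℤ → Bool)
    (fun Ps => List.rec (motive := fun _ => Bool) true (fun _ _ _ => false) Ps)
    (fun lam _ ih Ps => List.rec (motive := fun _ => Bool) false
      (fun P Ps' _ => ctlR W c W1 k O HO Bp Lp Fs lam P && ih Ps') Ps) plan

/-- Check of one bucket of a box. -/
noncomputable def DTbl.checkR (T : DTbl) (n W1 k : ℕ) (Fs : List ℤ) (plan : List (List ℕ))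
    (sh D E : ℕ) (els : List (List ℕ)) (b : ℕ) (V : List ℤ) (el : List ℕ) : Bool :=
  forceN T.Y.W fun W => forceN T.Y.c fun c => forceN T.Y.n fun len => forceN (Nat.mul b n) fun o =>
    forceN (bLen len n o) fun m => forceN sh fun sh =>
      Nat.beq V.length 125 && Nat.blt (Nat.pow 2 (Nat.add sh 80)) (Nat.pow 2 W) &&
        leL el (els.getD b []) && smallAll W c m V &&
        forceN (Sos.onesF W m) fun O => forceN (Nat.mul (half W) O) fun HO =>
          forceN (bPkN W sh m (Nat.shiftRight D (Nat.mul 48 o))) fun Bp =>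
            forceN (lPkS W sh o m T.sq E) fun Lp =>
              forceL (litS W W1 len o m Fs) fun Ls =>
                ctlsR W c W1 k O HO Bp Lp Ls plan (ctrls V)

/-! ### Soundness -/

theorem dig_bd (w : ℕ) (hw : 0 < w) (N : ℕ) :
    |((N % base w : ℕ) : ℤ) - (half w : ℤ)| ≤ (half w : ℤ) := by
  have h1 : N % base w < base w := Nat.mod_lt _ (Nat.two_pow_pos w)
  have h2 : base w = 2 * half w := by
    rw [base, half, ← pow_succ']; congr 1; omega
  rw [abs_le]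
  constructor <;> omega

theorem decode_bd (w len : ℕ) (hw : 0 < w) (Z : ℤ) (q : ℕ) :
    |(decode w len Z).getD q 0| ≤ (half w : ℤ) := by
  rcases Nat.lt_or_ge q len with h | h
  · rw [Sos.decode, Sos.unpk_getD w len _ q h, Sos.dig]
    exact dig_bd w hw _
  · rw [List.getD_eq_default _ _ (le_of_eq_of_le (Sos.decode_length _ _ _) h)]
    simp

theorem mixed_bd (lamS W1 k c : ℕ) (hW1 : 0 < W1) (x G : ℤ) (hx : |x| ≤ 2 ^ (c + 18))
    (hG : |G| ≤ (lamS : ℤ) * (half W1 : ℤ)) :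
    |x - G * 2 ^ k| + ((lamS * 2 ^ k : ℕ) : ℤ) ≤
      ((2 ^ (c + 18) + lamS * 2 ^ (k + W1) : ℕ) : ℤ) := by
  have a : |G * 2 ^ k| ≤ (lamS : ℤ) * (half W1 : ℤ) * 2 ^ k := by
    rw [abs_mul, abs_pow, show |(2 : ℤ)| = 2 by norm_num]
    exact mul_le_mul_of_nonneg_right hG (pow_nonneg (by decide) _)
  have b : (half W1 : ℤ) + 1 ≤ 2 ^ W1 := by
    have : half W1 < 2 ^ W1 := Nat.pow_lt_pow_right (by norm_num) (by omega)
    exact_mod_cast this
  obtain ⟨P, hP⟩ : ∃ P : ℤ, P = 2 ^ k := ⟨_, rfl⟩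
  obtain ⟨Q, hQ⟩ : ∃ Q : ℤ, Q = 2 ^ W1 := ⟨_, rfl⟩
  obtain ⟨H, hH⟩ : ∃ H : ℤ, H = (half W1 : ℤ) := ⟨_, rfl⟩
  obtain ⟨M, hM⟩ : ∃ M : ℤ, M = (lamS : ℤ) := ⟨_, rfl⟩
  have hP0 : 0 ≤ M * P := by
    rw [hM, hP]; exact mul_nonneg (Int.natCast_nonneg _) (pow_nonneg (by decide) _)
  push_cast
  rw [pow_add 2 k W1, ← hP, ← hQ, ← hM]
  rw [← hP, ← hH, ← hM] at a
  rw [← hQ, ← hH] at b

  have c' := mul_le_mul_of_nonneg_left b hP0
  have h3 := abs_sub x (G * P)
  linarith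

theorem res_bd (x : ℤ) (S B L h : ℕ) (hx : |x| + S + ((B : ℤ) + 1024 * L) < h) :
    |x - S + ((B : ℤ) - L)| < h ∧ |((B : ℤ) + 1024 * L) - (x + S)| < h := by
  have h1 := abs_le.1 (le_refl |x|)
  constructor <;> rw [abs_lt] <;> constructor <;> omega

/-- **A checked leading-bit literal is close to a nonnegative slot sum.** -/
theorem Tbl.facR_sound (Y : Tbl) (hY : Y.Ok) {W0 b0 W1 k : ℕ} (hl : Y.litOK W0 b0 = true)
    {Ns : List ℕ} {G : ℤ} (h : Y.facR W0 b0 W1 k Ns G = true) (z v : ℕ → ℝ) (hD : Dom z v) :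
    ∃ f : ℕ → ℤ,
      0 ≤ ∑ q ∈ Finset.range Y.n, (f q : ℝ) * (Y.gl.getD q ⟨0, 0, []⟩).ev z v ∧
        ∀ q, q < Y.n → |f q - 2 ^ k * (decode W1 Y.n G).getD q 0| ≤ 2 ^ k := by
  obtain ⟨h1, -⟩ := Y.facOK_sound hY hl (Ns := Ns) (F := fAll W0 b0 Y.blocks Ns)
    (by simp [Tbl.facOK]) z v hD
  have hY' := hY.lists
  simp only [Tbl.listsOK, Bool.and_eq_true, decide_eq_true_eq] at hY'
  obtain ⟨⟨⟨hgl, -⟩, -⟩, -⟩ := hY'
  simp only [Tbl.facR, Bool.and_eq_true, Nat.blt_eq, Nat.add_eq] at h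
  obtain ⟨⟨hW, hW1⟩, hs⟩ := h
  rw [repS_eq W0 W1 Y.n 0 Y.n (by omega) hW1 (by omega), ishl_eq] at hs
  obtain ⟨d, hd, hdb⟩ := smallP_spec W0 k Y.n (by omega) (by omega) _ hs
  obtain ⟨f, hf⟩ : ∃ f : ℕ → ℤ, f = fun q => 2 ^ k * (decode W1 Y.n G).getD q 0 + d q := ⟨_, rfl⟩
  have hF : fAll W0 b0 Y.blocks Ns = pk W0 Y.n f := by
    change _ - _ = pk W0 Y.n d at hd
    rw [eq_add_of_sub_eq hd, hf]
    simp only [pk, Nat.zero_add, Finset.sum_mul, ← Finset.sum_add_distrib]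
    exact Finset.sum_congr rfl fun q _ => by ring
  have hfb : ∀ q, q < Y.n → |f q| < half W0 := fun q _ => by
    rw [hf]
    refine lt_of_le_of_lt (abs_add_le _ _) ?_
    rw [abs_mul, abs_pow, show |(2 : ℤ)| = 2 by norm_num]
    have := decode_bd W1 Y.n hW1 G q
    refine lt_of_le_of_lt (add_le_add (mul_le_mul_of_nonneg_left this (by positivity)) (hdb q)) ?_
    have e : 2 ^ k * half W1 + 2 ^ k < half W0 := by
      have h2 : 2 ^ k * half W1 + 2 ^ k ≤ 2 ^ (W1 + k) := by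
        rw [half, ← Nat.mul_add_one, show W1 + k = k + W1 by ring, pow_add]
        refine Nat.mul_le_mul_left _ (Nat.succ_le_of_lt ?_)
        exact Nat.pow_lt_pow_right (by norm_num) (by omega)
      exact lt_of_le_of_lt h2 (Nat.pow_lt_pow_right (by norm_num) (by omega))
    exact_mod_cast e
  refine ⟨f, ?_, fun q _ => by rw [hf]; simpa using hdb q⟩
  rw [gsumZ, gsum_range z v Y.gl _ (by simp [Sos.decode_length]), hgl] at h1
  refine le_of_le_of_eq h1 (Finset.sum_congr rfl fun q hq => ?_)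
  have hq' := Finset.mem_range.1 hq
  rw [hF, ← Sos.decode_getD W0 (by omega) Y.n f hfb q hq',
    List.getD_eq_getElem (List.map _ (decode W0 Y.n (pk W0 Y.n f))) _
      (by rw [List.length_map, Sos.decode_length]; exact hq'),
    List.getElem_map, List.getD_eq_getElem (decode W0 Y.n (pk W0 Y.n f)) (0 : ℤ)
      (lt_of_lt_of_eq hq' (Sos.decode_length _ _ _).symm),
    List.getD_eq_getElem (Y.gl.map fun G => G.ev z v) _ (by simpa [hgl] using hq'),
    List.getElem_map, List.getD_eq_getElem Y.gl (⟨0, 0, []⟩ : Mon) (by simpa [hgl] using hq')]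

theorem mixR_props (W1 len k : ℕ) (hW1 : 0 < W1) (g : ℕ → ℝ) :
    ∀ (lam : List ℕ) (Gs : List ℤ),
      (∀ G ∈ Gs, ∃ f : ℕ → ℤ, 0 ≤ ∑ q ∈ Finset.range len, (f q : ℝ) * g q ∧
        ∀ q, q < len → |f q - 2 ^ k * (decode W1 len G).getD q 0| ≤ 2 ^ k) →
      (∃ Fm : ℕ → ℤ, 0 ≤ ∑ q ∈ Finset.range len, (Fm q : ℝ) * g q ∧
        ∀ q, q < len → |Fm q - 2 ^ k * mixD W1 len lam Gs q| ≤ (lamSum lam : ℕ) * 2 ^ k) ∧
      ∀ q, |mixD W1 len lam Gs q| ≤ (lamSum lam : ℕ) * (half W1 : ℤ)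
  | [], Gs, _ => ⟨⟨fun _ => 0, by simp, fun q _ => by simp [mixD, lamSum]⟩,
      fun q => by simp [mixD, lamSum]⟩
  | l :: lam, [], _ => ⟨⟨fun _ => 0, by simp, fun q _ => by simp [mixD]⟩,
      fun q => by simp [mixD]; positivity⟩
  | l :: lam, G :: Gs, h => by
    obtain ⟨⟨Fm, f1, f2⟩, h2⟩ :=
      mixR_props W1 len k hW1 g lam Gs fun F hF => h F (List.mem_cons_of_mem _ hF)
    obtain ⟨f, g1, g2⟩ := h G List.mem_cons_self
    have e : ((lamSum (l :: lam) : ℕ) : ℤ) = (l : ℤ) + (lamSum lam : ℕ) := by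
      show ((l + lamSum lam : ℕ) : ℤ) = _
      push_cast; rfl
    refine ⟨⟨fun q => l * f q + Fm q, ?_, fun q hq => ?_⟩, fun q => ?_⟩
    · simp only [Int.cast_add, Int.cast_mul, Int.cast_natCast, add_mul, mul_assoc,
        Finset.sum_add_distrib, ← Finset.mul_sum]
      positivity
    · rw [e, add_mul, show (l : ℤ) * f q + Fm q - 2 ^ k * mixD W1 len (l :: lam) (G :: Gs) q =
          (l : ℤ) * (f q - 2 ^ k * (decode W1 len G).getD q 0) +
          (Fm q - 2 ^ k * mixD W1 len lam Gs q) by simp only [mixD]; ring]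
      refine (abs_add_le _ _).trans (add_le_add ?_ (f2 q hq))
      rw [abs_mul, Nat.abs_cast]
      exact mul_le_mul_of_nonneg_left (g2 q hq) (by positivity)
    · rw [e, add_mul]
      refine (abs_add_le _ _).trans (add_le_add ?_ (h2 q))
      rw [abs_mul, Nat.abs_cast]
      exact mul_le_mul_of_nonneg_left (decode_bd W1 len hW1 G q) (by positivity)

/-- Slots within the bounds give the inequality of one slot. -/
theorem slot_le (B L : ℕ) (r : ℤ) (g : ℝ) (h1 : 0 ≤ r + ((B : ℤ) - L))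
    (h2 : 0 ≤ ((B : ℤ) + 1024 * L) - r) (hg : L ≠ 0 → 0 ≤ g) :
    (L : ℝ) * g - (B : ℝ) * |g| ≤ (r : ℝ) * g := by
  have a1 : (0 : ℝ) ≤ ((r + ((B : ℤ) - L) : ℤ) : ℝ) := Int.cast_nonneg h1
  have a2 : (0 : ℝ) ≤ ((((B : ℤ) + 1024 * L) - r : ℤ) : ℝ) := Int.cast_nonneg h2
  push_cast at a1 a2
  rcases abs_cases g with ⟨e, e'⟩ | ⟨e, e'⟩ <;> rw [e]
  · linarith [mul_nonneg a1 e']
  · have h0 : L = 0 := by
      by_contra hne
      exact absurd (hg hne) (not_le.2 e')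
    rw [h0] at a2 ⊢
    push_cast at a2 ⊢
    linarith [mul_nonpos_of_nonneg_of_nonpos a2 e'.le]

theorem ctlsR_spec (W c W1 k O HO Bp Lp : ℕ) (Fs : List ℤ) :
    ∀ (plan : List (List ℕ)) (Ps : List ℤ), ctlsR W c W1 k O HO Bp Lp Fs plan Ps = true →
      ∀ m, m < Ps.length → ctlR W c W1 k O HO Bp Lp Fs (plan.getD m []) (Ps.getD m 0) = true
  | [], [], _, m, hm => by simp at hm
  | [], _ :: _, h, _, _ => by simp [ctlsR] at h
  | _ :: _, [], _, m, hm => by simp at hm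
  | lam :: plan, P :: Ps, h, m, hm => by
    change (ctlR W c W1 k O HO Bp Lp Fs lam P && ctlsR W c W1 k O HO Bp Lp Fs plan Ps) = true at h
    rw [Bool.and_eq_true] at h
    cases m with
    | zero => simpa using h.1
    | succ m => simpa using ctlsR_spec W c W1 k O HO Bp Lp Fs plan Ps h.2 m (by simpa using hm)

/-- One checked bucket of one control. -/
theorem bucketR_sound (W c W1 k m : ℕ) (V : List ℤ) (gl : List Mon) (hgl : gl.length = m)
    (hlen : V.length = 125) (hsm : smallAll W c m V = true) (sh : ℕ)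
    (hsh : 2 ^ (sh + 80) < 2 ^ W) (Bq Lq : ℕ → ℕ) (hBL : ∀ q, Bq q + 1024 * Lq q < 2 ^ (sh + 73))
    (Fs : List ℤ) (plan : List (List ℕ))
    (h : ctlsR W c W1 k (Sos.onesF W m) (Nat.mul (half W) (Sos.onesF W m)) (npk W m Bq)
      (npk W m Lq) Fs plan (ctrls V) = true)
    (i j t : ℕ) (hi : i < 5) (hj : j < 5) (ht : t < 5) (hW1 : 0 < W1) (G F : ℕ → ℤ)
    (hG : fMix (plan.getD (25 * i + 5 * j + t) []) Fs = pk W m G)
    (hGb : ∀ q, |G q| ≤ (lamSum (plan.getD (25 * i + 5 * j + t) []) : ℕ) * (half W1 : ℤ))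
    (hF : ∀ q, q < m →
      |F q - 2 ^ k * G q| ≤ (lamSum (plan.getD (25 * i + 5 * j + t) []) : ℕ) * 2 ^ k)
    (z v : ℕ → ℝ) (hLg : ∀ q, q < m → Lq q ≠ 0 → 0 ≤ (gl.getD q ⟨0, 0, []⟩).ev z v) :
    ∑ q ∈ Finset.range m, ((Lq q : ℝ) * (gl.getD q ⟨0, 0, []⟩).ev z v -
        (Bq q : ℝ) * |(gl.getD q ⟨0, 0, []⟩).ev z v| + (F q : ℝ) * (gl.getD q ⟨0, 0, []⟩).ev z v) ≤
      ctrlR (fun p => gsumZ z v gl (decode W gl.length (V.getD p 0))) i j t := by
  have hc := ctlsR_spec W c W1 k _ _ _ _ Fs plan _ h (25 * i + 5 * j + t)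
    (by rw [ctrls_length hlen]; omega)
  simp only [ctlR, resR, forceN_eq, forceZ_eq, Bool.and_eq_true, Nat.blt_eq,
    show ∀ a b, Nat.pow a b = a ^ b from fun _ _ => rfl, Nat.add_eq, Nat.mul_eq] at hc
  obtain ⟨lamS, hlamS⟩ : ∃ S, S = lamSum (plan.getD (25 * i + 5 * j + t) []) := ⟨_, rfl⟩
  rw [← hlamS] at hc hGb hF
  obtain ⟨hbd, hlo, hhi⟩ := hc
  have hcW : c + 26 < W := by
    have : 2 ^ (c + 26) < 2 ^ W := by
      refine lt_of_le_of_lt ?_ hbd
      rw [show c + 26 = 8 + (c + 18) by ring, pow_add]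
      exact Nat.mul_le_mul_left 256 (Nat.le_add_right _ _)
    exact (Nat.pow_lt_pow_iff_right (by norm_num)).1 this
  obtain ⟨pc, hP, hpcb, hctrl⟩ :=
    ctrl_digitsL W c m gl (by omega) hcW hgl V hlen hsm z v i j t hi hj ht
  obtain ⟨S, hS⟩ : ∃ S, S = lamS * 2 ^ k := ⟨_, rfl⟩
  rw [← hS] at hlo hhi
  have hR : Int.sub ((ctrls V).getD (25 * i + 5 * j + t) 0)
      (ishl (fMix (plan.getD (25 * i + 5 * j + t) []) Fs) k) =
      pk W m fun q => pc q - G q * 2 ^ k := by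
    rw [ishl_eq, hP, hG, show ∀ x y : ℤ, Int.sub x y = x - y from fun _ _ => rfl]
    simp [pk, sub_mul, Finset.sum_sub_distrib, Finset.sum_mul, mul_right_comm]
  rw [hR] at hlo hhi
  have hSO : ((S * Sos.onesF W m : ℕ) : ℤ) = pk W m fun _ => (S : ℤ) := by
    rw [Sos.onesF_eq W (by omega), Nat.cast_mul, Sos.ones_eq, pk, Finset.mul_sum]
  have e1 : iadd (iadd (pk W m fun q => pc q - G q * 2 ^ k) (nneg (S * Sos.onesF W m)))
      (Int.subNatNat (npk W m Bq) (npk W m Lq)) =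
      pk W m fun q => pc q - G q * 2 ^ k - S + ((Bq q : ℤ) - Lq q) := by
    rw [iadd_eq, iadd_eq, nneg_eq, hSO, npk_subNat]
    simp only [pk, sub_mul, add_mul, Finset.sum_sub_distrib, Finset.sum_add_distrib]
    ring
  have e2 : Int.sub (Int.ofNat (npk W m Bq + 1024 * npk W m Lq))
      (iadd (pk W m fun q => pc q - G q * 2 ^ k) (Int.ofNat (S * Sos.onesF W m))) =
      pk W m fun q => ((Bq q : ℤ) + 1024 * Lq q) - (pc q - G q * 2 ^ k + S) := by
    show ((npk W m Bq + 1024 * npk W m Lq : ℕ) : ℤ) -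
      iadd _ ((S * Sos.onesF W m : ℕ) : ℤ) = _
    rw [iadd_eq, hSO, npk_smul]
    simp only [npk, pk]
    push_cast
    simp only [sub_mul, add_mul, Finset.sum_sub_distrib, Finset.sum_add_distrib]
  rw [e1] at hlo
  rw [e2] at hhi
  have h3 : 2 ^ W = 2 * half W := by
    rw [half, ← pow_succ']; congr 1; omega
  have hbig : ∀ q, |pc q - G q * 2 ^ k| + S + ((Bq q : ℤ) + 1024 * Lq q) < half W := by
    intro q
    have h1 : |pc q - G q * 2 ^ k| + S ≤
        ((2 ^ (c + 18) + lamS * 2 ^ (k + W1) : ℕ) : ℤ) := by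
      rw [hS]
      exact mixed_bd lamS W1 k c hW1 _ _ (hpcb q) (hGb q)
    have h2 := hBL q
    have h4 : 2 ^ (sh + 80) = 128 * 2 ^ (sh + 73) := by
      rw [show sh + 80 = 7 + (sh + 73) by ring, pow_add]; norm_num
    omega
  have r1 := nnP_spec _ _ (by omega) _ (fun q => (res_bd _ _ _ _ _ (hbig q)).1) hlo
  have r2 := nnP_spec _ _ (by omega) _ (fun q => (res_bd _ _ _ _ _ (hbig q)).2) hhi
  rw [hctrl]
  refine Finset.sum_le_sum fun q hq => ?_
  have hq' := Finset.mem_range.1 hq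
  have hf := abs_le.1 (hF q hq')
  have hS' : (S : ℤ) = (lamS : ℤ) * 2 ^ k := by rw [hS]; push_cast; rfl
  have := slot_le (Bq q) (Lq q) (pc q - F q) ((gl.getD q ⟨0, 0, []⟩).ev z v)
    (by linarith [r1 q hq', hf.1, hf.2, hS']) (by linarith [r2 q hq', hf.1, hf.2, hS'])
    (hLg q hq')
  push_cast at this
  linarith

/-- **The bucket checks deliver what the sliced box theorem asks.** -/
theorem DTbl.ctrlSoundR (T : DTbl) (hT : T.Ok) (hN : T.Y.N = 38) (n B W0 b0 W1 kb : ℕ)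
    (hlen : T.Y.n ≤ B * n) (hlit : T.Y.litOK W0 b0 = true) (Gs : List ℤ)
    (hfac : ∀ G ∈ Gs, ∃ Ns, T.Y.facR W0 b0 W1 kb Ns G = true) (hW1 : 0 < W1) (plan : List (List ℕ)) (sh D E : ℕ)
    (els : List (List ℕ)) (hels : els.length = B) (hpay : T.payOK sh D E (elTot els) = true) :
    CtrlSoundS T.Y.W T.Y.gl n B T.Y.gapAt
      (T.checkR n W1 kb Gs plan sh D E els) := by
  intro V el hk z v hD i hi j hj m hm
  have hT' := hT
  obtain ⟨⟨hlists, -, -, -⟩, hsqs, -, -, hsz⟩ := hT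
  simp only [Tbl.listsOK, Bool.and_eq_true, decide_eq_true_eq] at hlists
  obtain ⟨⟨⟨hgl, -⟩, -⟩, hsame⟩ := hlists
  simp only [Bool.and_eq_true, decide_eq_true_eq, Nat.ble_eq] at hsz
  obtain ⟨⟨⟨⟨hspl, -⟩, -⟩, -⟩, -⟩ := hsz
  obtain ⟨g, hg⟩ : ∃ g : ℕ → ℝ, g = fun k => (T.Y.gl.getD k ⟨0, 0, []⟩).ev z v := ⟨_, rfl⟩
  have hmon : ∀ q, q < T.Y.n → (monAt T.Y.gam q).ev z v = g q := fun q hq => by
    rw [hg]
    exact sameMon_sound (by
      simpa using sameFrom6_spec T.Y.gam T.Y.gl 0 hsame q (by rw [hgl]; exact hq)) z v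
  obtain ⟨Bf, Lf, hB, hL, hBL, hLnn, hval⟩ := payOK_sound T hT' sh D E (elTot els) hpay z v
  have hv1 : ∑ q ∈ Finset.range T.Y.n, (Bf q : ℝ) * |(monAt T.Y.gam q).ev z v| =
      ∑ q ∈ Finset.range T.Y.n, (Bf q : ℝ) * |g q| :=
    Finset.sum_congr rfl fun q hq => by rw [hmon q (Finset.mem_range.1 hq)]
  have hv2 : ∑ q ∈ Finset.range T.Y.n, (Lf q : ℝ) * (monAt T.Y.gam q).ev z v =
      ∑ q ∈ Finset.range T.Y.n, (Lf q : ℝ) * g q :=
    Finset.sum_congr rfl fun q hq => by rw [hmon q (Finset.mem_range.1 hq)]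
  rw [hv1, hv2] at hval
  obtain ⟨lam, hlam⟩ : ∃ lam, lam = plan.getD (25 * i + 5 * j + m) [] := ⟨_, rfl⟩
  obtain ⟨⟨Fm, hGpos, hFm⟩, hGb⟩ := mixR_props W1 T.Y.n kb hW1 g lam Gs (fun G hG => by
    obtain ⟨Ns, hNs⟩ := hfac G hG
    obtain ⟨f, f1, f2⟩ := T.Y.facR_sound hT'.base hlit hNs z v hD
    exact ⟨f, by simpa only [hg] using f1, f2⟩)
  have key : ∀ b ∈ Finset.range B,
      ∑ q ∈ Finset.range (bLen T.Y.n n (b * n)), ((Lf (b * n + q) : ℝ) * g (b * n + q) -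
        (Bf (b * n + q) : ℝ) * |g (b * n + q)| +
        (Fm (b * n + q) : ℝ) * g (b * n + q)) ≤
      ctrlR (fun p => gsumZ z v (sliceL T.Y.gl (b * n) n)
        (decode T.Y.W (sliceL T.Y.gl (b * n) n).length ((V b).getD p 0))) i j m := by
    intro b hb
    rw [Finset.mem_range] at hb
    have hc := hk b hb
    simp only [DTbl.checkR, forceN_eq, forceL_eq, Bool.and_eq_true, Nat.blt_eq,
      show ∀ a b, Nat.pow a b = a ^ b from fun _ _ => rfl, Nat.add_eq] at hc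
    obtain ⟨⟨⟨⟨hl, hsh⟩, -⟩, hsm⟩, hctl⟩ := hc
    obtain ⟨o, ho⟩ : ∃ o, o = b * n := ⟨_, rfl⟩
    simp only [Nat.mul_eq, ← ho] at hsm hctl ⊢
    obtain ⟨l, hl'⟩ : ∃ l, l = bLen T.Y.n n o := ⟨_, rfl⟩
    rw [← hl'] at hsm hctl ⊢
    have hsl : (sliceL T.Y.gl o n).length = l := by
      simp [sliceL, hgl, hl', bLen]
    have hol : 0 < l → o + l ≤ T.Y.n := fun hp => by
      simp only [hl', bLen, Nat.min_def, Nat.sub_eq] at hp ⊢
      split_ifs at hp ⊢ <;> omega
    have hget : ∀ q, q < l → (sliceL T.Y.gl o n).getD q ⟨0, 0, []⟩ =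
        T.Y.gl.getD (o + q) ⟨0, 0, []⟩ := fun q hq => by
      have hqn : q < n := by
        simp only [hl', bLen, Nat.min_def, Nat.sub_eq] at hq
        split_ifs at hq <;> omega
      simp [sliceL, List.getD_eq_getElem?_getD, hqn]
    rcases Nat.eq_zero_or_pos l with h0 | hpos
    · simp only [h0, Finset.sum_range_zero]
      have : sliceL T.Y.gl o n = [] := List.length_eq_zero_iff.1 (hsl.trans h0)
      simp [this, gsumZ, gsum, ctrlR]
    have hWsh : sh + 80 < T.Y.W := (Nat.pow_lt_pow_iff_right (by norm_num)).1 hsh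
    have hbd : ∀ q, Bf q + Lf q < base T.Y.W := fun q =>
      lt_trans (lt_of_le_of_lt (by omega) (hBL q)) (Nat.pow_lt_pow_right (by norm_num) (by omega))
    have hBsl : bPkN T.Y.W sh l (Nat.shiftRight D (48 * o)) =
        npk T.Y.W l fun q => Bf (o + q) := by
      have hlenS : ((T.spl.drop o).take l).length = l := by
        simp [hspl]; have := hol hpos; omega
      conv_lhs => rw [← hlenS]
      rw [bPkN_eq, bPk_eq, hlenS]
      refine npk_congr _ _ _ _ fun q hq => ?_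
      rw [bPk_eq, hspl] at hB
      have hdB : ∀ x, dB x * 2 ^ sh < base T.Y.W := fun x => by
        refine lt_of_lt_of_le (Nat.mul_lt_mul_of_pos_right (Nat.mod_lt _ (by norm_num : 0 < 4294967296))
          (Nat.two_pow_pos sh)) ?_
        rw [show (4294967296 : ℕ) = 2 ^ 32 by norm_num, ← pow_add]
        exact Nat.pow_le_pow_right (by norm_num) (by omega)
      have := npk_inj T.Y.W T.Y.n _ _ (fun k _ => hdB _)
        (fun k _ => lt_of_le_of_lt (Nat.le_add_right _ _) (hbd k)) hB (o + q)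
        (by have := hol hpos; omega)
      rw [← this, Nat.mul_add]
      simp [Nat.shiftRight_add]
    have hLsl : lPkS T.Y.W sh o l T.sq E = npk T.Y.W l fun q => Lf (o + q) := by
      rw [lPkS_eq]
      refine npk_congr _ _ _ _ fun q hq => ?_
      rw [lPk_eq T.Y.W sh T.Y.n T.Y.gam T.sq E hsqs] at hL
      exact npk_inj T.Y.W T.Y.n _ _ (fun k _ => lF_lt T.Y.W sh T.sq E k (sq_small T hT') (by omega))
        (fun k _ => lt_of_le_of_lt (Nat.le_add_left _ _) (hbd k)) hL (o + q)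
        (by have := hol hpos; omega)
    rw [hBsl, hLsl] at hctl
    have hbs := bucketR_sound T.Y.W T.Y.c W1 kb l (V b) (sliceL T.Y.gl o n) hsl
      (Nat.eq_of_beq_eq_true hl) hsm sh hsh (fun q => Bf (o + q)) (fun q => Lf (o + q))
      (fun q => hBL _) _ plan hctl i j m hi hj hm hW1
      (fun q => mixD W1 T.Y.n lam Gs (o + q)) (fun q => Fm (o + q))
      (by rw [← hlam]; exact fMix_litS T.Y.W W1 T.Y.n o l (by omega) hW1 (hol hpos) lam _)
      (fun q => by rw [← hlam]; exact hGb _)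
      (fun q hq => by rw [← hlam]; exact hFm _ (by have := hol hpos; omega)) z v (fun q hq hne => by
        rw [hget q hq]
        have h := hLnn (o + q) hne
        rw [hmon (o + q) (by have := hol hpos; omega), hg] at h
        exact h)
    refine le_trans (le_of_eq (Finset.sum_congr rfl fun q hq => ?_)) hbs
    rw [hget q (Finset.mem_range.1 hq), hg]
  have hsum := Finset.sum_le_sum key
  rw [sum_buckets T.Y.n n (fun k => (Lf k : ℝ) * g k - (Bf k : ℝ) * |g k| +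
    (Fm k : ℝ) * g k) B,
    show Nat.min T.Y.n (B * n) = T.Y.n from Nat.min_eq_left hlen,
    Finset.sum_add_distrib, Finset.sum_sub_distrib] at hsum
  have hsplit : ctrlR (fun p => ∑ b ∈ Finset.range B, gsumZ z v (sliceL T.Y.gl (b * n) n)
      (decode T.Y.W (sliceL T.Y.gl (b * n) n).length ((V b).getD p 0))) i j m =
      ∑ b ∈ Finset.range B, ctrlR (fun p => gsumZ z v (sliceL T.Y.gl (b * n) n)
        (decode T.Y.W (sliceL T.Y.gl (b * n) n).length ((V b).getD p 0))) i j m := by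
    simp only [ctrlR, Finset.mul_sum]
    conv_rhs => rw [Finset.sum_comm]; arg 2; ext p; rw [Finset.sum_comm]; arg 2; ext q; rw [Finset.sum_comm]
  rw [hsplit]
  have hel : ∀ c, ∑ b ∈ Finset.range B, (el b).getD c 0 ≤ (elTot els).getD c 0 := fun c => by
    rw [elTot_getD, hels]
    refine Finset.sum_le_sum fun b hb => ?_
    have hc := hk b (Finset.mem_range.1 hb)
    simp only [DTbl.checkR, forceN_eq, forceL_eq, Bool.and_eq_true] at hc
    exact leL_spec _ _ hc.1.1.2 c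
  rw [hN] at hval
  have hlhs : 16 * ∑ c ∈ Finset.range 38,
      ((1728 * (∑ b ∈ Finset.range B, (el b).getD c 0) + T.Y.gapAt c : ℕ) : ℝ) * z c ^ 2 ≤
      ∑ c ∈ Finset.range 38,
        ((16 * (1728 * (elTot els).getD c 0 + T.Y.gapAt c) : ℕ) : ℝ) * z c ^ 2 := by
    rw [Finset.mul_sum]
    refine Finset.sum_le_sum fun c _ => ?_
    rw [← mul_assoc]
    refine mul_le_mul_of_nonneg_right ?_ (sq_nonneg _)
    have := hel c
    push_cast
    have h' : ((∑ b ∈ Finset.range B, (el b).getD c 0 : ℕ) : ℝ) ≤ ((elTot els).getD c 0 : ℕ) := by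
      exact_mod_cast this
    push_cast at h'
    linarith
  linarith

/-- **A box whose bucket checks succeed is good.** -/
theorem goodK_of_checkR (an : ℤ) (den : ℕ) (hden : 0 < den) (L L2 : List ITerm) (KL : List KI)
    (T : DTbl) (hT : T.Ok) (hN : T.Y.N = 38) (C : ℕ) (P : ℕ → ℕ) (R0 R5 R6 : Rows)
    (hrows : rowsChk an den L L2 KL T.Y.gl C P R0 R5 R6) (D n B W0 b0 W1 kb : ℕ) (hW : 0 < T.Y.W)
    (hparts : partsOK T.Y.gl.length (partsOf P R0 R5 R6) = true) (hlen : T.Y.n ≤ B * n)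
    (hsl : ∀ b, b < B → sliceOK T.Y.W D (b * n) n (partsOf P R0 R5 R6) = true)
    (hlit : T.Y.litOK W0 b0 = true) (G : ℕ)
    (hG : ((List.range 6).all fun n => Nat.ble G (T.Y.gapAt (31 + n))) = true) (δ : ℝ) (x : Box)
    (H : HData) (hU : 0 < H.U) (Gs : List ℤ)
    (hfac : ∀ G ∈ Gs, ∃ Ns, T.Y.facR W0 b0 W1 kb Ns G = true) (hW1 : 0 < W1) (plan : List (List ℕ)) (sh DD EE : ℕ)
    (els : List (List ℕ)) (hels : els.length = B) (hpay : T.payOK sh DD EE (elTot els) = true)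
    (hδ : δ * (2 * 1728 * ((H.U : ℝ) * 4096 ^ D * 2 ^ D * (40000 * den))) ≤ G)
    (hB : ∀ b, b < B → boxS T.Y.W D T.Y.gl (b * n) n (partsOf P R0 R5 R6) x H
      (T.checkR n W1 kb Gs plan sh DD EE els b) = true) :
    x.GoodK ((an : ℝ) / 100) (L.map (ITerm.term den)) (L2.map (ITerm.term den))
      (KL.map (KI.term den)) δ := by
  have hgl : T.Y.gl.length = T.Y.n := by
    have h := hT.base.lists
    simp only [Tbl.listsOK, Bool.and_eq_true, decide_eq_true_eq] at h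
    exact h.1.1.1
  refine goodK_of_slices an den hden L L2 KL T.Y.gl C P R0 R5 R6 hrows T.Y.W D n B hW hparts
    (hgl.trans_le hlen) hsl _ T.Y.gapAt
    (T.ctrlSoundR hT hN n B W0 b0 W1 kb hlen hlit Gs hfac hW1 plan sh DD EE els hels hpay) G
    (fun c h1 h2 => ?_) δ x H hU hδ hB
  simp only [List.all_eq_true, List.mem_range, Nat.ble_eq] at hG
  have := hG (c - 31) (by omega)
  rwa [Nat.add_sub_cancel' h1] at this

end Vale.Agent.P098.Exact.Sos6
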