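import Vale.Agent.P098.Exact.Sos6.Check

/-!
Gram factors against narrow literals. A factor is evaluated once, in slots of `W0` bits, and
afterwards only its literal is used: the digits of the literal have a nonnegative slot sum.
-/

namespace Vale.Agent.P098.Exact.Sos6

open Sos (pk base half)

/-- The blocks fit the narrow width `W0`, with constant shift `b0`. -/
noncomputable def Tbl.litOK (Y : Tbl) (W0 b0 : ℕ) : Bool :=
  Nat.beq (biasAll W0 Y.blocks) b0 && Nat.blt 0 W0 && Nat.blt (Nat.mul 4503599627370496 Y.wsum) (half W0)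

/-- The literal `F` is the Gram value of the factor `Ns`. -/
noncomputable def Tbl.facOK (Y : Tbl) (W0 b0 : ℕ) (Ns : List ℕ) (F : ℤ) : Bool :=
  decide (fAll W0 b0 Y.blocks Ns = F)

/-- **A checked literal has a nonnegative slot sum** and small digits. -/
theorem Tbl.facOK_sound (Y : Tbl) (hY : Y.Ok) {W0 b0 : ℕ} (hl : Y.litOK W0 b0 = true)
    {Ns : List ℕ} {F : ℤ} (h : Y.facOK W0 b0 Ns F = true) (z v : ℕ → ℝ) (hD : Dom z v) :
    0 ≤ gsumZ z v Y.gl (Sos.decode W0 Y.gl.length F) ∧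
      ∀ k, k < Y.gl.length →
        |(Sos.decode W0 Y.gl.length F).getD k 0| ≤ 4503599627370496 * (Y.wsum : ℤ) := by
  obtain ⟨hlists, hblk, -, -⟩ := hY
  simp only [Tbl.listsOK, Bool.and_eq_true, decide_eq_true_eq] at hlists
  obtain ⟨⟨⟨hgl, -⟩, -⟩, hsame⟩ := hlists
  simp only [Tbl.blocksOK, Bool.and_eq_true] at hblk
  obtain ⟨⟨hBs, hw⟩, -⟩ := hblk
  have hw' := Nat.eq_of_beq_eq_true hw
  simp only [Tbl.litOK, Bool.and_eq_true] at hl
  obtain ⟨⟨hb0, hW⟩, hsz⟩ := hl
  rw [Nat.blt_eq] at hsz hW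
  change 4503599627370496 * Y.wsum < half W0 at hsz
  rw [Tbl.facOK, decide_eq_true_eq] at h
  obtain ⟨U, hU, f, hf1, hf2, hf3⟩ :=
    fAll_spec W0 Y.n Y.gam z v hD b0 Y.blocks (Nat.eq_of_beq_eq_true hb0) hBs Ns
  rw [hw'] at hf2
  have hdec : ∀ k, k < Y.n → (Sos.decode W0 Y.n F).getD k 0 = f k := fun k hk => by
    rw [← h, hf1]
    refine Sos.decode_getD W0 hW Y.n f (fun j _ => ?_) k hk
    refine lt_of_le_of_lt (hf2 j) ?_
    exact_mod_cast hsz
  refine ⟨?_, fun k hk => ?_⟩
  · rw [gsumZ, gsum_range z v Y.gl _ (by simp [Sos.decode_length])]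
    refine le_of_le_of_eq (hf3.symm ▸ hU) (Finset.sum_congr (by rw [hgl]) fun k hk => ?_)
    rw [hgl] at hk ⊢
    have hk' := Finset.mem_range.1 hk
    rw [List.getD_eq_getElem _ _ (by simpa [Sos.decode_length] using hk'), List.getElem_map,
      ← List.getD_eq_getElem _ (0 : ℤ) (by simpa [Sos.decode_length] using hk'), hdec k hk',
      List.getD_eq_getElem _ _ (by simpa [hgl] using hk'), List.getElem_map,
      ← List.getD_eq_getElem _ (⟨0, 0, []⟩ : Mon) (by simpa [hgl] using hk'),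
      sameMon_sound (show sameMon (monAt Y.gam k) (Y.gl.getD k ⟨0, 0, []⟩) = true by
        simpa using sameFrom6_spec Y.gam Y.gl 0 hsame k (by rw [hgl]; exact hk'))]
  · rw [hgl] at hk ⊢
    rw [hdec k hk]
    exact (hf2 k).trans (le_of_eq (by norm_num))

/-- Digits `o` to `o + m` of a packed vector of `n` digits. -/
noncomputable def sliceDec (W n o m : ℕ) (Z : ℤ) : List ℤ :=
  Sos.unpk W m (Nat.shiftRight
    (Int.toNat (Int.add Z (Int.ofNat (Nat.mul (half W) (Sos.onesF W n))))) (Nat.mul W o))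

theorem sliceDec_getD (W n o m : ℕ) (hW : 0 < W) (Z : ℤ) (k : ℕ) (hk : k < m) (ho : o + m ≤ n) :
    (sliceDec W n o m Z).getD k 0 = (Sos.decode W n Z).getD (o + k) 0 := by
  rw [sliceDec, Sos.decode, Sos.onesF_eq W hW, Sos.unpk_getD W m _ k hk,
    Sos.unpk_getD W n _ (o + k) (by omega)]
  simp only [Sos.dig, base]
  rw [show ∀ x, Nat.shiftRight x (Nat.mul W o) = x / (2 ^ W) ^ o from fun x => by
      rw [show Nat.shiftRight x (Nat.mul W o) = x >>> (W * o) from rfl, Nat.shiftRight_eq_div_pow,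
        pow_mul],
    Nat.div_div_eq_div_mul, ← pow_add]

theorem sliceDec_eq (W n o m : ℕ) (hW : 0 < W) (Z : ℤ) (ho : o + m ≤ n) :
    sliceDec W n o m Z = ((Sos.decode W n Z).drop o).take m := by
  refine List.ext_getElem (by simp [sliceDec, Sos.unpk_length, Sos.decode_length]; omega)
    fun k h1 h2 => ?_
  have hk : k < m := by simpa [sliceDec, Sos.unpk_length] using h1
  rw [← List.getD_eq_getElem _ (0 : ℤ) h1, sliceDec_getD W n o m hW Z k hk ho, List.getElem_take,
    List.getElem_drop, List.getD_eq_getElem]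

/-- Digits packed again in slots of `W` bits. -/
noncomputable def packW (W : ℕ) (L : List ℤ) : ℤ :=
  List.rec (motive := fun _ => ℤ) (Int.ofNat 0)
    (fun x _ ih => Int.add x (Int.mul (Int.ofNat (Nat.pow 2 W)) ih)) L

theorem packW_eq (W : ℕ) : ∀ L : List ℤ, packW W L = pk W L.length fun k => L.getD k 0
  | [] => by simp [packW, pk]
  | x :: L => by
    show x + ((2 ^ W : ℕ) : ℤ) * packW W L = _
    rw [packW_eq W L, List.length_cons, Sos.pk_succ]
    simp [base]

end Vale.Agent.P098.Exact.Sos6
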