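import Vale.Agent.P098.Exact.Sos6.CoverK

/-!
Targets of a box for one bucket of slots at a time, and the recombination of the buckets into the
per-box conclusion. A bucket keeps the slots `o ≤ k < o + n`; its packed vectors have `n` slots.
-/

noncomputable section

namespace Vale.Agent.P098.Exact.Sos6

open Sos (pk base half npk decode)

/-- The monomials of one bucket. -/
def sliceL (gl : List Mon) (o n : ℕ) : List Mon := (gl.drop o).take n

/-- Slot values outside one bucket set to zero. -/
def maskS (gs : List ℝ) (o n : ℕ) : List ℝ :=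
  (List.range gs.length).map fun k => if o ≤ k ∧ k < o + n then gs.getD k 0 else 0

/-- A row packed into the slots of one bucket. -/
noncomputable def leafS (W o n : ℕ) (r : Row) : ℕ → ℕ → PV :=
  List.rec (motive := fun _ => ℕ → ℕ → PV) (fun _ _ => (0, 0))
    (fun p _ ih pn j => Prod.rec (motive := fun _ => PV)
      (fun d c => Bool.rec (ih pn (Nat.add (Nat.add j d) 1))
        (pOps.add (ishl c (Nat.mul W (Nat.sub (pdig 16 pn (Nat.add j d)) o)), Int.natAbs c)
          (ih pn (Nat.add (Nat.add j d) 1)))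
        (Nat.ble o (pdig 16 pn (Nat.add j d)) && Nat.blt (pdig 16 pn (Nat.add j d)) (Nat.add o n))) p) r

theorem maskS_getD (gs : List ℝ) (o n k : ℕ) (hk : k < gs.length) :
    (maskS gs o n).getD k 0 = if o ≤ k ∧ k < o + n then gs.getD k 0 else 0 := by
  simp [maskS, List.getD_eq_getElem?_getD, hk]

theorem leafS_rel (W o n : ℕ) (gs : List ℝ) (pn : ℕ) : ∀ (r : Row) (j m : ℕ),
    (∀ i, j ≤ i → i < j + m → pdig 16 pn i < gs.length) → rowOK r m = true →
    PRel W ((gs.drop o).take n) (leafS W o n r pn j)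
      (rv ((List.range' j m).map fun i => (maskS gs o n).getD (pdig 16 pn i) 0) r)
  | [], j, m, _, _ => (prel W _).zero
  | (d, c) :: r, j, m, hp, h => by
    change (Nat.blt d m && rowOK r (m - (d + 1))) = true at h
    simp only [Bool.and_eq_true, Nat.blt_eq] at h
    obtain ⟨m', rfl⟩ : ∃ m', m = d + (m' + 1) := ⟨m - (d + 1), by omega⟩
    have e2 : ((List.range' j (d + (m' + 1))).map
        fun i => (maskS gs o n).getD (pdig 16 pn i) 0).drop d =
        (maskS gs o n).getD (pdig 16 pn (j + d)) 0 ::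
          (List.range' (j + d + 1) m').map fun i => (maskS gs o n).getD (pdig 16 pn i) 0 := by
      rw [← List.map_drop, List.drop_range', mul_one, Nat.add_sub_cancel_left, List.range'_succ]
      rfl
    have ih := leafS_rel W o n gs pn r (j + d + 1) m' (fun i h1 h2 => hp i (by omega) (by omega))
      (by simpa [show d + (m' + 1) - (d + 1) = m' by omega] using h.2)
    obtain ⟨q, hq⟩ : ∃ q, q = pdig 16 pn (j + d) := ⟨_, rfl⟩
    have hlt : q < gs.length := hq ▸ hp _ (by omega) (by omega)
    show PRel W _ (Bool.rec (motive := fun _ => PV) (leafS W o n r pn (j + d + 1))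
      (pOps.add (ishl c (W * (pdig 16 pn (j + d) - o)), c.natAbs) (leafS W o n r pn (j + d + 1)))
      (Nat.ble o (pdig 16 pn (j + d)) && Nat.blt (pdig 16 pn (j + d)) (o + n))) _
    simp only [rv, e2]
    rw [← hq, maskS_getD gs o n q hlt]
    cases e : (Nat.ble o q && Nat.blt q (o + n))
    · rw [if_neg (by
        rintro ⟨h1, h2⟩
        have h3 : (Nat.ble o q && Nat.blt q (o + n)) = true := by
          simp only [Bool.and_eq_true, Nat.ble_eq, Nat.blt_eq]
          exact ⟨h1, h2⟩
        rw [h3] at e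
        cases e), mul_zero, zero_add]
      exact ih
    · simp only [Bool.and_eq_true, Nat.ble_eq, Nat.blt_eq] at e
      rw [if_pos e]
      have hi : q - o < ((gs.drop o).take n).length := by simp; omega
      have hu := unit_rel W _ c (q - o) hi
      rw [show ((gs.drop o).take n).getD (q - o) 0 = gs.getD q 0 by
        simp [List.getD_eq_getElem?_getD, show q - o < n by omega,
          List.getElem?_drop, show o + (q - o) = q by omega]] at hu
      exact (prel W _).add hu ih

theorem mkP_relS (W o n : ℕ) (gs : List ℝ) (P : List Part) (h : partsOK gs.length P = true) :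
    List.Forall₂ (List.Forall₂ (List.Forall₂ (Rel3 (PRel W ((gs.drop o).take n)))))
      (mkP pOps (leafS W o n) P) (mkP rOps (leafR (maskS gs o n)) P) := by
  have z := (prel W ((gs.drop o).take n)).zero
  refine balSum_rel (poly_rel (poly_rel (poly_rel (poly_rel (poly_rel (poly_rel
    (prel W ((gs.drop o).take n)))))))) 20 ?_
  induction P with
  | nil => exact .nil
  | cons p P ih =>
    obtain ⟨k, pn, rows⟩ := p
    simp only [partsOK, List.all_cons, Bool.and_eq_true, List.all_eq_true, Nat.blt_eq,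
      List.mem_range] at h
    have ih' := ih (by simpa [partsOK] using h.2)
    obtain ⟨⟨⟨-, hps⟩, hr⟩, -⟩ := h
    clear ih
    induction rows with
    | nil => exact ih'
    | cons q rows ih2 =>
      obtain ⟨key, r⟩ := q
      change (rowOK r gs.length && rowsOK gs.length rows) = true at hr
      simp only [Bool.and_eq_true] at hr
      have hl : (maskS gs o n).length = gs.length := by simp [maskS]
      exact .cons (monoL_rel .nil (monoL_rel .nil (monoL_rel .nil (monoL_rel .nil (monoL_rel .nil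
          (monoL_rel z (show PRel W _ (leafS W o n r pn 0) (leafR (maskS gs o n) r pn 0) by
            rw [leafR, hl, Nat.sub_zero]
            exact leafS_rel W o n gs pn r 0 gs.length (fun i _ hi => hps i (by omega)) hr.1)
            _) _) _) _) _) _) (ih2 hr.2)

/-! ### Additivity in the slot values -/

theorem rv_map_add {α : Type} (F G : α → ℝ) : ∀ (r : Row) (L : List α),
    rv (L.map fun a => F a + G a) r = rv (L.map F) r + rv (L.map G) r
  | [], L => by simp [rv]
  | (d, c) :: r, L => by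
    simp only [rv, ← List.map_drop]
    cases L.drop d with
    | nil => simp
    | cons a L' =>
      simp only [List.map_cons, rv_map_add F G r L']
      ring

theorem rv_map_zero {α : Type} : ∀ (r : Row) (L : List α), rv (L.map fun _ => (0 : ℝ)) r = 0
  | [], L => by simp [rv]
  | (d, c) :: r, L => by
    simp only [rv, ← List.map_drop]
    cases L.drop d with
    | nil => simp
    | cons a L' =>
      simp only [List.map_cons, rv_map_zero r L']
      ring

theorem getD_map_range (len : ℕ) (F : ℕ → ℝ) (k : ℕ) :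
    ((List.range len).map F).getD k 0 = if k < len then F k else 0 := by
  by_cases h : k < len <;> simp [List.getD_eq_getElem?_getD, h]

theorem rowsVal_map_add {α : Type} (F G : α → ℝ) (L : List α) (l : ℕ → ℝ) : ∀ rows : Rows,
    rowsVal (L.map fun a => F a + G a) l rows = rowsVal (L.map F) l rows + rowsVal (L.map G) l rows
  | [] => by simp [rowsVal]
  | q :: rows => by
    have ih := rowsVal_map_add F G L l rows
    simp only [rowsVal, List.map_cons, List.sum_cons] at ih ⊢
    rw [ih, rv_map_add]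
    ring

theorem rowsVal_map_zero {α : Type} (L : List α) (l : ℕ → ℝ) : ∀ rows : Rows,
    rowsVal (L.map fun _ => (0 : ℝ)) l rows = 0
  | [] => by simp [rowsVal]
  | q :: rows => by
    have ih := rowsVal_map_zero L l rows
    simp only [rowsVal, List.map_cons, List.sum_cons] at ih ⊢
    rw [ih, rv_map_zero]
    ring

theorem partsVal_map_add (len : ℕ) (F G : ℕ → ℝ) (l : ℕ → ℝ) : ∀ P : List Part,
    partsVal ((List.range len).map fun k => F k + G k) l P =
      partsVal ((List.range len).map F) l P + partsVal ((List.range len).map G) l P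
  | [] => by simp [partsVal]
  | p :: P => by
    have ih := partsVal_map_add len F G l P
    simp only [partsVal, List.map_cons, List.sum_cons, List.length_map, List.length_range] at ih ⊢
    rw [ih]
    simp only [getD_map_range]
    rw [show (fun i => if pdig 16 p.pn i < len then F (pdig 16 p.pn i) + G (pdig 16 p.pn i) else 0) =
      (fun i => (if pdig 16 p.pn i < len then F (pdig 16 p.pn i) else 0) +
        (if pdig 16 p.pn i < len then G (pdig 16 p.pn i) else 0)) by funext i; split <;> simp,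
      rowsVal_map_add]
    ring

theorem partsVal_map_zero (len : ℕ) (l : ℕ → ℝ) : ∀ P : List Part,
    partsVal ((List.range len).map fun _ => (0 : ℝ)) l P = 0
  | [] => by simp [partsVal]
  | p :: P => by
    have ih := partsVal_map_zero len l P
    simp only [partsVal, List.map_cons, List.sum_cons, List.length_map, List.length_range] at ih ⊢
    rw [ih]
    simp only [getD_map_range, ite_self]
    rw [rowsVal_map_zero]
    ring

/-- The buckets together give the whole value. -/
theorem partsVal_slices (gs : List ℝ) (n B : ℕ) (hlen : gs.length ≤ B * n) (l : ℕ → ℝ)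
    (P : List Part) :
    ∑ b ∈ Finset.range B, partsVal (maskS gs (b * n) n) l P = partsVal gs l P := by
  have key : ∀ B : ℕ, ∑ b ∈ Finset.range B, partsVal (maskS gs (b * n) n) l P =
      partsVal ((List.range gs.length).map fun k => if k < B * n then gs.getD k 0 else 0) l P := by
    intro B
    induction B with
    | zero =>
      simp only [Finset.sum_range_zero, Nat.zero_mul, Nat.not_lt_zero, if_false]
      exact (partsVal_map_zero gs.length l P).symm
    | succ B ih =>
      rw [Finset.sum_range_succ, ih, maskS, ← partsVal_map_add]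
      congr 1
      refine List.map_congr_left fun k _ => ?_
      rw [Nat.succ_mul]
      by_cases h1 : k < B * n
      · rw [if_pos h1, if_neg (by omega), if_pos (by omega), add_zero]
      · by_cases h2 : k < B * n + n
        · rw [if_neg h1, if_pos ⟨by omega, h2⟩, if_pos h2, zero_add]
        · rw [if_neg h1, if_neg (by omega), if_neg h2, zero_add]
  rw [key B]
  congr 1
  refine List.ext_getElem (by simp) fun k h1 h2 => ?_
  simp [List.getD_eq_getElem?_getD, h2, show k < B * n by omega]

/-! ### One bucket -/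

/-- Even and odd parts of the parts on one bucket, scaled by `2 ^ e`. -/
noncomputable def partsPS (W e o n : ℕ) (rs : List Part) :
    List (List (List PV)) × List (List (List PV)) :=
  red pOps (sub6 pOps (mkP pOps (leafS W o n) rs)) e

/-- Box independent conditions of one bucket. -/
noncomputable def sliceOK (W D o n : ℕ) (rs : List Part) : Bool :=
  Nat.ble (sub6 pOps (mkP pOps (leafS W o n) rs)).length (Nat.add D 1) &&
    ok3 D (partsPS W D o n rs).1 && ok3 D (partsPS W D o n rs).2

/-- The coefficients below degree five in every variable. -/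
noncomputable def low3 {M : Type} (L : List (List (List M))) : List (List (List M)) :=
  mapR (fun K => mapR (fun J => J.take 5) (K.take 5)) (L.take 5)

theorem low3_rel {M M' : Type} {R : M → M' → Prop} {L : List (List (List M))}
    {L' : List (List (List M'))} (h : Rel3 R L L') : Rel3 R (low3 L) (low3 L') := by
  simp only [low3, mapR_eq]
  refine List.forall₂_map_left_iff.2 (List.forall₂_map_right_iff.2 ?_)
  refine (List.forall₂_take 5 h).imp fun K K' hK => ?_
  refine List.forall₂_map_left_iff.2 (List.forall₂_map_right_iff.2 ?_)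
  exact (List.forall₂_take 5 hK).imp fun J J' hJ => List.forall₂_take 5 hJ

theorem ev3_low (s t u : ℝ) (hs : |s| ≤ 1) (ht : |t| ≤ 1) (hu : |u| ≤ 1)
    (L : List (List (List ℝ))) :
    |ev3 id s t u L - ev3 id s t u (low3 L)| ≤ ((drop3 L).map fun x => |x|).sum := by
  have h1 := ev3_kept s t u hs ht hu L
  have h2 := ev3_kept s t u hs ht hu (low3 L)
  have hd : drop3 (low3 L) = [] := by
    have e1 : ∀ {X : Type} (A : List X), (A.take 5).drop 5 = [] := fun A =>
      List.drop_eq_nil_of_le (List.length_take_le 5 A)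
    have e2 : ∀ {X : Type} (A : List X), (A.take 5).take 5 = A.take 5 := fun A => by
      rw [List.take_take, min_self]
    simp only [drop3, low3, mapR_eq, List.map_take, e1, e2, List.flatten_nil, List.nil_append,
      List.flatMap_eq_nil_iff]
    intro K hK
    obtain ⟨K', -, rfl⟩ := List.mem_map.1 (List.mem_of_mem_take hK)
    simp only [← List.map_take, ← List.map_drop, e1, e2, List.map_nil, List.flatten_nil,
      List.nil_append, List.flatMap_eq_nil_iff]
    intro J hJ
    obtain ⟨J', -, rfl⟩ := List.mem_map.1 hJ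
    exact e1 J'
  rw [hd, List.map_nil, List.sum_nil] at h2
  have hkk : ∀ i < 5, ∀ j < 5, ∀ k < 5, kept (0 : ℝ) (low3 L) i j k = kept 0 L i j k := by
    intro i hi j hj k hk
    simp only [kept, low3, mapR_eq, List.getD_eq_getElem?_getD, List.getElem?_map,
      List.getElem?_take_of_lt hi]
    cases L[i]? with
    | none => simp
    | some K =>
      simp only [Option.map_some, Option.getD_some, List.getElem?_map,
        List.getElem?_take_of_lt hj]
      cases K[j]? with
      | none => simp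
      | some J => simp [List.getElem?_take_of_lt hk]
  rw [Finset.sum_congr rfl fun i hi => Finset.sum_congr rfl fun j hj => Finset.sum_congr rfl
    fun k hk => by rw [hkk i (Finset.mem_range.1 hi) j (Finset.mem_range.1 hj) k
      (Finset.mem_range.1 hk)]] at h2
  rw [sub_eq_zero.1 (abs_eq_zero.1 (le_antisymm h2 (abs_nonneg _)))]
  exact h1

/-- The combined polynomial at a box from reduced parts. -/
noncomputable def polyE (D : ℕ) (EO : List (List (List PV)) × List (List (List PV))) (x : Box)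
    (H : HData) : List (List (List PV)) :=
  pOps.poly3.add (pOps.poly3.smul (Int.ofNat H.U) (atBox pOps D x EO.1))
    (mul3 pOps H.hm (low3 (atBox pOps D x EO.2)))

/-- Packed targets from reduced parts. -/
noncomputable def boxVE (D : ℕ) (EO : List (List (List PV)) × List (List (List PV))) (x : Box)
    (H : HData) : List ℤ :=
  (keptL (0, 0) (polyE D EO x H)).map Prod.fst

/-- Loads of the dropped part from reduced parts. -/
noncomputable def boxElE (W N D : ℕ) (gl : List Mon)
    (EO : List (List (List PV)) × List (List (List PV))) (x : Box) (H : HData) : List ℕ :=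
  (loads N gl (ndigs W gl.length
    (Nat.add (sumA W gl.length (drop3 (polyE D EO x H)))
      (Nat.add (Nat.mul H.e (sumA W gl.length (atBox pOps D x EO.2).flatten.flatten))
        (Nat.mul (sumN3 H.hm) (sumA W gl.length (drop3 (atBox pOps D x EO.2)))))))).map
    fun l => Nat.div (Nat.add l 63) 64

/-- A box from reduced parts: valid model, no overflow, and a check of targets and loads. -/
noncomputable def boxEOK (W N D : ℕ) (gl : List Mon)
    (EO : List (List (List PV)) × List (List (List PV))) (x : Box) (H : HData)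
    (k : List ℤ → List ℕ → Bool) : Bool :=
  H.ok x &&
    Nat.blt (Nat.add (Nat.add (sumB (keptL (0, 0) (polyE D EO x H)))
      (sumB (drop3 (polyE D EO x H))))
      (Nat.add (Nat.mul (Nat.add H.e 1) (sumB (atBox pOps D x EO.2).flatten.flatten))
        (Nat.mul (Nat.add (sumN3 H.hm) 1) (sumB (drop3 (atBox pOps D x EO.2)))))) (half W) &&
    k (boxVE D EO x H) (boxElE W N D gl EO x H)

/-- A box on one bucket. -/
noncomputable def boxS (W D : ℕ) (gl : List Mon) (o n : ℕ) (rs : List Part) (x : Box) (H : HData)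
    (k : List ℤ → List ℕ → Bool) : Bool :=
  boxEOK W 38 D (sliceL gl o n) (partsPS W D o n rs) x H k

/-- **Targets and loads of a checked box from reduced parts.** -/
theorem targetE (W N D : ℕ) (gl : List Mon) (EO : List (List (List PV)) × List (List (List PV)))
    (x : Box) (H : HData) (k : List ℤ → List ℕ → Bool) (hW : 0 < W) (hoE : ok3 D EO.1 = true)
    (hoO : ok3 D EO.2 = true) (hgl : ∀ G ∈ gl, G.a < N ∧ G.b < N)
    (hB : boxEOK W N D gl EO x H k = true) :
    k (boxVE D EO x H) (boxElE W N D gl EO x H) = true ∧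
      ∀ (s t u : ℝ), |s| ≤ 1 → |t| ≤ 1 → |u| ≤ 1 → ∀ (z v : ℕ → ℝ) (h X : ℝ), 0 ≤ h →
        h ^ 2 = 1 - 2 * (x.pt s t u).1 ^ 2 - 2 * (x.pt s t u).2.1 ^ 2 - 20 * (x.pt s t u).2.2 ^ 2 →
        v 0 ^ 2 + v 1 ^ 2 + v 2 ^ 2 + v 3 ^ 2 + v 4 ^ 2 + v 5 ^ 2 ≤ 1 →
        ∀ E' O' : List (List (List ℝ)), Rel3 (PRel W (gl.map fun G => G.ev z v)) EO.1 E' →
        Rel3 (PRel W (gl.map fun G => G.ev z v)) EO.2 O' →
        2 ^ D * X = ev3 id (x.pt s t u).1 (x.pt s t u).2.1 (x.pt s t u).2.2 E' +
          h * ev3 id (x.pt s t u).1 (x.pt s t u).2.1 (x.pt s t u).2.2 O' →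
        2 * |(H.U : ℝ) * 4096 ^ D * 2 ^ D * X - polyR (fun m =>
            gsumZ z v gl (decode W gl.length ((boxVE D EO x H).getD m 0))) s t u| ≤
          ∑ m ∈ Finset.range N, ((boxElE W N D gl EO x H).getD m 0 : ℝ) * z m ^ 2 := by
  simp only [boxEOK, Bool.and_eq_true, Nat.blt_eq] at hB
  obtain ⟨⟨hH, hsum⟩, hk⟩ := hB
  refine ⟨hk, fun s t u hs ht hu z v h X h0 hh hv E' O' hE hO e1 => ?_⟩
  obtain ⟨gs, hgs⟩ : ∃ gs, gs = gl.map fun G => G.ev z v := ⟨_, rfl⟩
  have hn : gs.length = gl.length := by simp [hgs]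
  rw [← hgs] at hE hO
  have hbE := atBox_rel (prel W gs) D x hE
  have hbO := atBox_rel (prel W gs) D x hO
  have hP : Rel3 (PRel W gs) (polyE D EO x H) _ :=
    add3_rel (prel W gs) (smul3_rel (prel W gs) (Int.ofNat H.U) hbE)
      (mul3_rel (prel W gs) H.hm (low3_rel hbO))
  obtain ⟨Pr, hPr⟩ : ∃ Pr, Pr = rOps.poly3.add (rOps.poly3.smul (Int.ofNat H.U)
      (atBox rOps D x E')) (mul3 rOps H.hm (low3 (atBox rOps D x O'))) := ⟨_, rfl⟩
  obtain ⟨Or, hOr⟩ : ∃ Or, Or = atBox rOps D x O' := ⟨_, rfl⟩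
  rw [← hPr] at hP
  rw [← hOr] at hbO
  have V := rOps_val
  have e2 : (H.U : ℝ) * 4096 ^ D * 2 ^ D * X - ev3 id s t u Pr =
      ((H.U : ℝ) * h - ev3 (fun z : ℤ => (z : ℝ)) s t u H.hm) * ev3 id s t u Or +
        ev3 (fun z : ℤ => (z : ℝ)) s t u H.hm * (ev3 id s t u Or - ev3 id s t u (low3 Or)) := by
    rw [hPr, hOr, ev3_add V, ev3_smul V, ev3_mul3 V,
      ev_atBox V D x _ (by rw [← ok3_rel D hE]; exact hoE),
      ev_atBox V D x _ (by rw [← ok3_rel D hO]; exact hoO)]
    simp only [Int.ofNat_eq_natCast, Int.cast_natCast]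
    linear_combination ((H.U : ℝ) * 4096 ^ D) * e1
  have hd := H.bound x hH s t u h hs ht hu h0 hh
  have hko := ev3_kept s t u hs ht hu Pr
  have hlo := ev3_low s t u hs ht hu Or
  have hm1 := ev3_le s t u hs ht hu H.hm
  have hO1 : |ev3 id s t u Or| ≤ (Or.flatten.flatten.map fun y => |y|).sum := by
    rw [sum_map_flatten, sum_map_flatten]
    exact evP_abs _ _ (fun K => evP_abs _ _ (fun J => evP_abs _ _ (fun y => le_rfl) u hu J) t ht K)
      s hs Or
  obtain ⟨bO, hbOdef⟩ : ∃ b, b = sumB (atBox pOps D x EO.2).flatten.flatten := ⟨_, rfl⟩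
  obtain ⟨bH, hbHdef⟩ : ∃ b, b = sumB (drop3 (atBox pOps D x EO.2)) := ⟨_, rfl⟩
  rw [← hbOdef, ← hbHdef] at hsum
  have hsum' : sumB (keptL (0, 0) (polyE D EO x H)) + sumB (drop3 (polyE D EO x H))
      + ((H.e + 1) * bO + (sumN3 H.hm + 1) * bH) < half W := hsum
  have hbO' : bO ≤ (H.e + 1) * bO := Nat.le_mul_of_pos_left _ (Nat.succ_pos _)
  have hbH' : bH ≤ (sumN3 H.hm + 1) * bH := Nat.le_mul_of_pos_left _ (Nat.succ_pos _)
  obtain ⟨a, a1, a2, a3⟩ := sumA_rel W hW gs (drop3_rel hP) (by omega)
  obtain ⟨b, b1, b2, b3⟩ := sumA_rel W hW gs (List.rel_flatten (List.rel_flatten hbO))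
    (by rw [← hbOdef]; omega)
  obtain ⟨c, c1, c2, c3⟩ := sumA_rel W hW gs (drop3_rel hbO) (by rw [← hbHdef]; omega)
  rw [← hbOdef] at b2
  rw [← hbHdef] at c2
  obtain ⟨M, hM⟩ : ∃ M, M = sumN3 H.hm := ⟨_, rfl⟩
  rw [← hM] at hsum' hbH' hm1
  have hdig : ndigs W gl.length (Nat.add (sumA W gl.length (drop3 (polyE D EO x H)))
      (Nat.add (Nat.mul H.e (sumA W gl.length (atBox pOps D x EO.2).flatten.flatten))
        (Nat.mul (sumN3 H.hm) (sumA W gl.length (drop3 (atBox pOps D x EO.2)))))) =
      (List.range gl.length).map fun k => a k + (H.e * b k + M * c k) := by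
    rw [← hn, a1, b1, c1, ← hM]
    show ndigs W gs.length (npk W gs.length a +
      (H.e * npk W gs.length b + M * npk W gs.length c)) = _
    rw [npk_smul, npk_smul, npk_add, npk_add]
    refine ndigs_npk W _ _ fun k _ => ?_
    have h1 : H.e * b k ≤ H.e * bO := Nat.mul_le_mul_left _ (b2 k)
    have h2 : H.e * bO ≤ (H.e + 1) * bO := Nat.mul_le_mul_right _ (Nat.le_succ _)
    have h1' : M * c k ≤ M * bH := Nat.mul_le_mul_left _ (c2 k)
    have h2' : M * bH ≤ (M + 1) * bH := Nat.mul_le_mul_right _ (Nat.le_succ _)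
    have h3 := a2 k
    have h4 : half W ≤ base W := Nat.pow_le_pow_right (by norm_num) (Nat.sub_le _ _)
    omega
  have hL := loads_bound N z v hv gl
    ((List.range gl.length).map fun k => a k + (H.e * b k + M * c k)) hgl
  rw [← hgs, ← hdig] at hL
  have hkept : polyR (fun m => gsumZ z v gl (decode W gl.length ((boxVE D EO x H).getD m 0)))
      s t u = ∑ i ∈ Finset.range 5, ∑ j ∈ Finset.range 5, ∑ l ∈ Finset.range 5,
        s ^ i * (t ^ j * (u ^ l * kept 0 Pr i j l)) := by
    refine Finset.sum_congr rfl fun i hi => Finset.sum_congr rfl fun j hj =>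
      Finset.sum_congr rfl fun l hl => ?_
    simp only [Finset.mem_range] at hi hj hl
    have hV : (boxVE D EO x H).getD (25 * i + 5 * j + l) 0 =
        (kept (0, 0) (polyE D EO x H) i j l).1 := by
      rw [boxVE, keptL, List.getD_eq_getElem?_getD, List.getElem?_map, List.getElem?_map,
        List.getElem?_range (by omega)]
      simp only [Option.map_some, Option.getD_some]
      rw [show (25 * i + 5 * j + l) / 25 = i by omega,
        show (25 * i + 5 * j + l) / 5 % 5 = j by omega, show (25 * i + 5 * j + l) % 5 = l by omega]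
    have hm : (kept (0, 0) (polyE D EO x H) i j l).2 ≤
        sumB (keptL (0, 0) (polyE D EO x H)) := by
      refine mem_le_sumB _ _ ?_
      rw [keptL, List.mem_map]
      refine ⟨25 * i + 5 * j + l, List.mem_range.2 (by omega), ?_⟩
      rw [show (25 * i + 5 * j + l) / 25 = i by omega,
        show (25 * i + 5 * j + l) / 5 % 5 = j by omega, show (25 * i + 5 * j + l) % 5 = l by omega]
    simp only [hV]
    rw [decode_gsum W hW gl z v _ _ (hgs ▸ kept_rel (prel W gs).zero hP i j l) (by omega)]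
    show kept 0 Pr i j l * _ = _
    ring
  have hQ : |(H.U : ℝ) * 4096 ^ D * 2 ^ D * X - polyR (fun m =>
      gsumZ z v gl (decode W gl.length ((boxVE D EO x H).getD m 0))) s t u| ≤
      ∑ k ∈ Finset.range gl.length,
        ((a k + (H.e * b k + M * c k) : ℕ) : ℝ) * |gs.getD k 0| := by
    rw [hkept]
    refine (abs_sub_le _ (ev3 id s t u Pr) _).trans ?_
    rw [e2]
    have h5 : |(H.U : ℝ) * h - ev3 (fun z : ℤ => (z : ℝ)) s t u H.hm| * |ev3 id s t u Or| ≤
        (H.e : ℝ) * ∑ k ∈ Finset.range gl.length, (b k : ℝ) * |gs.getD k 0| :=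
      mul_le_mul hd (hO1.trans (hn ▸ b3)) (abs_nonneg _) (Nat.cast_nonneg _)
    have h5' : |ev3 (fun z : ℤ => (z : ℝ)) s t u H.hm| *
        |ev3 id s t u Or - ev3 id s t u (low3 Or)| ≤
        (M : ℝ) * ∑ k ∈ Finset.range gl.length, (c k : ℝ) * |gs.getD k 0| :=
      mul_le_mul hm1 (hlo.trans (hn ▸ c3)) (abs_nonneg _) (Nat.cast_nonneg _)
    have h7 := abs_add_le
      (((H.U : ℝ) * h - ev3 (fun z : ℤ => (z : ℝ)) s t u H.hm) * ev3 id s t u Or)
      (ev3 (fun z : ℤ => (z : ℝ)) s t u H.hm * (ev3 id s t u Or - ev3 id s t u (low3 Or)))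
    rw [abs_mul, abs_mul] at h7
    rw [Finset.mul_sum] at h5 h5'
    push_cast
    simp only [add_mul, mul_assoc, Finset.sum_add_distrib] at h5 h5' h7 ⊢
    have h6 := hko.trans (hn ▸ a3)
    linarith
  have hel : ∀ m, ((loads N gl (ndigs W gl.length (Nat.add (sumA W gl.length (drop3 (polyE D EO x H)))
      (Nat.add (Nat.mul H.e (sumA W gl.length (atBox pOps D x EO.2).flatten.flatten))
        (Nat.mul (sumN3 H.hm) (sumA W gl.length (drop3 (atBox pOps D x EO.2)))))))).getD m 0 : ℝ)
      ≤ 64 * ((boxElE W N D gl EO x H).getD m 0 : ℝ) := by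
    intro m
    rw [boxElE]
    generalize loads N gl _ = L
    have : L.getD m 0 ≤ 64 * (L.map fun l => Nat.div (Nat.add l 63) 64).getD m 0 := by
      rcases lt_or_ge m L.length with hm | hm
      · simp [List.getD_eq_getElem?_getD, hm]
        show L[m] ≤ 64 * ((L[m] + 63) / 64)
        omega
      · simp [List.getD_eq_getElem?_getD, hm]
    exact_mod_cast this
  have h7 : ∀ k ∈ Finset.range gl.length,
      ((a k + (H.e * b k + M * c k) : ℕ) : ℝ) * |gs.getD k 0| =
      ((((List.range gl.length).map fun k => a k + (H.e * b k + M * c k)).getD k 0 : ℕ) : ℝ) *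
        |gs.getD k 0| :=
    fun k hk => by simp [List.getD_eq_getElem?_getD, Finset.mem_range.1 hk]
  rw [Finset.sum_congr rfl h7, ← hdig] at hQ
  have h8 := hL.trans (Finset.sum_le_sum fun m _ =>
    mul_le_mul_of_nonneg_right (hel m) (sq_nonneg (z m)))
  simp only [mul_assoc, ← Finset.mul_sum] at h8
  simp only [mul_assoc] at hQ ⊢
  linarith

/-! ### Recombination -/

/-- What the checks of all buckets of a box must deliver together: every control bounds the loads
of all buckets, carrying the factor `1728`, plus a gap. -/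
def CtrlSoundS (W : ℕ) (gl : List Mon) (n B : ℕ) (gap : ℕ → ℕ)
    (k : ℕ → List ℤ → List ℕ → Bool) : Prop :=
  ∀ (V : ℕ → List ℤ) (el : ℕ → List ℕ), (∀ b, b < B → k b (V b) (el b) = true) →
    ∀ z v, Dom z v → ∀ i < 5, ∀ j < 5, ∀ m < 5,
      ∑ c ∈ Finset.range 38,
          ((1728 * (∑ b ∈ Finset.range B, (el b).getD c 0) + gap c : ℕ) : ℝ) * z c ^ 2 ≤
        2 * ctrlR (fun p => ∑ b ∈ Finset.range B, gsumZ z v (sliceL gl (b * n) n)
          (decode W (sliceL gl (b * n) n).length ((V b).getD p 0))) i j m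

theorem polyR_sum (B : ℕ) (c : ℕ → ℕ → ℝ) (s t u : ℝ) :
    polyR (fun m => ∑ b ∈ Finset.range B, c b m) s t u =
      ∑ b ∈ Finset.range B, polyR (c b) s t u := by
  induction B with
  | zero => simp [polyR]
  | succ B ih =>
    rw [Finset.sum_range_succ, ← ih]
    simp only [polyR, Finset.sum_range_succ _ B, add_mul, Finset.sum_add_distrib]

/-- **A box whose buckets are checked is good.** -/
theorem goodK_of_slices (an : ℤ) (den : ℕ) (hden : 0 < den) (L L2 : List ITerm) (KL : List KI)
    (gl : List Mon) (C : ℕ) (P : ℕ → ℕ) (R0 R5 R6 : Rows)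
    (hrows : rowsChk an den L L2 KL gl C P R0 R5 R6) (W D n B : ℕ) (hW : 0 < W)
    (hparts : partsOK gl.length (partsOf P R0 R5 R6) = true) (hlen : gl.length ≤ B * n)
    (hsl : ∀ b, b < B → sliceOK W D (b * n) n (partsOf P R0 R5 R6) = true)
    (k : ℕ → List ℤ → List ℕ → Bool) (gap : ℕ → ℕ) (hk : CtrlSoundS W gl n B gap k) (G : ℕ)
    (hG : ∀ c, 31 ≤ c → c < 37 → G ≤ gap c) (δ : ℝ) (x : Box) (H : HData) (hU : 0 < H.U)
    (hδ : δ * (2 * 1728 * ((H.U : ℝ) * 4096 ^ D * 2 ^ D * (40000 * den))) ≤ G)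
    (hB : ∀ b, b < B → boxS W D gl (b * n) n (partsOf P R0 R5 R6) x H (k b) = true) :
    x.GoodK ((an : ℝ) / 100) (L.map (ITerm.term den)) (L2.map (ITerm.term den))
      (KL.map (KI.term den)) δ := by
  obtain ⟨rs, hrs⟩ : ∃ rs, rs = partsOf P R0 R5 R6 := ⟨_, rfl⟩
  rw [← hrs] at hparts hsl hB
  have hgl : ∀ o, ∀ G ∈ sliceL gl o n, G.a < 38 ∧ G.b < 38 := fun o M hM => by
    have := List.all_eq_true.1 (slotF_all hrows.1).1 M (List.mem_of_mem_drop (List.mem_of_mem_take hM))
    simp only [slotOK, Bool.and_eq_true, Nat.blt_eq] at this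
    exact ⟨this.1.1, this.1.2⟩
  have hT : ∀ b, b < B → _ := fun b hb => by
    have h := hsl b hb
    simp only [sliceOK, Bool.and_eq_true, Nat.ble_eq] at h
    exact targetE W 38 D _ _ x H (k b) hW h.1.2 h.2 (hgl (b * n)) (hB b hb)
  intro s t u hs ht hu v τ y a hy hA ha
  obtain ⟨p, hp⟩ : ∃ p, p = x.pt s t u := ⟨_, rfl⟩
  rw [← hp] at hA ⊢
  obtain ⟨X, hX⟩ : ∃ X, X = QvalK ((an : ℝ) / 100) (L.map (ITerm.term den))
      (L2.map (ITerm.term den)) (KL.map (KI.term den)) (chartH p.1 p.2.1 p.2.2) v τ y a 1 :=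
    ⟨_, rfl⟩
  rw [← hX]
  obtain ⟨h, hh⟩ : ∃ h, h = hgt p.1 p.2.1 p.2.2 := ⟨_, rfl⟩
  have hrad : 0 ≤ 1 - 2 * p.1 ^ 2 - 2 * p.2.1 ^ 2 - 20 * p.2.2 ^ 2 := by
    by_contra hn
    have h0 : h = 0 := hh ▸ Real.sqrt_eq_zero_of_nonpos (not_le.1 hn).le
    have hsq := hA.l_sq
    rw [Fin.sum_univ_six] at hsq
    simp [chartH, ← hh, h0] at hsq
    nlinarith
  have hl : lT (chartH p.1 p.2.1 p.2.2) = lsG (h / 2) p.1 p.2.1 p.2.2 := by
    funext i
    rcases lt_or_ge i 6 with hi | hi
    · interval_cases i <;> simp [lT, lsG, vvar, chartH, hh, Fin.sum_univ_six]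
    · simp [lT, lsG, vvar, List.getD_eq_getElem?_getD, hi, show i ≠ 5 by omega]
  have hz : 0 ≤ a * (1 : ℝ) := by linarith
  have hD := domK (b := 1) y hA hz
  have hv := rows_value an den hden L L2 KL gl C P R0 R5 R6 hrows _ v τ a 1 y hy hA
  rw [← hX, hl, ← hrs] at hv
  obtain ⟨z, hzd⟩ : ∃ z, z = zvarK τ a 1 y := ⟨_, rfl⟩
  rw [← hzd] at hD hv
  obtain ⟨gs, hgs⟩ : ∃ gs, gs = gl.map fun G => G.ev z (vvar v) := ⟨_, rfl⟩
  rw [← hgs] at hv
  have hn' : gs.length = gl.length := by simp [hgs]
  obtain ⟨SC, hSC⟩ : ∃ SC, SC = (H.U : ℝ) * 4096 ^ D * 2 ^ D := ⟨_, rfl⟩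
  obtain ⟨Pf, hPf⟩ : ∃ Pf : ℕ → ℕ → ℝ, Pf = fun b q =>
      gsumZ z (vvar v) (sliceL gl (b * n) n) (decode W (sliceL gl (b * n) n).length
        ((boxVE D (partsPS W D (b * n) n rs) x H).getD q 0)) := ⟨_, rfl⟩
  obtain ⟨el, hel⟩ : ∃ el : ℕ → List ℕ, el = fun b =>
      boxElE W 38 D (sliceL gl (b * n) n) (partsPS W D (b * n) n rs) x H := ⟨_, rfl⟩
  have h1 : ∀ b ∈ Finset.range B, 2 * |SC * partsVal (maskS gs (b * n) n)
      (lsG (h / 2) p.1 p.2.1 p.2.2) rs - polyR (Pf b) s t u| ≤
      ∑ c ∈ Finset.range 38, ((el b).getD c 0 : ℝ) * z c ^ 2 := by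
    intro b hb
    rw [Finset.mem_range] at hb
    have h' := hsl b hb
    simp only [sliceOK, Bool.and_eq_true, Nat.ble_eq] at h'
    have hmk5 := mkP_relS W (b * n) n gs rs (by rw [hn']; exact hparts)
    have hmk := sub6_rel (prel W _) hmk5
    obtain ⟨hE, hO⟩ := red_rel (prel W _) hmk D
    rw [← partsPS] at hE hO
    have V := rOps_val
    have hh2 : (hgt p.1 p.2.1 p.2.2) ^ 2 = 1 - 2 * p.1 ^ 2 - 2 * p.2.1 ^ 2 - 20 * p.2.2 ^ 2 :=
      hgt_sq hrad
    have e1 := ev_red V p.1 p.2.1 p.2.2 _ hh2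
      (sub6 rOps (mkP rOps (leafR (maskS gs (b * n) n)) rs)) D
      (by rw [← hmk.length_eq]; exact h'.1.1)
    rw [← hh, ev4_sub6 V, ev6_mkP _ _ rs (fun q hq => by
      simp only [partsOK, List.all_eq_true, Bool.and_eq_true, Nat.blt_eq] at hparts
      exact (hparts q hq).1.1)] at e1
    have hgsb : (sliceL gl (b * n) n).map (fun G => G.ev z (vvar v)) =
        (gs.drop (b * n)).take n := by
      simp [sliceL, hgs, List.map_take, List.map_drop]
    rw [← hgsb] at hE hO
    rw [hp] at e1
    rw [hSC, hPf, hel, hp]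
    exact (hT b hb).2 s t u hs ht hu z (vvar v) h _ (hh ▸ Real.sqrt_nonneg _)
      (by rw [hh, ← hp]; exact hh2) hD.ball _ _ hE hO e1
  obtain ⟨E, hE⟩ : ∃ E, E = ∑ c ∈ Finset.range 38,
      ((∑ b ∈ Finset.range B, (el b).getD c 0 : ℕ) : ℝ) * z c ^ 2 := ⟨_, rfl⟩
  obtain ⟨Q, hQd⟩ : ∃ Q : ℕ → ℝ, Q = fun q => ∑ b ∈ Finset.range B, Pf b q := ⟨_, rfl⟩
  have h2 : 2 * (polyR Q s t u - SC * (40000 * den * X)) ≤ E := by
    have hv' : ∑ b ∈ Finset.range B, partsVal (maskS gs (b * n) n)
        (lsG (h / 2) p.1 p.2.1 p.2.2) rs = 40000 * den * X := by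
      rw [partsVal_slices gs n B (by omega)]
      exact hv
    rw [← hv', hQd, polyR_sum, Finset.mul_sum, ← Finset.sum_sub_distrib, Finset.mul_sum, hE]
    simp only [Nat.cast_sum, Finset.sum_mul]
    rw [Finset.sum_comm]
    exact Finset.sum_le_sum fun b hb =>
      le_trans (mul_le_mul_of_nonneg_left ((le_abs_self _).trans_eq (abs_sub_comm _ _)) two_pos.le)
        (h1 b hb)
  have hc := hk (fun b => boxVE D (partsPS W D (b * n) n rs) x H) el
    (fun b hb => by rw [hel]; exact (hT b hb).1) z (vvar v) hD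
  have hgap := gap_le gap G hG τ a y hy
  rw [← hzd] at hgap
  have hg : 1728 * E + (G : ℝ) * (1 + ∑ k, y k ^ 2) ≤ 2 * (1728 * polyR Q s t u) := by
    have hb : ∀ i < 5, ∀ j < 5, ∀ m < 5,
        1728 * E + (G : ℝ) * (1 + ∑ k, y k ^ 2) ≤ 2 * ctrlR Q i j m := fun i hi j hj m hm => by
      rw [hQd, hPf]
      refine le_trans ?_ (hc i hi j hj m hm)
      rw [hE, Finset.mul_sum]
      refine le_trans (add_le_add le_rfl hgap) (le_of_eq ?_)
      rw [← Finset.sum_add_distrib]
      refine Finset.sum_congr rfl fun c _ => ?_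
      push_cast
      ring
    rw [polyR_eq]
    simp only [Finset.mul_sum]
    calc 1728 * E + (G : ℝ) * (1 + ∑ k, y k ^ 2)
        = ∑ i ∈ Finset.range 5, ∑ j ∈ Finset.range 5, ∑ m ∈ Finset.range 5,
            bW s t u i j m * (1728 * E + (G : ℝ) * (1 + ∑ k, y k ^ 2)) := by
          simp only [← Finset.sum_mul, bW_sum, one_mul]
      _ ≤ _ := Finset.sum_le_sum fun i hi => Finset.sum_le_sum fun j hj =>
        Finset.sum_le_sum fun m hm => by
          refine (mul_le_mul_of_nonneg_left (hb i (Finset.mem_range.1 hi) j (Finset.mem_range.1 hj) m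
            (Finset.mem_range.1 hm)) (bW_nonneg hs ht hu i j m)).trans_eq ?_
          ring
  rw [← hSC] at hδ
  by_contra hcon
  have h3 := mul_lt_mul_of_pos_right (not_le.1 hcon)
    (show 0 < 2 * 1728 * (SC * (40000 * den)) by rw [hSC]; positivity)
  have h4 := mul_le_mul_of_nonneg_right hδ (show (0 : ℝ) ≤ 1 + ∑ k, y k ^ 2 by positivity)
  nlinarith

end Vale.Agent.P098.Exact.Sos6
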