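import Vale.Agent.P098.Exact.Sos6.CheckD
import Vale.Agent.P098.Exact.Sos6.GramLit
import Vale.Agent.P098.Exact.Sos6.Slice

/-!
Check of a box bucket by bucket, with the Gram literals: the per-bucket predicate and the
recombination into what the sliced box theorem asks.
-/

namespace Vale.Agent.P098.Exact.Sos6

open Sos (pk base half npk decode)

/-- Pass an integer on in evaluated form. -/
noncomputable def forceZ {α : Type} (x : ℤ) (f : ℤ → α) : α :=
  Int.rec (motive := fun _ => α) (fun n => forceN n fun n => f (Int.ofNat n))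
    (fun n => forceN n fun n => f (Int.negSucc n)) x

/-- Pass a list of integers on in evaluated form. -/
noncomputable def forceL {α : Type} (L : List ℤ) : (List ℤ → α) → α :=
  List.rec (motive := fun _ => (List ℤ → α) → α) (fun k => k [])
    (fun x _ ih k => forceZ x fun x => ih fun L => k (x :: L)) L

theorem forceZ_eq {α : Type} (x : ℤ) (f : ℤ → α) : forceZ x f = f x := by
  cases x <;> simp [forceZ, forceN_eq]

theorem forceL_eq {α : Type} : ∀ (L : List ℤ) (k : List ℤ → α), forceL L k = k L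
  | [], _ => rfl
  | x :: L, k => by
    show forceZ x (fun x => forceL L fun L => k (x :: L)) = _
    rw [forceZ_eq, forceL_eq L]

/-- The length of a bucket. -/
def bLen (len n o : ℕ) : ℕ := Nat.min n (Nat.sub len o)

/-- Componentwise comparison. -/
noncomputable def leL : List ℕ → List ℕ → Bool :=
  List.rec (motive := fun _ => List ℕ → Bool) (fun _ => true)
    (fun x _ ih L => Nat.ble x (List.headD L 0) && ih (List.tail L))

/-- Componentwise sum. -/
noncomputable def addL : List ℕ → List ℕ → List ℕ :=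
  List.rec (motive := fun _ => List ℕ → List ℕ) (fun B => B)
    (fun a A ih B => List.rec (motive := fun _ => List ℕ) (a :: A)
      (fun b B' _ => Nat.add a b :: ih B') B)

/-- Sum of the listed loads of all buckets. -/
noncomputable def elTot (els : List (List ℕ)) : List ℕ :=
  List.rec (motive := fun _ => List ℕ) [] (fun e _ ih => addL e ih) els

/-- Bounds of `m` consecutive slots, read off the packed list alone. -/
noncomputable def bPkN (W sh : ℕ) : ℕ → ℕ → ℕ :=
  Nat.rec (motive := fun _ => ℕ → ℕ) (fun _ => 0)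
    (fun _ ih D => forceN D fun D =>
      Nat.add (Nat.shiftLeft (dB D) sh) (Nat.shiftLeft (ih (Nat.shiftRight D 48)) W))

/-- Allowance of one bucket in its slots. -/
noncomputable def lPkS (W sh o m : ℕ) : Sq → ℕ → ℕ :=
  List.rec (motive := fun _ => ℕ → ℕ) (fun _ => 0)
    (fun p _ ih E => Nat.add
      (Bool.rec 0 (Nat.shiftLeft (Nat.shiftLeft (qE E) sh) (Nat.mul W (Nat.sub p.1 o)))
        (Nat.ble o p.1 && Nat.blt p.1 (Nat.add o m)))
      (ih (Nat.shiftRight E 64)))

/-- Raw digits of `W0` bits put into slots of `W` bits. -/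
noncomputable def repN (W W0 : ℕ) : ℕ → ℕ → ℕ :=
  Nat.rec (motive := fun _ => ℕ → ℕ) (fun _ => 0)
    (fun _ ih N => forceN N fun N => Nat.add (Nat.mod N (base W0))
      (Nat.shiftLeft (ih (Nat.shiftRight N W0)) W))

/-- Digits `o` to `o + m` of a literal in slots of `W` bits; `Z0`, `H0` are the offsets. -/
noncomputable def repS (W W0 o m Z0 H0 : ℕ) (Z : ℤ) : ℤ :=
  isub (repN W W0 m (Nat.mod (Nat.shiftRight (Int.toNat (iadd Z (Int.ofNat Z0))) (Nat.mul W0 o))
    (Nat.pow 2 (Nat.mul W0 m)))) H0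

/-- Gram literals restricted to a bucket. -/
noncomputable def litS (W W0 len o m : ℕ) (Fs : List ℤ) : List ℤ :=
  forceN (Nat.mul (half W0) (Sos.onesF W0 len)) fun Z0 =>
    forceN (Nat.mul (half W0) (Sos.onesF W m)) fun H0 =>
      List.rec (motive := fun _ => List ℤ) [] (fun F _ ih => repS W W0 o m Z0 H0 F :: ih) Fs

/-- One control on a bucket. -/
noncomputable def ctlS (W c wsum O HO Bp Lp : ℕ) (Fs : List ℤ) (lam : List ℕ) (P : ℤ) : Bool :=
  Nat.blt (Nat.mul 256 (Nat.add (Nat.pow 2 (Nat.add c 18))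
      (Nat.mul (lamSum lam) (Nat.mul 4503599627370496 wsum)))) (Nat.pow 2 W) &&
    forceZ (Int.sub P (fMix lam Fs)) (resD W O HO Bp Lp)

/-- All controls on a bucket. -/
noncomputable def ctlsS (W c wsum O HO Bp Lp : ℕ) (Fs : List ℤ) (plan : List (List ℕ)) :
    List ℤ → Bool :=
  List.rec (motive := fun _ => List ℤ → Bool)
    (fun Ps => List.rec (motive := fun _ => Bool) true (fun _ _ _ => false) Ps)
    (fun lam _ ih Ps => List.rec (motive := fun _ => Bool) false
      (fun P Ps' _ => ctlS W c wsum O HO Bp Lp Fs lam P && ih Ps') Ps) plan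

/-- Check of one bucket of a box. -/
noncomputable def DTbl.checkS (T : DTbl) (n W0 : ℕ) (Fs : List ℤ) (plan : List (List ℕ))
    (sh D E : ℕ) (els : List (List ℕ)) (b : ℕ) (V : List ℤ) (el : List ℕ) : Bool :=
  forceN T.Y.W fun W => forceN T.Y.c fun c => forceN T.Y.n fun len => forceN (Nat.mul b n) fun o =>
    forceN (bLen len n o) fun m => forceN sh fun sh =>
      Nat.beq V.length 125 && Nat.blt (Nat.pow 2 (Nat.add sh 80)) (Nat.pow 2 W) &&
        leL el (els.getD b []) && smallAll W c m V &&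
        forceN (Sos.onesF W m) fun O => forceN (Nat.mul (half W) O) fun HO =>
          forceN (bPkN W sh m (Nat.shiftRight D (Nat.mul 48 o))) fun Bp =>
            forceN (lPkS W sh o m T.sq E) fun Lp =>
              forceL (litS W W0 len o m Fs) fun Ls =>
                ctlsS W c T.Y.wsum O HO Bp Lp Ls plan (ctrls V)

/-! ### Soundness -/

theorem bPk_eq (W sh : ℕ) : ∀ (L : List (List (ℕ × ℕ))) (D : ℕ),
    bPk W sh L D = npk W L.length fun k => dB (Nat.shiftRight D (48 * k)) * 2 ^ sh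
  | [], D => by simp [bPk, npk]
  | cs :: L, D => by
    show Nat.shiftLeft (dB D) sh + Nat.shiftLeft (bPk W sh L (Nat.shiftRight D 48)) W = _
    rw [bPk_eq W sh L, List.length_cons, Sos.npk_succ,
      show Nat.shiftLeft (dB D) sh = dB D * 2 ^ sh from Nat.shiftLeft_eq _ sh,
      show ∀ x, Nat.shiftLeft x W = x * base W from fun x => by simpa using shl_base W x 1]
    simp only [Nat.mul_succ, Nat.add_comm (48 * _) 48]
    simp [Nat.shiftRight_add, mul_comm]

theorem bPkN_eq (W sh : ℕ) : ∀ (L : List (List (ℕ × ℕ))) (D : ℕ),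
    bPkN W sh L.length D = bPk W sh L D
  | [], D => rfl
  | cs :: L, D => by
    show (forceN D fun D => Nat.shiftLeft (dB D) sh +
      Nat.shiftLeft (bPkN W sh L.length (Nat.shiftRight D 48)) W) = _
    rw [forceN_eq, bPkN_eq W sh L]
    rfl

/-- Allowance at a slot. -/
def lF (sh : ℕ) : Sq → ℕ → ℕ → ℕ
  | [], _, _ => 0
  | p :: sq, E, k => (if k = p.1 then qE E * 2 ^ sh else 0) + lF sh sq (Nat.shiftRight E 64) k

theorem lPk_eq (W sh n : ℕ) (gam : List (List Mon)) : ∀ (sq : Sq) (E : ℕ), sqOK n gam sq = true →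
    lPk W sh sq E = npk W n (lF sh sq E)
  | [], E, _ => by simp [lPk, lF, npk]
  | p :: sq, E, h => by
    simp only [sqOK, List.all_cons, Bool.and_eq_true] at h
    have hp := h.1
    simp only [expandP, monsOK, Bool.and_eq_true, Nat.blt_eq, Nat.zero_add] at hp
    show Nat.shiftLeft (Nat.shiftLeft (qE E) sh) (W * p.1) + lPk W sh sq (Nat.shiftRight E 64) = _
    rw [shl_base, show ∀ x, Nat.shiftLeft x sh = x * 2 ^ sh from fun x => Nat.shiftLeft_eq x sh,
      lPk_eq W sh n gam sq _ h.2, ← npk_single W n p.1 _ hp.1.1, npk_add]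
    rfl

theorem lPkS_eq (W sh o m : ℕ) : ∀ (sq : Sq) (E : ℕ),
    lPkS W sh o m sq E = npk W m fun q => lF sh sq E (o + q)
  | [], E => by simp [lPkS, lF, npk]
  | p :: sq, E => by
    show Bool.rec 0 (Nat.shiftLeft (Nat.shiftLeft (qE E) sh) (W * (p.1 - o)))
      (Nat.ble o p.1 && Nat.blt p.1 (o + m)) + lPkS W sh o m sq (Nat.shiftRight E 64) = _
    rw [lPkS_eq W sh o m sq, shl_base,
      show ∀ x, Nat.shiftLeft x sh = x * 2 ^ sh from fun x => Nat.shiftLeft_eq x sh]
    cases e : (Nat.ble o p.1 && Nat.blt p.1 (o + m))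
    · show 0 + _ = _
      rw [Nat.zero_add]
      refine npk_congr _ _ _ _ fun q hq => ?_
      rw [lF, if_neg (by
        intro h
        have h3 : (Nat.ble o p.1 && Nat.blt p.1 (o + m)) = true := by
          simp only [Bool.and_eq_true, Nat.ble_eq, Nat.blt_eq]; omega
        rw [h3] at e; cases e), Nat.zero_add]
    · simp only [Bool.and_eq_true, Nat.ble_eq, Nat.blt_eq] at e
      show qE E * 2 ^ sh * base W ^ (p.1 - o) + _ = _
      rw [← npk_single W m (p.1 - o) _ (by omega), npk_add]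
      refine npk_congr _ _ _ _ fun q hq => ?_
      rw [lF]
      congr 1
      exact if_congr (by omega) rfl rfl

theorem npk_inj (W n : ℕ) (a b : ℕ → ℕ) (ha : ∀ k, k < n → a k < base W)
    (hb : ∀ k, k < n → b k < base W) (h : npk W n a = npk W n b) : ∀ k, k < n → a k = b k := by
  intro k hk
  have h1 := congrArg (ndigs W n) h
  rw [ndigs_npk W n a ha, ndigs_npk W n b hb] at h1
  have := congrArg (fun l => l.getD k 0) h1
  simpa [List.getD_eq_getElem?_getD, hk] using this

theorem leL_spec : ∀ (A L : List ℕ), leL A L = true → ∀ a, A.getD a 0 ≤ L.getD a 0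
  | [], L, _, a => by simp
  | x :: A, L, h, a => by
    change (Nat.ble x (List.headD L 0) && leL A L.tail) = true at h
    simp only [Bool.and_eq_true, Nat.ble_eq] at h
    cases a with
    | zero => cases L <;> simpa using h.1
    | succ a => cases L <;> simpa using leL_spec A _ h.2 a

theorem addL_getD : ∀ (A B : List ℕ) (a : ℕ), (addL A B).getD a 0 = A.getD a 0 + B.getD a 0
  | [], B, a => by simp [addL]
  | x :: A, [], a => by simp [addL]
  | x :: A, y :: B, a => by
    show ((x + y) :: addL A B).getD a 0 = _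
    cases a with
    | zero => simp
    | succ a => simpa using addL_getD A B a

theorem elTot_getD : ∀ (els : List (List ℕ)) (a : ℕ),
    (elTot els).getD a 0 = ∑ b ∈ Finset.range els.length, (els.getD b []).getD a 0
  | [], a => by simp [elTot]
  | e :: els, a => by
    show (addL e (elTot els)).getD a 0 = _
    rw [addL_getD, elTot_getD els a, List.length_cons, Finset.sum_range_succ', add_comm]
    simp

theorem sum_buckets (len n : ℕ) (f : ℕ → ℝ) : ∀ B : ℕ,
    ∑ b ∈ Finset.range B, ∑ q ∈ Finset.range (bLen len n (b * n)), f (b * n + q) =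
      ∑ k ∈ Finset.range (Nat.min len (B * n)), f k
  | 0 => by simp
  | B + 1 => by
    rw [Finset.sum_range_succ, sum_buckets len n f B, Nat.succ_mul]
    rcases Nat.lt_or_ge (B * n) len with h | h
    · rw [show Nat.min len (B * n) = B * n from Nat.min_eq_right h.le,
        show Nat.min len (B * n + n) = B * n + bLen len n (B * n) by
          simp only [bLen, Nat.min_def, Nat.sub_eq]; split_ifs <;> omega, Finset.sum_range_add]
    · rw [show bLen len n (B * n) = 0 by simp only [bLen, Nat.min_def, Nat.sub_eq]; split_ifs <;> omega,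
        Finset.sum_range_zero, add_zero,
        show Nat.min len (B * n + n) = Nat.min len (B * n) by
          simp only [Nat.min_def]; split_ifs <;> omega]

/-- The controls of small targets of any slot list, digit by digit. -/
theorem ctrl_digitsL (W c n : ℕ) (gl : List Mon) (hW : 0 < W) (hcW : c + 26 < W) (hgl : gl.length = n) (V : List ℤ) (hlen' : V.length = 125)
    (hsm : smallAll W c n V = true) (z v : ℕ → ℝ) (i j k : ℕ) (hi : i < 5) (hj : j < 5)
    (hk : k < 5) :
    ∃ pc : ℕ → ℤ, (ctrls V).getD (25 * i + 5 * j + k) 0 = pk W n pc ∧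
      (∀ q, |pc q| ≤ 2 ^ (c + 18)) ∧
      ctrlR (fun m => gsumZ z v gl (Sos.decode W gl.length (V.getD m 0))) i j k =
        ∑ q ∈ Finset.range n, (pc q : ℝ) * (gl.getD q ⟨0, 0, []⟩).ev z v := by
  have hVm : ∀ m, ∃ f : ℕ → ℤ, V.getD m 0 = pk W n f ∧ ∀ q, |f q| ≤ 2 ^ c := by
    intro m
    rcases Nat.lt_or_ge m V.length with hm | hm
    · exact smallP_spec W c n hW (by omega) _
        (smallAll_mem _ _ _ V hsm _ (List.getD_eq_getElem V 0 hm ▸ List.getElem_mem hm))
    · exact ⟨fun _ => 0, by rw [List.getD_eq_default _ _ hm]; simp [pk], fun _ => by simp⟩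
  choose f hf1 hf2 using hVm
  have hdec : ∀ m, gsumZ z v gl (Sos.decode W gl.length (V.getD m 0)) =
      ∑ q ∈ Finset.range n, (f m q : ℝ) * (gl.getD q ⟨0, 0, []⟩).ev z v := by
    intro m
    rw [gsumZ, gsum_range z v gl _ (by simp [Sos.decode_length]), hgl]
    refine Finset.sum_congr rfl fun q hq => ?_
    have hq' := Finset.mem_range.1 hq
    have hc' : ∀ (L : List ℤ) (t : ℕ), (L.map fun y : ℤ => (y : ℝ)).getD t 0 = ((L.getD t 0 : ℤ) : ℝ) :=
      fun L t => by simp [List.getD_eq_getElem?_getD]; cases L[t]? <;> simp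
    rw [hc', hf1, Sos.decode_getD W hW n (f m) (fun p _ => lt_of_le_of_lt (hf2 m p) ?_) q hq',
      List.getD_eq_getElem _ _ (by simpa [hgl] using hq'), List.getElem_map,
      List.getD_eq_getElem _ _ (by omega)]
    have : (2 : ℕ) ^ c < half W := Nat.pow_lt_pow_right (by norm_num) (by omega)
    exact_mod_cast this
  obtain ⟨pc, hpc⟩ : ∃ pc : ℕ → ℤ, pc = fun q => ∑ p ∈ Finset.range 5, ∑ s ∈ Finset.range 5,
      ∑ t ∈ Finset.range 5, bM i p * bM j s * bM k t * f (25 * p + 5 * s + t) q := ⟨_, rfl⟩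
  have hP : (ctrls V).getD (25 * i + 5 * j + k) 0 = pk W n pc := by
    rw [ctrls_spec hlen' hi hj hk, hpc]
    simp only [hf1, pk, Finset.mul_sum, Finset.sum_mul]
    rw [Finset.sum_comm (s := Finset.range n)]
    refine Finset.sum_congr rfl fun p _ => ?_
    rw [Finset.sum_comm (s := Finset.range n)]
    refine Finset.sum_congr rfl fun s _ => ?_
    rw [Finset.sum_comm (s := Finset.range n)]
    exact Finset.sum_congr rfl fun t _ => Finset.sum_congr rfl fun q _ => by ring
  have hpcb : ∀ q, |pc q| ≤ 2 ^ (c + 18) := by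
    intro q
    rw [hpc]
    refine le_trans ?_ (show (5 * (5 * (5 * (1728 * 2 ^ c))) : ℤ) ≤ 2 ^ (c + 18) by
      rw [pow_add]; nlinarith [pow_pos (show (0 : ℤ) < 2 by norm_num) c])
    refine (Finset.abs_sum_le_sum_abs _ _).trans ?_
    refine (Finset.sum_le_card_nsmul _ _ (5 * (5 * (1728 * 2 ^ c))) fun p _ => ?_).trans (by simp)
    refine (Finset.abs_sum_le_sum_abs _ _).trans ?_
    refine (Finset.sum_le_card_nsmul _ _ (5 * (1728 * 2 ^ c)) fun s _ => ?_).trans (by simp)
    refine (Finset.abs_sum_le_sum_abs _ _).trans ?_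
    refine (Finset.sum_le_card_nsmul _ _ (1728 * 2 ^ c) fun t _ => ?_).trans (by simp)
    rw [abs_mul, abs_mul, abs_mul, show (1728 : ℤ) = 12 * 12 * 12 by norm_num]
    exact mul_le_mul (mul_le_mul (mul_le_mul (bM_abs i p) (bM_abs j s) (abs_nonneg _) (by norm_num))
      (bM_abs k t) (abs_nonneg _) (by norm_num)) (hf2 _ q) (abs_nonneg _) (by norm_num)
  refine ⟨pc, hP, hpcb, ?_⟩
  rw [hpc]
  simp only [ctrlR, hdec, Int.cast_sum, Int.cast_mul, Finset.mul_sum, Finset.sum_mul]
  rw [Finset.sum_comm (s := Finset.range n)]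
  refine Finset.sum_congr rfl fun p _ => ?_
  rw [Finset.sum_comm (s := Finset.range n)]
  refine Finset.sum_congr rfl fun s _ => ?_
  rw [Finset.sum_comm (s := Finset.range n)]
  exact Finset.sum_congr rfl fun t _ => Finset.sum_congr rfl fun q _ => by ring

/-- A mixture of literals. -/
noncomputable def mixD (W0 len : ℕ) : List ℕ → List ℤ → ℕ → ℤ
  | l :: lam, F :: Fs, k => (l : ℤ) * (decode W0 len F).getD k 0 + mixD W0 len lam Fs k
  | _, _, _ => 0

theorem repN_pk (W W0 : ℕ) : ∀ m N : ℕ,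
    ((repN W W0 m N : ℕ) : ℤ) = pk W m fun k => Sos.dig W0 N k + half W0
  | 0, N => by simp [repN, pk]
  | m + 1, N => by
    show ((forceN N fun N => Nat.add (Nat.mod N (base W0))
      (Nat.shiftLeft (repN W W0 m (Nat.shiftRight N W0)) W) : ℕ) : ℤ) = _
    rw [forceN_eq, Sos.pk_succ, show ∀ x, Nat.shiftRight x W0 = x / base W0 from fun x =>
      Nat.shiftRight_eq_div_pow x W0, show ∀ x, Nat.shiftLeft x W = x * base W from fun x =>
      Nat.shiftLeft_eq x W]
    show ((N % base W0 + repN W W0 m (N / base W0) * base W : ℕ) : ℤ) = _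
    push_cast
    rw [repN_pk W W0 m (N / base W0)]
    simp [Sos.dig, pow_succ', Nat.div_div_eq_div_mul, mul_comm]

theorem repS_eq (W W0 len o m : ℕ) (hW : 0 < W) (hW0 : 0 < W0) (ho : o + m ≤ len) (F : ℤ) :
    repS W W0 o m (Nat.mul (half W0) (Sos.onesF W0 len)) (Nat.mul (half W0) (Sos.onesF W m)) F =
      pk W m fun q => (decode W0 len F).getD (o + q) 0 := by
  rw [repS, isub_eq, iadd_eq, repN_pk, Sos.onesF_eq W hW, show ((Nat.mul (half W0) (Sos.ones W m) : ℕ) : ℤ) =
    (half W0 : ℤ) * (Sos.ones W m : ℤ) from Nat.cast_mul _ _, Sos.ones_eq, Finset.mul_sum, pk, ← Finset.sum_sub_distrib]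
  refine Finset.sum_congr rfl fun q hq => ?_
  have hq' := Finset.mem_range.1 hq
  show _ = (decode W0 len F).getD (o + q) 0 * (base W : ℤ) ^ q
  rw [← sliceDec_getD W0 len o m hW0 F q hq' ho, sliceDec, Sos.unpk_getD W0 m _ q hq', ← sub_mul,
    add_sub_cancel_right]
  congr 1
  show Sos.dig W0 (Nat.shiftRight (Int.toNat (Int.add F (Int.ofNat (Nat.mul (half W0)
    (Sos.onesF W0 len))))) (Nat.mul W0 o) % 2 ^ (W0 * m)) q = _
  obtain ⟨r, rfl⟩ : ∃ r, m = q + (r + 1) := ⟨m - (q + 1), by omega⟩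
  simp only [Sos.dig]
  rw [pow_mul, show (2 : ℕ) ^ W0 = base W0 from rfl, pow_add,
    Nat.mod_mul_right_div_self, Nat.mod_mod_of_dvd _ (dvd_pow_self _ (Nat.succ_ne_zero r))]

theorem fMix_litS (W W0 len o m : ℕ) (hW : 0 < W) (hW0 : 0 < W0) (ho : o + m ≤ len) :
    ∀ (lam : List ℕ) (Fs : List ℤ), fMix lam (litS W W0 len o m Fs) =
      pk W m fun q => mixD W0 len lam Fs (o + q)
  | [], Fs => by simp [fMix, mixD, pk]
  | l :: lam, [] => by simp [fMix, litS, forceN_eq, mixD, pk]
  | l :: lam, F :: Fs => by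
    have e := repS_eq W W0 len o m hW hW0 ho F
    have ih := fMix_litS W W0 len o m hW hW0 ho lam Fs
    rw [show litS W W0 len o m (F :: Fs) = repS W W0 o m (Nat.mul (half W0) (Sos.onesF W0 len))
      (Nat.mul (half W0) (Sos.onesF W m)) F :: litS W W0 len o m Fs by simp [litS, forceN_eq], e]
    cases l with
    | zero =>
      show fMix lam (litS W W0 len o m Fs) = _
      rw [ih]
      simp [mixD]
    | succ l =>
      show ((l + 1 : ℕ) : ℤ) * (pk W m fun q => (decode W0 len F).getD (o + q) 0) +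
        fMix lam (litS W W0 len o m Fs) = _
      rw [ih]
      simp [pk, mixD, Finset.mul_sum, ← Finset.sum_add_distrib, add_mul, mul_assoc]

theorem mixD_props (W0 len : ℕ) (g : ℕ → ℝ) (M : ℤ) (hM : 0 ≤ M) :
    ∀ (lam : List ℕ) (Fs : List ℤ),
      (∀ F ∈ Fs, 0 ≤ ∑ k ∈ Finset.range len, ((decode W0 len F).getD k 0 : ℝ) * g k ∧
        ∀ k, |(decode W0 len F).getD k 0| ≤ M) →
      0 ≤ ∑ k ∈ Finset.range len, (mixD W0 len lam Fs k : ℝ) * g k ∧
        ∀ k, |mixD W0 len lam Fs k| ≤ (lamSum lam : ℕ) * M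
  | [], Fs, _ => ⟨by simp [mixD], fun k => by simp [mixD]; positivity⟩
  | l :: lam, [], _ => ⟨by simp [mixD], fun k => by simp [mixD]; positivity⟩
  | l :: lam, F :: Fs, h => by
    obtain ⟨h1, h2⟩ := mixD_props W0 len g M hM lam Fs fun G hG => h G (List.mem_cons_of_mem _ hG)
    obtain ⟨g1, g2⟩ := h F List.mem_cons_self
    refine ⟨?_, fun k => ?_⟩
    · simp only [mixD, Int.cast_add, Int.cast_mul, Int.cast_natCast, add_mul, mul_assoc,
        Finset.sum_add_distrib, ← Finset.mul_sum]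
      positivity
    · show |(l : ℤ) * _ + _| ≤ ((l + lamSum lam : ℕ) : ℤ) * M
      refine (abs_add_le _ _).trans ?_
      rw [abs_mul, Nat.abs_cast, Nat.cast_add, add_mul]
      exact add_le_add (mul_le_mul_of_nonneg_left (g2 k) (by positivity)) (h2 k)

theorem ctlsS_spec (W c wsum O HO Bp Lp : ℕ) (Fs : List ℤ) :
    ∀ (plan : List (List ℕ)) (Ps : List ℤ), ctlsS W c wsum O HO Bp Lp Fs plan Ps = true →
      ∀ m, m < Ps.length → ctlS W c wsum O HO Bp Lp Fs (plan.getD m []) (Ps.getD m 0) = true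
  | [], [], _, m, hm => by simp at hm
  | [], _ :: _, h, _, _ => by simp [ctlsS] at h
  | _ :: _, [], _, m, hm => by simp at hm
  | lam :: plan, P :: Ps, h, m, hm => by
    change (ctlS W c wsum O HO Bp Lp Fs lam P && ctlsS W c wsum O HO Bp Lp Fs plan Ps) = true at h
    rw [Bool.and_eq_true] at h
    cases m with
    | zero => simpa using h.1
    | succ m => simpa using ctlsS_spec W c wsum O HO Bp Lp Fs plan Ps h.2 m (by simpa using hm)

theorem sq_small (T : DTbl) (hT : T.Ok) : T.sq.length ≤ 16384 := by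
  have h := hT.sizes
  simp only [Bool.and_eq_true, Nat.ble_eq] at h
  exact h.1.2

theorem lF_le (sh : ℕ) : ∀ (sq : Sq) (E k : ℕ), lF sh sq E k ≤ sq.length * 2 ^ (48 + sh)
  | [], _, _ => by simp [lF]
  | p :: sq, E, k => by
    have ih := lF_le sh sq (Nat.shiftRight E 64) k
    have h : qE E * 2 ^ sh ≤ 2 ^ (48 + sh) := by
      rw [pow_add]
      exact Nat.mul_le_mul_right _ (Nat.mod_lt _ (by norm_num : 0 < 281474976710656)).le
    rw [lF, List.length_cons, Nat.add_mul, one_mul]
    split_ifs <;> omega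

theorem lF_lt (W sh : ℕ) (sq : Sq) (E k : ℕ) (hs : sq.length ≤ 16384) (hW : sh + 80 < W) :
    lF sh sq E k < base W := by
  refine lt_of_le_of_lt ((lF_le sh sq E k).trans (Nat.mul_le_mul_right _ hs)) ?_
  rw [show (16384 : ℕ) = 2 ^ 14 by norm_num, ← pow_add]
  exact Nat.pow_lt_pow_right (by norm_num) (by omega)

/-- One checked bucket of one control. -/
theorem bucket_sound (W c wsum m : ℕ) (V : List ℤ) (gl : List Mon) (hgl : gl.length = m)
    (hlen : V.length = 125) (hsm : smallAll W c m V = true) (sh : ℕ)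
    (hsh : 2 ^ (sh + 80) < 2 ^ W) (Bq Lq : ℕ → ℕ) (hBL : ∀ q, Bq q + 1024 * Lq q < 2 ^ (sh + 73))
    (Fs : List ℤ) (plan : List (List ℕ))
    (h : ctlsS W c wsum (Sos.onesF W m) (Nat.mul (half W) (Sos.onesF W m)) (npk W m Bq)
      (npk W m Lq) Fs plan (ctrls V) = true)
    (i j k : ℕ) (hi : i < 5) (hj : j < 5) (hk : k < 5) (G : ℕ → ℤ)
    (hG : fMix (plan.getD (25 * i + 5 * j + k) []) Fs = pk W m G)
    (hGb : ∀ q, |G q| ≤ (lamSum (plan.getD (25 * i + 5 * j + k) []) : ℕ) *
      (4503599627370496 * (wsum : ℤ))) (z v : ℕ → ℝ)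
    (hLg : ∀ q, q < m → Lq q ≠ 0 → 0 ≤ (gl.getD q ⟨0, 0, []⟩).ev z v) :
    ∑ q ∈ Finset.range m, ((Lq q : ℝ) * (gl.getD q ⟨0, 0, []⟩).ev z v -
        (Bq q : ℝ) * |(gl.getD q ⟨0, 0, []⟩).ev z v| + (G q : ℝ) * (gl.getD q ⟨0, 0, []⟩).ev z v) ≤
      ctrlR (fun p => gsumZ z v gl (decode W gl.length (V.getD p 0))) i j k := by
  have hc := ctlsS_spec W c wsum _ _ _ _ Fs plan _ h (25 * i + 5 * j + k)
    (by rw [ctrls_length hlen]; omega)
  simp only [ctlS, forceZ_eq, Bool.and_eq_true, Nat.blt_eq,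
    show ∀ a b, Nat.pow a b = a ^ b from fun _ _ => rfl, Nat.add_eq, Nat.mul_eq] at hc
  obtain ⟨hbd, hres⟩ := hc
  have hcW : c + 26 < W := by
    have : 2 ^ (c + 26) < 2 ^ W := by
      refine lt_of_le_of_lt ?_ hbd
      rw [show c + 26 = 8 + (c + 18) by ring, pow_add]
      exact Nat.mul_le_mul_left 256 (Nat.le_add_right _ _)
    exact (Nat.pow_lt_pow_iff_right (by norm_num)).1 this
  obtain ⟨pc, hP, hpcb, hctrl⟩ :=
    ctrl_digitsL W c m gl (by omega) hcW hgl V hlen hsm z v i j k hi hj hk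
  have hR : Int.sub ((ctrls V).getD (25 * i + 5 * j + k) 0)
      (fMix (plan.getD (25 * i + 5 * j + k) []) Fs) = pk W m fun q => pc q - G q := by
    rw [hP, hG, show ∀ x y : ℤ, Int.sub x y = x - y from fun _ _ => rfl]
    simp [pk, sub_mul, Finset.sum_sub_distrib]
  rw [hR] at hres
  have hbig : ∀ q, |pc q - G q| + ((Bq q : ℤ) + 1024 * Lq q) < half W := by
    intro q
    have h1 : |pc q - G q| ≤ ((2 ^ (c + 18) +
        lamSum (plan.getD (25 * i + 5 * j + k) []) * (4503599627370496 * wsum) : ℕ) : ℤ) := by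
      refine (abs_sub _ _).trans ?_
      push_cast
      exact add_le_add (hpcb q) ((hGb q).trans_eq (by norm_num))
    have h2 := hBL q
    have h3 : 2 ^ W = 2 * half W := by
      rw [half, ← pow_succ']; congr 1; omega
    have h4 : 2 ^ (sh + 80) = 128 * 2 ^ (sh + 73) := by
      rw [show sh + 80 = 7 + (sh + 73) by ring, pow_add]; norm_num
    omega
  have hr := resD_sound W m (by omega) (fun q => (gl.getD q ⟨0, 0, []⟩).ev z v) _ Bq Lq hbig
    hLg hres
  rw [hctrl]
  simp only [Int.cast_sub, sub_mul, Finset.sum_sub_distrib] at hr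
  simp only [Finset.sum_add_distrib, Finset.sum_sub_distrib]
  linarith

/-- **The bucket checks deliver what the sliced box theorem asks.** -/
theorem DTbl.ctrlSoundS (T : DTbl) (hT : T.Ok) (hN : T.Y.N = 38) (n B W0 b0 : ℕ)
    (hlen : T.Y.n ≤ B * n) (hlit : T.Y.litOK W0 b0 = true) (facs : List (List ℕ × ℤ))
    (hfac : ∀ p ∈ facs, T.Y.facOK W0 b0 p.1 p.2 = true) (plan : List (List ℕ)) (sh D E : ℕ)
    (els : List (List ℕ)) (hels : els.length = B) (hpay : T.payOK sh D E (elTot els) = true) :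
    CtrlSoundS T.Y.W T.Y.gl n B T.Y.gapAt
      (T.checkS n W0 (facs.map Prod.snd) plan sh D E els) := by
  intro V el hk z v hD i hi j hj m hm
  have hT' := hT
  obtain ⟨⟨hlists, -, -, -⟩, hsqs, -, -, hsz⟩ := hT
  simp only [Tbl.listsOK, Bool.and_eq_true, decide_eq_true_eq] at hlists
  obtain ⟨⟨⟨hgl, -⟩, -⟩, hsame⟩ := hlists
  simp only [Bool.and_eq_true, decide_eq_true_eq, Nat.ble_eq] at hsz
  obtain ⟨⟨⟨⟨hspl, -⟩, -⟩, -⟩, -⟩ := hsz
  obtain ⟨g, hg⟩ : ∃ g : ℕ → ℝ, g = fun k => (T.Y.gl.getD k ⟨0, 0, []⟩).ev z v := ⟨_, rfl⟩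
  have hmon : ∀ q, q < T.Y.n → (monAt T.Y.gam q).ev z v = g q := fun q hq => by
    rw [hg]
    exact sameMon_sound (by
      simpa using sameFrom6_spec T.Y.gam T.Y.gl 0 hsame q (by rw [hgl]; exact hq)) z v
  obtain ⟨Bf, Lf, hB, hL, hBL, hLnn, hval⟩ := payOK_sound T hT' sh D E (elTot els) hpay z v
  have hv1 : ∑ q ∈ Finset.range T.Y.n, (Bf q : ℝ) * |(monAt T.Y.gam q).ev z v| =
      ∑ q ∈ Finset.range T.Y.n, (Bf q : ℝ) * |g q| :=
    Finset.sum_congr rfl fun q hq => by rw [hmon q (Finset.mem_range.1 hq)]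
  have hv2 : ∑ q ∈ Finset.range T.Y.n, (Lf q : ℝ) * (monAt T.Y.gam q).ev z v =
      ∑ q ∈ Finset.range T.Y.n, (Lf q : ℝ) * g q :=
    Finset.sum_congr rfl fun q hq => by rw [hmon q (Finset.mem_range.1 hq)]
  rw [hv1, hv2] at hval
  obtain ⟨lam, hlam⟩ : ∃ lam, lam = plan.getD (25 * i + 5 * j + m) [] := ⟨_, rfl⟩
  have hW0 : 0 < W0 := by
    simp only [Tbl.litOK, Bool.and_eq_true, Nat.blt_eq] at hlit
    exact hlit.1.2
  obtain ⟨hGpos, hGb⟩ := mixD_props W0 T.Y.n g (4503599627370496 * (T.Y.wsum : ℤ))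
    (by positivity) lam (facs.map Prod.snd) (fun F hF => by
      obtain ⟨p, hp, rfl⟩ := List.mem_map.1 hF
      obtain ⟨h1, h2⟩ := T.Y.facOK_sound hT'.base hlit (hfac p hp) z v hD
      rw [gsumZ, gsum_range z v T.Y.gl _ (by simp [Sos.decode_length]), hgl] at h1
      rw [hgl] at h2
      refine ⟨le_of_le_of_eq h1 (Finset.sum_congr rfl fun k hk => ?_), fun k => ?_⟩
      · have hk' := Finset.mem_range.1 hk
        rw [hg, List.getD_eq_getElem _ _ (by
            rw [List.length_map, Sos.decode_length]; exact hk'),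
          List.getElem_map, ← List.getD_eq_getElem _ (0 : ℤ) (lt_of_lt_of_eq hk' (Sos.decode_length _ _ _).symm),
          List.getD_eq_getElem (T.Y.gl.map fun G => G.ev z v) _ (by simpa [hgl] using hk'), List.getElem_map,
          ← List.getD_eq_getElem _ (⟨0, 0, []⟩ : Mon) (by simpa [hgl] using hk')]
      · rcases Nat.lt_or_ge k T.Y.n with hk' | hk'
        · exact h2 k hk'
        · rw [List.getD_eq_default _ _ (le_of_eq_of_le (Sos.decode_length _ _ _) hk')]
          simp)
  have key : ∀ b ∈ Finset.range B,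
      ∑ q ∈ Finset.range (bLen T.Y.n n (b * n)), ((Lf (b * n + q) : ℝ) * g (b * n + q) -
        (Bf (b * n + q) : ℝ) * |g (b * n + q)| +
        (mixD W0 T.Y.n lam (facs.map Prod.snd) (b * n + q) : ℝ) * g (b * n + q)) ≤
      ctrlR (fun p => gsumZ z v (sliceL T.Y.gl (b * n) n)
        (decode T.Y.W (sliceL T.Y.gl (b * n) n).length ((V b).getD p 0))) i j m := by
    intro b hb
    rw [Finset.mem_range] at hb
    have hc := hk b hb
    simp only [DTbl.checkS, forceN_eq, forceL_eq, Bool.and_eq_true, Nat.blt_eq,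
      show ∀ a b, Nat.pow a b = a ^ b from fun _ _ => rfl, Nat.add_eq] at hc
    obtain ⟨⟨⟨⟨hl, hsh⟩, -⟩, hsm⟩, hctl⟩ := hc
    obtain ⟨o, ho⟩ : ∃ o, o = b * n := ⟨_, rfl⟩
    simp only [Nat.mul_eq, ← ho] at hsm hctl ⊢
    obtain ⟨l, hl'⟩ : ∃ l, l = bLen T.Y.n n o := ⟨_, rfl⟩
    rw [← hl'] at hsm hctl ⊢
    have hsl : (sliceL T.Y.gl o n).length = l := by
      simp [sliceL, hgl, hl', bLen]
    have hol : 0 < l → o + l ≤ T.Y.n := fun hp => by
      simp only [hl', bLen, Nat.min_def, Nat.sub_eq] at hp ⊢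
      split_ifs at hp ⊢ <;> omega
    have hget : ∀ q, q < l → (sliceL T.Y.gl o n).getD q ⟨0, 0, []⟩ =
        T.Y.gl.getD (o + q) ⟨0, 0, []⟩ := fun q hq => by
      have hqn : q < n := by
        simp only [hl', bLen, Nat.min_def, Nat.sub_eq] at hq
        split_ifs at hq <;> omega
      simp [sliceL, List.getD_eq_getElem?_getD, hqn]
    rcases Nat.eq_zero_or_pos l with h0 | hpos
    · simp only [h0, Finset.sum_range_zero]
      have : sliceL T.Y.gl o n = [] := List.length_eq_zero_iff.1 (hsl.trans h0)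
      simp [this, gsumZ, gsum, ctrlR]
    have hWsh : sh + 80 < T.Y.W := (Nat.pow_lt_pow_iff_right (by norm_num)).1 hsh
    have hbd : ∀ q, Bf q + Lf q < base T.Y.W := fun q =>
      lt_trans (lt_of_le_of_lt (by omega) (hBL q)) (Nat.pow_lt_pow_right (by norm_num) (by omega))
    have hBsl : bPkN T.Y.W sh l (Nat.shiftRight D (48 * o)) =
        npk T.Y.W l fun q => Bf (o + q) := by
      have hlenS : ((T.spl.drop o).take l).length = l := by
        simp [hspl]; have := hol hpos; omega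
      conv_lhs => rw [← hlenS]
      rw [bPkN_eq, bPk_eq, hlenS]
      refine npk_congr _ _ _ _ fun q hq => ?_
      rw [bPk_eq, hspl] at hB
      have hdB : ∀ x, dB x * 2 ^ sh < base T.Y.W := fun x => by
        refine lt_of_lt_of_le (Nat.mul_lt_mul_of_pos_right (Nat.mod_lt _ (by norm_num : 0 < 4294967296))
          (Nat.two_pow_pos sh)) ?_
        rw [show (4294967296 : ℕ) = 2 ^ 32 by norm_num, ← pow_add]
        exact Nat.pow_le_pow_right (by norm_num) (by omega)
      have := npk_inj T.Y.W T.Y.n _ _ (fun k _ => hdB _)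
        (fun k _ => lt_of_le_of_lt (Nat.le_add_right _ _) (hbd k)) hB (o + q)
        (by have := hol hpos; omega)
      rw [← this, Nat.mul_add]
      simp [Nat.shiftRight_add]
    have hLsl : lPkS T.Y.W sh o l T.sq E = npk T.Y.W l fun q => Lf (o + q) := by
      rw [lPkS_eq]
      refine npk_congr _ _ _ _ fun q hq => ?_
      rw [lPk_eq T.Y.W sh T.Y.n T.Y.gam T.sq E hsqs] at hL
      exact npk_inj T.Y.W T.Y.n _ _ (fun k _ => lF_lt T.Y.W sh T.sq E k (sq_small T hT') (by omega))
        (fun k _ => lt_of_le_of_lt (Nat.le_add_left _ _) (hbd k)) hL (o + q)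
        (by have := hol hpos; omega)
    rw [hBsl, hLsl] at hctl
    have hbs := bucket_sound T.Y.W T.Y.c T.Y.wsum l (V b) (sliceL T.Y.gl o n) hsl
      (Nat.eq_of_beq_eq_true hl) hsm sh hsh (fun q => Bf (o + q)) (fun q => Lf (o + q))
      (fun q => hBL _) _ plan hctl i j m hi hj hm
      (fun q => mixD W0 T.Y.n lam (facs.map Prod.snd) (o + q))
      (by rw [← hlam]; exact fMix_litS T.Y.W W0 T.Y.n o l (by omega) hW0 (hol hpos) lam _)
      (fun q => by rw [← hlam]; exact hGb _) z v (fun q hq hne => by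
        rw [hget q hq]
        have h := hLnn (o + q) hne
        rw [hmon (o + q) (by have := hol hpos; omega), hg] at h
        exact h)
    refine le_trans (le_of_eq (Finset.sum_congr rfl fun q hq => ?_)) hbs
    rw [hget q (Finset.mem_range.1 hq), hg]
  have hsum := Finset.sum_le_sum key
  rw [sum_buckets T.Y.n n (fun k => (Lf k : ℝ) * g k - (Bf k : ℝ) * |g k| +
    (mixD W0 T.Y.n lam (facs.map Prod.snd) k : ℝ) * g k) B,
    show Nat.min T.Y.n (B * n) = T.Y.n from Nat.min_eq_left hlen,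
    Finset.sum_add_distrib, Finset.sum_sub_distrib] at hsum
  have hsplit : ctrlR (fun p => ∑ b ∈ Finset.range B, gsumZ z v (sliceL T.Y.gl (b * n) n)
      (decode T.Y.W (sliceL T.Y.gl (b * n) n).length ((V b).getD p 0))) i j m =
      ∑ b ∈ Finset.range B, ctrlR (fun p => gsumZ z v (sliceL T.Y.gl (b * n) n)
        (decode T.Y.W (sliceL T.Y.gl (b * n) n).length ((V b).getD p 0))) i j m := by
    simp only [ctrlR, Finset.mul_sum]
    conv_rhs => rw [Finset.sum_comm]; arg 2; ext p; rw [Finset.sum_comm]; arg 2; ext q; rw [Finset.sum_comm]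
  rw [hsplit]
  have hel : ∀ c, ∑ b ∈ Finset.range B, (el b).getD c 0 ≤ (elTot els).getD c 0 := fun c => by
    rw [elTot_getD, hels]
    refine Finset.sum_le_sum fun b hb => ?_
    have hc := hk b (Finset.mem_range.1 hb)
    simp only [DTbl.checkS, forceN_eq, forceL_eq, Bool.and_eq_true] at hc
    exact leL_spec _ _ hc.1.1.2 c
  rw [hN] at hval
  have hlhs : 16 * ∑ c ∈ Finset.range 38,
      ((1728 * (∑ b ∈ Finset.range B, (el b).getD c 0) + T.Y.gapAt c : ℕ) : ℝ) * z c ^ 2 ≤
      ∑ c ∈ Finset.range 38,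
        ((16 * (1728 * (elTot els).getD c 0 + T.Y.gapAt c) : ℕ) : ℝ) * z c ^ 2 := by
    rw [Finset.mul_sum]
    refine Finset.sum_le_sum fun c _ => ?_
    rw [← mul_assoc]
    refine mul_le_mul_of_nonneg_right ?_ (sq_nonneg _)
    have := hel c
    push_cast
    have h' : ((∑ b ∈ Finset.range B, (el b).getD c 0 : ℕ) : ℝ) ≤ ((elTot els).getD c 0 : ℕ) := by
      exact_mod_cast this
    push_cast at h'
    linarith
  linarith

/-- **A box whose bucket checks succeed is good.** -/
theorem goodK_of_checkS (an : ℤ) (den : ℕ) (hden : 0 < den) (L L2 : List ITerm) (KL : List KI)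
    (T : DTbl) (hT : T.Ok) (hN : T.Y.N = 38) (C : ℕ) (P : ℕ → ℕ) (R0 R5 R6 : Rows)
    (hrows : rowsChk an den L L2 KL T.Y.gl C P R0 R5 R6) (D n B W0 b0 : ℕ) (hW : 0 < T.Y.W)
    (hparts : partsOK T.Y.gl.length (partsOf P R0 R5 R6) = true) (hlen : T.Y.n ≤ B * n)
    (hsl : ∀ b, b < B → sliceOK T.Y.W D (b * n) n (partsOf P R0 R5 R6) = true)
    (hlit : T.Y.litOK W0 b0 = true) (G : ℕ)
    (hG : ((List.range 6).all fun n => Nat.ble G (T.Y.gapAt (31 + n))) = true) (δ : ℝ) (x : Box)
    (H : HData) (hU : 0 < H.U) (facs : List (List ℕ × ℤ))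
    (hfac : ∀ p ∈ facs, T.Y.facOK W0 b0 p.1 p.2 = true) (plan : List (List ℕ)) (sh DD EE : ℕ)
    (els : List (List ℕ)) (hels : els.length = B) (hpay : T.payOK sh DD EE (elTot els) = true)
    (hδ : δ * (2 * 1728 * ((H.U : ℝ) * 4096 ^ D * 2 ^ D * (40000 * den))) ≤ G)
    (hB : ∀ b, b < B → boxS T.Y.W D T.Y.gl (b * n) n (partsOf P R0 R5 R6) x H
      (T.checkS n W0 (facs.map Prod.snd) plan sh DD EE els b) = true) :
    x.GoodK ((an : ℝ) / 100) (L.map (ITerm.term den)) (L2.map (ITerm.term den))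
      (KL.map (KI.term den)) δ := by
  have hgl : T.Y.gl.length = T.Y.n := by
    have h := hT.base.lists
    simp only [Tbl.listsOK, Bool.and_eq_true, decide_eq_true_eq] at h
    exact h.1.1.1
  refine goodK_of_slices an den hden L L2 KL T.Y.gl C P R0 R5 R6 hrows T.Y.W D n B hW hparts
    (hgl.trans_le hlen) hsl _ T.Y.gapAt
    (T.ctrlSoundS hT hN n B W0 b0 hlen hlit facs hfac plan sh DD EE els hels hpay) G
    (fun c h1 h2 => ?_) δ x H hU hδ hB
  simp only [List.all_eq_true, List.mem_range, Nat.ble_eq] at hG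
  have := hG (c - 31) (by omega)
  rwa [Nat.add_sub_cancel' h1] at this

end Vale.Agent.P098.Exact.Sos6
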