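import Vale.Agent.P098.Exact.Sos6.Expand
import Vale.Agent.P098.Exact.Sos6.Target
import Vale.Agent.P098.Exact.Sos6.Assembly

/-!
From checked boxes to the interior inequality of two flux tables and a density table, with the
auxiliary coordinates.
-/

noncomputable section

namespace Vale.Agent.P098.Exact.Sos6

open Sos (decode)

/-- Per-box conclusion with auxiliary coordinates, the one of the normal axis being zero. -/
def Box.GoodK (al : ℝ) (L L2 : List Term) (KL : List KTerm) (δ : ℝ) (x : Box) : Prop :=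
  ∀ (s t u : ℝ), |s| ≤ 1 → |t| ≤ 1 → |u| ≤ 1 →
    ∀ (v : Fin 6 → ℝ) (τ : Fin 6 → Fin 6 → Fin 6 → ℝ) (y : Fin 6 → ℝ) (a : ℝ), y 5 = 0 →
      Admissible (chartH (x.pt s t u).1 (x.pt s t u).2.1 (x.pt s t u).2.2) v τ → 0 ≤ a →
      δ * (1 + ∑ k, y k ^ 2) ≤
        QvalK al L L2 KL (chartH (x.pt s t u).1 (x.pt s t u).2.1 (x.pt s t u).2.2) v τ y a 1

theorem QvalK_perm (al : ℝ) (L L2 : List Term) (KL : List KTerm) {l v : Fin 6 → ℝ}
    {τ : Fin 6 → Fin 6 → Fin 6 → ℝ} (y : Fin 6 → ℝ) (a b : ℝ) (π : Equiv.Perm (Fin 6))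
    (hπ : π 5 = 5) (hA : Admissible l v τ) :
    QvalK al L L2 KL (fun i => l (π i)) (fun i => v (π i)) (fun i j m => τ (π i) (π j) (π m))
      (fun i => y (π i)) a b = QvalK al L L2 KL l v τ y a b := by
  have hπ' : π (Fin.last 5) = Fin.last 5 := hπ
  have hU := pMat_orth π
  have hj : jet0 (fun i => l (π i)) (fun i => v (π i)) = lam (pMat π) 1 (jet0 l v) := by
    rw [lam_pMat]
    simp [jet0, hπ, π.injective.eq_iff]
  have hlj : ljet0 (fun i => l (π i)) (fun i => v (π i)) = lam (pMat π) 1 (ljet0 l v) := by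
    rw [lam_pMat]
    simp [ljet0, perm_eq_last hπ', hπ, π.injective.eq_iff]
    rfl
  have hne : (jet0 l v).1 ≠ 0 := by
    intro e
    have : ∀ i, l i = 0 := fun i => by simpa [jet0] using congrFun (congrFun e i) i
    simpa [this] using hA.l_sq
  have hs := sK_perm al L L2 KL y a b π hπ hA
  simp only [sK] at hs
  simp only [QvalK, hs]
  rw [Equiv.sum_comp π (fun k => dOmW al L L2 (jet0 l v) (qdir l v τ a b k) (qdir l v τ a b k)
      + y k * dKt al KL (jet0 l v) (qdir l v τ a b k) + Kt al KL (jet0 l v) * y k ^ 2),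
    hj, hlj, Kt_lam al KL hU one_pos hne, omW_lam al L L2 hU one_pos hne, Real.one_rpow,
    one_mul, one_mul]

theorem qdir_last {l v : Fin 6 → ℝ} {τ : Fin 6 → Fin 6 → Fin 6 → ℝ} (hA : Admissible l v τ)
    (a b : ℝ) : qdir l v τ a b 5 = 0 := by
  have hl : l (5 : Fin 6) = 0 := hA.l_last
  have ht : ∀ i m, τ (5 : Fin 6) i m = 0 := hA.tau_last
  refine Prod.ext ?_ (Prod.ext ?_ ?_)
  · funext i m
    show τ 5 i m + b * bord l 5 i m = 0
    simp [ht, bord, hl]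
  · funext m
    show (if (5 : Fin 6) = m then a * l 5 else 0) = 0
    simp [hl]
  · show (if (5 : Fin 6) = Fin.last 5 then 0 else b * v 5) = 0
    exact if_pos rfl

/-- Without the normal coordinate the bound makes the density at least `δ`; with it nothing is
lost. -/
theorem extend_last (al : ℝ) (L L2 : List Term) (KL : List KTerm) (δ : ℝ) {l v : Fin 6 → ℝ}
    {τ : Fin 6 → Fin 6 → Fin 6 → ℝ} (hA : Admissible l v τ) (a : ℝ)
    (hQ : ∀ y : Fin 6 → ℝ, y 5 = 0 →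
      δ * (1 + ∑ k, y k ^ 2) ≤ QvalK al L L2 KL l v τ y a 1) (y : Fin 6 → ℝ) :
    δ * (1 + ∑ k, y k ^ 2) ≤ QvalK al L L2 KL l v τ y a 1 := by
  have hne : (jet0 l v).1 ≠ 0 := by
    intro e
    have : ∀ i, l i = 0 := fun i => by simpa [jet0] using congrFun (congrFun e i) i
    simpa [this] using hA.l_sq
  have hd5 : dKt al KL (jet0 l v) (qdir l v τ a 1 5) = 0 := by
    rw [← fderiv_Kt al KL _ hne, qdir_last hA, map_zero]
  obtain ⟨q, hq⟩ : ∃ q : Fin 6 → ℝ, q = fun k => dKt al KL (jet0 l v) (qdir l v τ a 1 k) := ⟨_, rfl⟩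
  obtain ⟨K, hK⟩ : ∃ K, K = Kt al KL (jet0 l v) := ⟨_, rfl⟩
  obtain ⟨c, hc⟩ : ∃ c, c = QvalK al L L2 KL l v τ 0 a 1 := ⟨_, rfl⟩
  have hval : ∀ y : Fin 6 → ℝ, QvalK al L L2 KL l v τ y a 1 =
      c + ∑ k, (y k * q k + K * y k ^ 2) := fun y => by
    simp only [hc, hq, hK, QvalK, Pi.zero_apply, zero_mul, mul_zero, zero_pow two_ne_zero,
      Finset.sum_add_distrib, Finset.sum_const_zero, add_zero]
    ring
  have hq5 : q 5 = 0 := by rw [hq]; exact hd5
  have hKd : δ ≤ K := by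
    by_contra hlt
    rw [not_le] at hlt
    have hp : 0 < δ - K := sub_pos.2 hlt
    obtain ⟨R, hR⟩ : ∃ R, R = (|q 0| + |c - δ|) / (δ - K) + 1 := ⟨_, rfl⟩
    have hR1 : 1 ≤ R := by rw [hR]; exact le_add_of_nonneg_left (by positivity)
    have hmul : (δ - K) * R = |q 0| + |c - δ| + (δ - K) := by rw [hR]; field_simp
    have hm2 : ((δ - K) * R) * R = (|q 0| + |c - δ| + (δ - K)) * R := by rw [hmul]
    have h := hQ (Pi.single 0 R) (by simp)
    rw [hval] at h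
    simp [Fin.sum_univ_six] at h
    linarith [mul_le_mul_of_nonneg_right (le_abs_self (q 0)) (zero_le_one.trans hR1),
      mul_le_mul_of_nonneg_left hR1 (abs_nonneg (c - δ)), mul_le_mul_of_nonneg_left hR1 hp.le,
      le_abs_self (c - δ)]
  have h := hQ (Function.update y 5 0) (by simp)
  rw [hval] at h ⊢
  simp only [Fin.sum_univ_six] at h ⊢
  simp at h
  rw [hq5]
  linarith [mul_le_mul_of_nonneg_right hKd (sq_nonneg (y 5))]

/-- **Reduction of the interior inequality with auxiliary coordinates to checked boxes.** -/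
theorem interior_of_coverK (al : ℝ) (L L2 : List Term) (KL : List KTerm) (δ : ℝ) (boxes : List Box)
    (T : Tree) (hc : covers boxes T root = true) (hg : ∀ x ∈ boxes, x.GoodK al L L2 KL δ)
    (l v : Fin 6 → ℝ) (τ : Fin 6 → Fin 6 → Fin 6 → ℝ) (y : Fin 6 → ℝ) (a : ℝ)
    (hA : Admissible l v τ) (ha : 0 ≤ a) :
    δ * (1 + ∑ k, y k ^ 2) ≤ QvalK al L L2 KL l v τ y a 1 := by
  obtain ⟨π, hπ, h01, h12, h23, h34⟩ := exists_sorting6 l
  have hP := hA.perm π l v τ hπ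
  obtain ⟨A, B, C, hd, he⟩ :=
    exists_chartH (fun i => l (π i)) hP.l_last hP.l_sum hP.l_sq h01 h12 h23 h34
  obtain ⟨x, hx, s, t, u, hs, ht, hu, e⟩ := exists_box boxes T hc hd
  refine extend_last al L L2 KL δ hA a (fun y hy => ?_) y
  have h := hg x hx s t u hs ht hu (fun i => v (π i)) (fun i j m => τ (π i) (π j) (π m))
    (fun i => y (π i)) a (by rw [hπ]; exact hy)
  rw [e, he] at h
  have h' := h hP ha
  rwa [QvalK_perm al L L2 KL y a 1 π hπ hA, Equiv.sum_comp π (fun k => y k ^ 2)] at h'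

theorem domK {l v : Fin 6 → ℝ} {τ : Fin 6 → Fin 6 → Fin 6 → ℝ} {a b : ℝ} (y : Fin 6 → ℝ)
    (hA : Admissible l v τ) (hab : 0 ≤ a * b) : Dom (zvarK τ a b y) (vvar v) :=
  ⟨(dom_of_admissible (a := a) (b := b) hA hab).ball,
    (dom_of_admissible (a := a) (b := b) hA hab).half,
    (dom_of_admissible (a := a) (b := b) hA hab).prod⟩

/-- Weight seen by the tangential auxiliary coordinates and the normal unit. -/
theorem gap_le (g : ℕ → ℕ) (G : ℕ) (hG : ∀ n, 31 ≤ n → n < 37 → G ≤ g n)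
    (τ : Fin 6 → Fin 6 → Fin 6 → ℝ) (a : ℝ) (y : Fin 6 → ℝ) (hy : y 5 = 0) :
    (G : ℝ) * (1 + ∑ k, y k ^ 2) ≤
      ∑ n ∈ Finset.range 38, (g n : ℝ) * zvarK τ a 1 y n ^ 2 := by
  have hsub : Finset.Ico 31 37 ⊆ Finset.range 38 := fun n hn => by simp at hn ⊢; omega
  refine le_trans ?_ (Finset.sum_le_sum_of_subset_of_nonneg hsub fun n _ _ => by positivity)
  refine le_trans (le_of_eq ?_) (Finset.sum_le_sum fun n hn => mul_le_mul_of_nonneg_right
    (Nat.cast_le.2 (hG n (Finset.mem_Ico.1 hn).1 (Finset.mem_Ico.1 hn).2)) (sq_nonneg _))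
  rw [← Finset.mul_sum]
  congr 1
  simp only [Finset.sum_Ico_eq_sum_range, Finset.sum_range_succ, Finset.sum_range_zero,
    Fin.sum_univ_six]
  simp [zvarK, zvar, vvar, hy]
  ring

/-- What a check of the packed targets and loads of a box must deliver: every control bounds the
loads, carrying the factor `1728`, plus a gap. -/
def CtrlSound (W : ℕ) (gl : List Mon) (gap : ℕ → ℕ) (k : List ℤ → List ℕ → Bool) : Prop :=
  ∀ (V : List ℤ) (el : List ℕ), k V el = true → ∀ z v, Dom z v →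
    ∀ i < 5, ∀ j < 5, ∀ m < 5,
      ∑ n ∈ Finset.range 38, ((1728 * el.getD n 0 + gap n : ℕ) : ℝ) * z n ^ 2 ≤
        2 * ctrlR (fun p => gsumZ z v gl (decode W gl.length (V.getD p 0))) i j m

/-- **A checked box is good.** -/
theorem goodK_of_box (an : ℤ) (den : ℕ) (hden : 0 < den) (L L2 : List ITerm) (KL : List KI)
    (gl : List Mon) (C : ℕ) (P : ℕ → ℕ) (R0 R5 R6 : Rows)
    (hrows : rowsChk an den L L2 KL gl C P R0 R5 R6) (W D : ℕ)
    (hglob : globalOK W gl.length D (partsOf P R0 R5 R6) = true)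
    (k : List ℤ → List ℕ → Bool) (gap : ℕ → ℕ) (hk : CtrlSound W gl gap k) (G : ℕ)
    (hG : ∀ n, 31 ≤ n → n < 37 → G ≤ gap n) (δ : ℝ) (x : Box) (H : HData)
    (hδ : δ * (2 * 1728 * ((H.U : ℝ) * 4096 ^ D * 2 ^ D * (40000 * den))) ≤ G)
    (hB : boxOK W 38 D gl (partsOf P R0 R5 R6) x H k = true) :
    x.GoodK ((an : ℝ) / 100) (L.map (ITerm.term den)) (L2.map (ITerm.term den))
      (KL.map (KI.term den)) δ := by
  have hU : 0 < H.U := by
    simp only [boxOK, HData.ok, Bool.and_eq_true, Nat.blt_eq] at hB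
    exact hB.1.1.1.1
  have hgl : ∀ G ∈ gl, G.a < 38 ∧ G.b < 38 := fun M hM => by
    have := List.all_eq_true.1 (slotF_all hrows.1).1 M hM
    simp only [slotOK, Bool.and_eq_true, Nat.blt_eq] at this
    exact ⟨this.1.1, this.1.2⟩
  obtain ⟨hkV, hT⟩ := target W 38 D gl _ x H k hglob hgl hB
  intro s t u hs ht hu v τ y a hy hA ha
  obtain ⟨p, hp⟩ : ∃ p, p = x.pt s t u := ⟨_, rfl⟩
  rw [← hp] at hA ⊢
  obtain ⟨X, hX⟩ : ∃ X, X = QvalK ((an : ℝ) / 100) (L.map (ITerm.term den))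
      (L2.map (ITerm.term den)) (KL.map (KI.term den)) (chartH p.1 p.2.1 p.2.2) v τ y a 1 :=
    ⟨_, rfl⟩
  rw [← hX]
  obtain ⟨h, hh⟩ : ∃ h, h = hgt p.1 p.2.1 p.2.2 := ⟨_, rfl⟩
  have hrad : 0 ≤ 1 - 2 * p.1 ^ 2 - 2 * p.2.1 ^ 2 - 20 * p.2.2 ^ 2 := by
    by_contra hn
    have h0 : h = 0 := hh ▸ Real.sqrt_eq_zero_of_nonpos (not_le.1 hn).le
    have hsq := hA.l_sq
    rw [Fin.sum_univ_six] at hsq
    simp [chartH, ← hh, h0] at hsq
    nlinarith
  have hl : lT (chartH p.1 p.2.1 p.2.2) = lsG (h / 2) p.1 p.2.1 p.2.2 := by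
    funext i
    rcases lt_or_ge i 6 with hi | hi
    · interval_cases i <;> simp [lT, lsG, vvar, chartH, hh, Fin.sum_univ_six]
    · simp [lT, lsG, vvar, List.getD_eq_getElem?_getD, hi, show i ≠ 5 by omega, show 6 ≤ i by omega]
  have hz : 0 ≤ a * (1 : ℝ) := by linarith
  have hD := domK (b := 1) y hA hz
  have hv := rows_value an den hden L L2 KL gl C P R0 R5 R6 hrows _ v τ a 1 y hy hA
  rw [← hX, hl] at hv
  have h1 := hT s t u hs ht hu (zvarK τ a 1 y) (vvar v) h (40000 * den * X) (hh ▸ Real.sqrt_nonneg _)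
    (by rw [hh, ← hp]; exact hgt_sq hrad) hD.ball (by rw [← hp]; exact hv)
  obtain ⟨Pf, hPf⟩ : ∃ Pf : ℕ → ℝ, Pf = fun q =>
      gsumZ (zvarK τ a 1 y) (vvar v) gl (decode W gl.length ((boxV W D
        (partsOf P R0 R5 R6) x H).getD q 0)) := ⟨_, rfl⟩
  obtain ⟨z, hzd⟩ : ∃ z, z = zvarK τ a 1 y := ⟨_, rfl⟩
  have hc := hk _ _ hkV _ _ hD
  rw [← hPf] at h1 hc
  have hgap := gap_le gap G hG τ a y hy
  rw [← hzd] at h1 hc hgap
  obtain ⟨el, hel⟩ : ∃ el, el = boxEl W 38 D gl (partsOf P R0 R5 R6) x H := ⟨_, rfl⟩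
  rw [← hel] at h1 hc
  obtain ⟨E, hE⟩ : ∃ E, E = ∑ n ∈ Finset.range 38, (el.getD n 0 : ℝ) * z n ^ 2 := ⟨_, rfl⟩
  rw [← hE] at h1
  have hg : 1728 * E + (G : ℝ) * (1 + ∑ k, y k ^ 2) ≤ 2 * (1728 * polyR Pf s t u) := by
    have hb : ∀ i < 5, ∀ j < 5, ∀ m < 5,
        1728 * E + (G : ℝ) * (1 + ∑ k, y k ^ 2) ≤ 2 * ctrlR Pf i j m := fun i hi j hj m hm => by
      refine le_trans ?_ (hc i hi j hj m hm)
      rw [hE, Finset.mul_sum]
      refine le_trans (add_le_add le_rfl hgap) (le_of_eq ?_)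
      rw [← Finset.sum_add_distrib]
      refine Finset.sum_congr rfl fun n _ => ?_
      push_cast
      ring
    rw [polyR_eq]
    simp only [Finset.mul_sum]
    calc 1728 * E + (G : ℝ) * (1 + ∑ k, y k ^ 2)
        = ∑ i ∈ Finset.range 5, ∑ j ∈ Finset.range 5, ∑ m ∈ Finset.range 5,
            bW s t u i j m * (1728 * E + (G : ℝ) * (1 + ∑ k, y k ^ 2)) := by
          simp only [← Finset.sum_mul, bW_sum, one_mul]
      _ ≤ _ := Finset.sum_le_sum fun i hi => Finset.sum_le_sum fun j hj =>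
        Finset.sum_le_sum fun m hm => by
          refine (mul_le_mul_of_nonneg_left (hb i (Finset.mem_range.1 hi) j (Finset.mem_range.1 hj) m
            (Finset.mem_range.1 hm)) (bW_nonneg hs ht hu i j m)).trans_eq ?_
          ring
  obtain ⟨SC, hSC⟩ : ∃ SC, SC = (H.U : ℝ) * 4096 ^ D * 2 ^ D * (40000 * den) := ⟨_, rfl⟩
  have hSC0 : 0 < SC := by rw [hSC]; positivity
  rw [← hSC] at hδ
  rw [show (H.U : ℝ) * 4096 ^ D * 2 ^ D * (40000 * den * X) = SC * X by rw [hSC]; ring] at h1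
  have h2 : 2 * (polyR Pf s t u - SC * X) ≤ E := by
    linarith [neg_le_abs (SC * X - polyR Pf s t u)]
  by_contra hcon
  have h3 := mul_lt_mul_of_pos_right (not_le.1 hcon) (show 0 < 2 * 1728 * SC by positivity)
  have h4 := mul_le_mul_of_nonneg_right hδ (show (0 : ℝ) ≤ 1 + ∑ k, y k ^ 2 by positivity)
  nlinarith

end Vale.Agent.P098.Exact.Sos6
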