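import Vale.Agent.P098.Exact.Sos6.Check
import Vale.Agent.P098.Exact.Sos6.CoverK

/-! The packed check delivers what the box theorem asks of a check. -/

namespace Vale.Agent.P098.Exact.Sos6

/-- The packed check is sound for the box theorem. -/
theorem Tbl.ctrlSound (Y : Tbl) (hY : Y.Ok) (hN : Y.N = 38) (facs plan : List (List ℕ)) :
    CtrlSound Y.W Y.gl Y.gapAt (Y.check facs plan) := by
  intro V el h z v hD
  have := Y.check_sound hY facs plan V el h z v hD
  rw [hN] at this
  exact this

end Vale.Agent.P098.Exact.Sos6
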