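import Vale.Agent.P098.Exact.Sos6.Layout
import Vale.Agent.P098.Exact.Chart6h

/-! Boxes in the chart of dimension six and the check that they cover it. -/

namespace Vale.Agent.P098.Exact.Sos6

/-- Membership of a point. -/
def Box.Mem (x : Box) (p q r : ℝ) : Prop :=
  |4096 * p - x.A| ≤ x.a ∧ |4096 * q - x.B| ≤ x.b ∧ |4096 * r - x.C| ≤ x.c

/-- Least absolute value of the third coordinate on a box. -/
def Box.cmin (x : Box) : ℤ := max 0 (max (x.C - x.c) (-(x.C + x.c)))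

/-- Least sum of the three squares on a box, weighted as in the chart. -/
def Box.smin (x : Box) : ℤ :=
  2 * max 0 (x.A - x.a) ^ 2 + 2 * max 0 (x.B - x.b) ^ 2 + 20 * x.cmin ^ 2

/-- Boxes missing the chart domain. -/
def Box.out (x : Box) : Bool :=
  decide (x.A + x.a < 0) || decide (x.B + x.b < 0) ||
  decide (16777216 < max 0 (2 * max 0 (x.A - x.a) - 10 * (x.C + x.c)) ^ 2 + x.smin) ||
  decide (16777216 < max 0 (2 * max 0 (x.B - x.b) + 10 * (x.C - x.c)) ^ 2 + x.smin)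

/-- A subdivision of a box. -/
inductive Tree where
  | out
  | leaf (i : ℕ)
  | split (axis : ℕ) (l r : Tree)

/-- Lower half along an axis. -/
def Box.lo (x : Box) : ℕ → Box
  | 0 => ⟨x.A - x.a / 2, x.B, x.C, x.a / 2, x.b, x.c⟩
  | 1 => ⟨x.A, x.B - x.b / 2, x.C, x.a, x.b / 2, x.c⟩
  | _ => ⟨x.A, x.B, x.C - x.c / 2, x.a, x.b, x.c / 2⟩

/-- Upper half along an axis. -/
def Box.hi (x : Box) : ℕ → Box
  | 0 => ⟨x.A + x.a / 2, x.B, x.C, x.a / 2, x.b, x.c⟩
  | 1 => ⟨x.A, x.B + x.b / 2, x.C, x.a, x.b / 2, x.c⟩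
  | _ => ⟨x.A, x.B, x.C + x.c / 2, x.a, x.b, x.c / 2⟩

/-- Width along an axis. -/
def Box.width (x : Box) : ℕ → ℤ
  | 0 => x.a
  | 1 => x.b
  | _ => x.c

/-- Is `x` inside `y`? -/
def Box.within (x y : Box) : Bool :=
  decide (y.A - y.a ≤ x.A - x.a) && decide (x.A + x.a ≤ y.A + y.a) &&
  decide (y.B - y.b ≤ x.B - x.b) && decide (x.B + x.b ≤ y.B + y.b) &&
  decide (y.C - y.c ≤ x.C - x.c) && decide (x.C + x.c ≤ y.C + y.c)

/-- The cover check. -/
def covers (boxes : List Box) : Tree → Box → Bool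
  | .out, x => x.out
  | .leaf i, x => decide (i < boxes.length) && x.within (boxes.getD i x)
  | .split a l r, x => decide (x.width a % 2 = 0) && covers boxes l (x.lo a) && covers boxes r (x.hi a)

/-- The root box. -/
def root : Box := ⟨2048, 2048, 0, 2048, 2048, 1024⟩

theorem mem_root {p q r : ℝ} (hc : InChartH p q r) : root.Mem p q r := by
  obtain ⟨hp, hq, he, -, -⟩ := hc
  have hh := hgt_sq he
  have h1 : p ≤ 1 := by nlinarith [sq_nonneg (hgt p q r), sq_nonneg q, sq_nonneg r]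
  have h2 : q ≤ 1 := by nlinarith [sq_nonneg (hgt p q r), sq_nonneg p, sq_nonneg r]
  have h3 : r ^ 2 ≤ (1 / 4) ^ 2 := by nlinarith [sq_nonneg (hgt p q r), sq_nonneg p, sq_nonneg q]
  obtain ⟨h4, h5⟩ := abs_le_of_sq_le_sq' h3 (by norm_num)
  refine ⟨?_, ?_, ?_⟩ <;> simp only [root] <;> push_cast <;> rw [abs_le] <;> constructor <;> linarith

theorem out_sound {x : Box} (h : x.out = true) {p q r : ℝ} (hc : InChartH p q r) (hx : x.Mem p q r) : False := by
  obtain ⟨hA, hB, hC⟩ := hx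
  obtain ⟨a1, a2⟩ := abs_le.1 hA
  obtain ⟨b1, b2⟩ := abs_le.1 hB
  obtain ⟨c1, c2⟩ := abs_le.1 hC
  obtain ⟨hp, hq, hrad, hu, hl⟩ := hc
  have he := hgt_sq hrad
  have eA : max 0 ((x.A : ℝ) - x.a) ≤ 4096 * p := max_le (by linarith) (by linarith)
  have eB : max 0 ((x.B : ℝ) - x.b) ≤ 4096 * q := max_le (by linarith) (by linarith)
  have eC : max 0 (max ((x.C : ℝ) - x.c) (-(x.C + x.c))) ≤ |4096 * r| :=
    max_le (abs_nonneg _) (max_le (by linarith [le_abs_self (4096 * r)]) (by linarith [neg_le_abs (4096 * r)]))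
  have hH : 0 ≤ hgt p q r := Real.sqrt_nonneg _
  have fA := pow_le_pow_left₀ (le_max_left 0 _) eA 2
  have fB := pow_le_pow_left₀ (le_max_left 0 _) eB 2
  have fC := pow_le_pow_left₀ (le_max_left 0 _) eC 2
  rw [sq_abs] at fC
  simp only [Box.out, Bool.or_eq_true, decide_eq_true_eq] at h
  simp only [Box.smin, Box.cmin] at h
  rcases h with ((h | h) | h) | h <;> have h' := (Int.cast_lt (R := ℝ)).2 h <;> push_cast at h'
  · linarith
  · linarith
  · have fM := pow_le_pow_left₀ (le_max_left 0 _)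
      (show max 0 (2 * max 0 ((x.A : ℝ) - x.a) - 10 * (x.C + x.c)) ≤ 4096 * hgt p q r from
        max_le (by linarith) (by linarith)) 2
    nlinarith
  · have fM := pow_le_pow_left₀ (le_max_left 0 _)
      (show max 0 (2 * max 0 ((x.B : ℝ) - x.b) + 10 * (x.C - x.c)) ≤ 4096 * hgt p q r from
        max_le (by linarith) (by linarith)) 2
    nlinarith

theorem split_mem {x : Box} {a : ℕ} (he : x.width a % 2 = 0) {p q r : ℝ} (hx : x.Mem p q r) :
    (x.lo a).Mem p q r ∨ (x.hi a).Mem p q r := by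
  obtain ⟨hA, hB, hC⟩ := hx
  have half : ∀ {c w : ℤ} {P : ℝ}, w % 2 = 0 → |P - c| ≤ (w : ℝ) →
      |P - ((c - w / 2 : ℤ) : ℝ)| ≤ ((w / 2 : ℤ) : ℝ) ∨ |P - ((c + w / 2 : ℤ) : ℝ)| ≤ ((w / 2 : ℤ) : ℝ) := by
    intro c w P hw h
    have e : (w : ℝ) = 2 * ((w / 2 : ℤ) : ℝ) := by
      have : w = 2 * (w / 2) := by omega
      exact_mod_cast this
    obtain ⟨h1, h2⟩ := abs_le.1 h
    rcases le_total P (c : ℝ) with hp | hp
    · left; push_cast; rw [abs_le]; constructor <;> linarith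
    · right; push_cast; rw [abs_le]; constructor <;> linarith
  match a, he with
  | 0, he => exact (half he hA).imp (fun h => ⟨h, hB, hC⟩) (fun h => ⟨h, hB, hC⟩)
  | 1, he => exact (half he hB).imp (fun h => ⟨hA, h, hC⟩) (fun h => ⟨hA, h, hC⟩)
  | _ + 2, he => exact (half he hC).imp (fun h => ⟨hA, hB, h⟩) (fun h => ⟨hA, hB, h⟩)

theorem within_sound {x y : Box} (h : x.within y = true) {p q r : ℝ} (hx : x.Mem p q r) : y.Mem p q r := by
  simp only [Box.within, Bool.and_eq_true, decide_eq_true_eq] at h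
  obtain ⟨⟨⟨⟨⟨g1, g2⟩, g3⟩, g4⟩, g5⟩, g6⟩ := h
  have cast : ∀ {a b c d : ℤ}, a - b ≤ c - d → (a : ℝ) - b ≤ c - d := fun h => by exact_mod_cast h
  have cast' : ∀ {a b c d : ℤ}, a + b ≤ c + d → (a : ℝ) + b ≤ c + d := fun h => by exact_mod_cast h
  have k1 := cast g1
  have k2 := cast' g2
  have k3 := cast g3
  have k4 := cast' g4
  have k5 := cast g5
  have k6 := cast' g6
  obtain ⟨hA, hB, hC⟩ := hx
  rw [abs_le] at hA hB hC
  refine ⟨?_, ?_, ?_⟩ <;> rw [abs_le] <;> constructor <;> linarith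

theorem covers_sound (boxes : List Box) : ∀ (T : Tree) (x : Box), covers boxes T x = true →
    ∀ p q r : ℝ, InChartH p q r → x.Mem p q r → ∃ y ∈ boxes, y.Mem p q r
  | .out, x, h, p, q, r, hc, hx => (out_sound h hc hx).elim
  | .leaf i, x, h, p, q, r, _, hx => by
    simp only [covers, Bool.and_eq_true, decide_eq_true_eq] at h
    refine ⟨boxes.getD i x, ?_, within_sound h.2 hx⟩
    rw [List.getD_eq_getElem _ _ h.1]
    exact List.getElem_mem h.1
  | .split a l r', x, h, p, q, r, hc, hx => by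
    simp only [covers, Bool.and_eq_true, decide_eq_true_eq] at h
    rcases split_mem h.1.1 hx with hm | hm
    · exact covers_sound boxes l _ h.1.2 p q r hc hm
    · exact covers_sound boxes r' _ h.2 p q r hc hm

theorem rel {c w : ℤ} {P : ℝ} (h : |4096 * P - c| ≤ (w : ℝ)) :
    ∃ s : ℝ, |s| ≤ 1 ∧ ((c : ℝ) + w * s) / 4096 = P := by
  rcases ((abs_nonneg _).trans h).eq_or_lt with hw | hw
  · refine ⟨0, by simp, ?_⟩
    rw [← hw, abs_nonpos_iff] at h
    linarith
  · refine ⟨(4096 * P - c) / w, ?_, ?_⟩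
    · rw [abs_div, abs_of_pos hw, div_le_one hw]; exact h
    · rw [mul_div_cancel₀ _ hw.ne']; linarith

theorem mem_iff_pt {x : Box} {p q r : ℝ} (h : x.Mem p q r) :
    ∃ s t u, |s| ≤ 1 ∧ |t| ≤ 1 ∧ |u| ≤ 1 ∧ x.pt s t u = (p, q, r) := by
  obtain ⟨hA, hB, hC⟩ := h
  obtain ⟨s, hs, es⟩ := rel hA
  obtain ⟨t, ht, et⟩ := rel hB
  obtain ⟨u, hu, eu⟩ := rel hC
  exact ⟨s, t, u, hs, ht, hu, by rw [Box.pt, es, et, eu]⟩

/-- A covered point is a relative point of a listed box. -/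
theorem exists_box (boxes : List Box) (T : Tree) (hc : covers boxes T root = true) {p q r : ℝ}
    (hd : InChartH p q r) :
    ∃ x ∈ boxes, ∃ s t u : ℝ, |s| ≤ 1 ∧ |t| ≤ 1 ∧ |u| ≤ 1 ∧ x.pt s t u = (p, q, r) := by
  obtain ⟨x, hx, hm⟩ := covers_sound boxes T root hc p q r hd (mem_root hd)
  exact ⟨x, hx, mem_iff_pt hm⟩

/-- **Reduction of the interior inequality to checked boxes.** -/
theorem interior_of_cover (al : ℝ) (L : List Term) (δ : ℝ) (boxes : List Box) (T : Tree)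
    (hc : covers boxes T root = true) (hg : ∀ x ∈ boxes, x.Good al L δ)
    (l v : Fin 6 → ℝ) (τ : Fin 6 → Fin 6 → Fin 6 → ℝ) (a : ℝ) (hA : Admissible l v τ) (ha : 0 ≤ a) :
    δ ≤ Qval al L l v τ a 1 := by
  refine Qval_of_chartH al L δ (fun p q r v τ a hch hA ha => ?_) l v τ a hA ha
  obtain ⟨x, hx, s, t, u, hs, ht, hu, e⟩ := exists_box boxes T hc hch
  have h := hg x hx s t u hs ht hu v τ a
  rw [e] at h
  exact h hA ha

end Vale.Agent.P098.Exact.Sos6
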