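import Vale.Agent.P098.Exact.Sos6.Check

/-!
Credit of residuals against the diagonal of the Gram basis: a bound `b` on the coefficient of
`x y`, with `x`, `y` basis monomials, costs `2^e b` at `x²` and `2^(8-e) b` at `y²`, in units `1/32`.
-/

namespace Vale.Agent.P098.Exact.Sos6

open Sos (pk base half npk)

/-- Square slots: position and basis monomial. -/
abbrev Sq : Type := List (ℕ × Bas)

/-- Basis monomial of a square slot. -/
def sqBas (sq : Sq) (q : ℕ) : Bas := (sq.getD q (0, ⟨0, []⟩)).2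

/-- Value of a basis monomial of a square slot. -/
noncomputable def sqX (sq : Sq) (z v : ℕ → ℝ) (q : ℕ) : ℝ := (sqBas sq q).ev .one z v

/-- The listed square slots are right. -/
def sqOK (n : ℕ) (gam : List (List Mon)) (sq : Sq) : Bool :=
  sq.all fun p => monsOK n gam 0 [p.1] (expandP .one p.2 p.2)

/-- The candidate products of a slot are right. -/
def candsOK (sq : Sq) (G : Mon) : List (ℕ × ℕ) → Bool :=
  fun cs => cs.all fun c => Nat.blt c.1 sq.length && Nat.blt c.2 sq.length &&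
    sameMon G ⟨(sqBas sq c.1).a, (sqBas sq c.2).a, addG (sqBas sq c.1).g (sqBas sq c.2).g 0 0⟩

/-- The candidate products of all slots are right. -/
def splOK (gam : List (List Mon)) (sq : Sq) : List (List (ℕ × ℕ)) → ℕ → Bool
  | [], _ => true
  | cs :: L, o => candsOK sq (monAt gam o) cs && splOK gam sq L (o + 1)

/-! ### Kernel functions -/

/-- Bound of a slot. -/
def dB (D : ℕ) : ℕ := Nat.mod D 4294967296

/-- Chosen product of a slot. -/
def dJ (D : ℕ) : ℕ := Nat.mod (Nat.shiftRight D 32) 256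

/-- Chosen exponent of a slot. -/
def dE (D : ℕ) : ℕ := Nat.mod (Nat.shiftRight D 40) 256

/-- All choices are in range. -/
noncomputable def dOK : List (List (ℕ × ℕ)) → ℕ → Bool :=
  List.rec (motive := fun _ => ℕ → Bool) (fun _ => true)
    (fun cs _ ih D => Nat.blt (dJ D) cs.length && Nat.ble (dE D) 8 && ih (Nat.shiftRight D 48))

/-- Packed bounds. -/
noncomputable def bPk (W sh : ℕ) : List (List (ℕ × ℕ)) → ℕ → ℕ :=
  List.rec (motive := fun _ => ℕ → ℕ) (fun _ => 0)
    (fun _ _ ih D => Nat.add (Nat.shiftLeft (dB D) sh) (Nat.shiftLeft (ih (Nat.shiftRight D 48)) W))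

/-- Packed loads of the square slots, in units `2^sh / 32`. -/
noncomputable def accQ : List (List (ℕ × ℕ)) → ℕ → ℕ :=
  List.rec (motive := fun _ => ℕ → ℕ) (fun _ => 0)
    (fun cs _ ih D => Prod.rec (motive := fun _ => ℕ)
      (fun i j => Nat.add (Nat.shiftLeft (Nat.mul (dB D) (Nat.pow 2 (dE D))) (Nat.mul 64 i))
        (Nat.add (Nat.shiftLeft (Nat.mul (dB D) (Nat.pow 2 (Nat.sub 8 (dE D)))) (Nat.mul 64 j))
          (ih (Nat.shiftRight D 48))))
      (List.getD cs (dJ D) (0, 0)))

/-- Allowance of a square slot. -/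
def qE (E : ℕ) : ℕ := Nat.mod E 281474976710656

/-- Packed allowance in the slots of the table. -/
noncomputable def lPk (W sh : ℕ) : Sq → ℕ → ℕ :=
  List.rec (motive := fun _ => ℕ → ℕ) (fun _ => 0)
    (fun p _ ih E => Nat.add (Nat.shiftLeft (Nat.shiftLeft (qE E) sh) (Nat.mul W p.1))
      (ih (Nat.shiftRight E 64)))

/-- Packed allowance of the square slots, in units `2^sh / 32`. -/
noncomputable def eQ : Sq → ℕ → ℕ :=
  List.rec (motive := fun _ => ℕ → ℕ) (fun _ => 0)
    (fun _ _ ih E => Nat.add (Nat.mul 32 (qE E)) (Nat.shiftLeft (ih (Nat.shiftRight E 64)) 64))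

/-- All digits, biased by half a slot, are at least the bias. -/
def nnP (W O HO : ℕ) (Z : ℤ) : Bool :=
  Nat.beq (Nat.land (Nat.shiftRight (Int.toNat (Int.add Z (Int.ofNat HO))) (Nat.sub W 1)) O) O

/-! ### Specifications -/

theorem npk_single (w m q c : ℕ) (hq : q < m) :
    npk w m (fun p => if p = q then c else 0) = c * base w ^ q := by
  rw [npk, Finset.sum_eq_single_of_mem q (Finset.mem_range.2 hq)]
  · simp
  · intro p _ hp; simp [hp]

/-- Weighted arithmetic-geometric mean. -/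
theorem amgm8 (x y : ℝ) {e : ℕ} (he : e ≤ 8) :
    32 * (|x| * |y|) ≤ 2 ^ e * x ^ 2 + 2 ^ (8 - e) * y ^ 2 := by
  have h8 : (2 : ℝ) ^ e * 2 ^ (8 - e) = 256 := by
    rw [← pow_add, Nat.add_sub_cancel' he]; norm_num
  have hp : (0 : ℝ) < 2 ^ e := by positivity
  have h := sq_nonneg ((2 : ℝ) ^ e * |x| - 16 * |y|)
  rw [sub_sq, mul_pow, mul_pow, sq_abs, sq_abs] at h
  refine le_of_mul_le_mul_left ?_ hp
  have : (2 : ℝ) ^ e * (2 ^ e * x ^ 2 + 2 ^ (8 - e) * y ^ 2) =
      (2 ^ e) ^ 2 * x ^ 2 + 256 * y ^ 2 := by rw [← h8]; ring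
  rw [this]
  linarith [h]

theorem ev_split {G : Mon} {e f : Bas}
    (h : sameMon G ⟨e.a, f.a, addG e.g f.g 0 0⟩ = true) (z v : ℕ → ℝ) :
    G.ev z v = e.ev .one z v * f.ev .one z v := by
  rw [sameMon_sound h z v]
  show z e.a * z f.a * mon6 (addG e.g f.g 0 0) v = _
  rw [mon6_addG _ _ _ _ v (by norm_num)]
  simp [Bas.ev]
  ring

/-- The packed bounds and the loads that pay for them. -/
theorem split_spec (W sh : ℕ) (gam : List (List Mon)) (sq : Sq) (z v : ℕ → ℝ) :
    ∀ (spl : List (List (ℕ × ℕ))) (D o : ℕ), splOK gam sq spl o = true → dOK spl D = true →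
      ∃ B Q : ℕ → ℕ, bPk W sh spl D = npk W spl.length B ∧ (∀ k, B k ≤ 2 ^ (32 + sh)) ∧
        accQ spl D = npk 64 sq.length Q ∧ (∀ q, Q q ≤ spl.length * 2 ^ 41) ∧
        32 * ∑ k ∈ Finset.range spl.length, (B k : ℝ) * |(monAt gam (o + k)).ev z v| ≤
          2 ^ sh * ∑ q ∈ Finset.range sq.length, (Q q : ℝ) * sqX sq z v q ^ 2
  | [], D, o, _, _ => ⟨fun _ => 0, fun _ => 0, by simp [bPk, npk], by simp,
      by simp [accQ, npk], by simp, by simp⟩
  | cs :: L, D, o, hs, hd => by
    simp only [splOK, Bool.and_eq_true] at hs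
    change (Nat.blt (dJ D) cs.length && Nat.ble (dE D) 8 && dOK L (Nat.shiftRight D 48)) = true at hd
    simp only [Bool.and_eq_true, Nat.blt_eq, Nat.ble_eq] at hd
    obtain ⟨⟨hj, he⟩, hd⟩ := hd
    obtain ⟨B, Q, hB, hBb, hQ, hQb, hsum⟩ :=
      split_spec W sh gam sq z v L (Nat.shiftRight D 48) (o + 1) hs.2 hd
    obtain ⟨c, hc⟩ : ∃ c, c = List.getD cs (dJ D) (0, 0) := ⟨_, rfl⟩
    have hmem : c ∈ cs := by
      rw [hc, List.getD_eq_getElem _ _ hj]; exact List.getElem_mem hj
    have hcand := hs.1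
    simp only [candsOK, List.all_eq_true, Bool.and_eq_true, Nat.blt_eq] at hcand
    obtain ⟨⟨hi, hk⟩, hsame⟩ := hcand c hmem
    obtain ⟨b, hb⟩ : ∃ b, b = dB D := ⟨_, rfl⟩
    have hb32 : b < 2 ^ 32 := hb ▸ Nat.mod_lt _ (by norm_num)
    obtain ⟨e, hee⟩ : ∃ e, e = dE D := ⟨_, rfl⟩
    rw [← hee] at he
    refine ⟨fun k => if k = 0 then b * 2 ^ sh else B (k - 1),
      fun q => ((if q = c.1 then b * 2 ^ e else 0) + (if q = c.2 then b * 2 ^ (8 - e) else 0)) + Q q,
      ?_, ?_, ?_, ?_, ?_⟩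
    · show Nat.shiftLeft (dB D) sh + Nat.shiftLeft (bPk W sh L (Nat.shiftRight D 48)) W = _
      rw [hB, List.length_cons, Sos.npk_succ, ← hb]
      simp only [if_true, Nat.add_sub_cancel, Nat.succ_ne_zero, if_false]
      rw [show Nat.shiftLeft b sh = b * 2 ^ sh from Nat.shiftLeft_eq b sh,
        show ∀ x, Nat.shiftLeft x W = x * base W from fun x => by simpa using shl_base W x 1]
      ring
    · intro k
      dsimp only
      split
      · rw [pow_add]; exact Nat.mul_le_mul_right _ hb32.le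
      · exact hBb _
    · have e1 : accQ (cs :: L) D = Prod.rec (motive := fun _ => ℕ)
          (fun i j => Nat.add (Nat.shiftLeft (Nat.mul (dB D) (Nat.pow 2 (dE D))) (Nat.mul 64 i))
            (Nat.add (Nat.shiftLeft (Nat.mul (dB D) (Nat.pow 2 (Nat.sub 8 (dE D)))) (Nat.mul 64 j))
              (accQ L (Nat.shiftRight D 48))))
          (List.getD cs (dJ D) (0, 0)) := rfl
      rw [e1, ← hc, ← hb, ← hee]
      show Nat.shiftLeft (b * 2 ^ e) (64 * c.1) + (Nat.shiftLeft (b * 2 ^ (8 - e)) (64 * c.2) +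
        accQ L (Nat.shiftRight D 48)) = _
      rw [shl_base, shl_base, hQ, ← npk_single 64 sq.length c.1 _ hi,
        ← npk_single 64 sq.length c.2 _ hk, ← Nat.add_assoc, npk_add, npk_add]
    · intro q
      have h1 : b * 2 ^ e ≤ 2 ^ 32 * 2 ^ 8 :=
        Nat.mul_le_mul hb32.le (Nat.pow_le_pow_right (by norm_num) he)
      have h2 : b * 2 ^ (8 - e) ≤ 2 ^ 32 * 2 ^ 8 :=
        Nat.mul_le_mul hb32.le (Nat.pow_le_pow_right (by norm_num) (Nat.sub_le _ _))
      have := hQb q
      rw [List.length_cons, Nat.add_mul, one_mul]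
      dsimp only
      split_ifs <;> omega
    · rw [List.length_cons, Finset.sum_range_succ']
      simp only [Nat.succ_ne_zero, if_false, Nat.add_sub_cancel, if_true, Nat.add_zero]
      have hev : (monAt gam o).ev z v = sqX sq z v c.1 * sqX sq z v c.2 := ev_split hsame z v
      have hsq : ∑ q ∈ Finset.range sq.length,
          ((((if q = c.1 then b * 2 ^ e else 0) + (if q = c.2 then b * 2 ^ (8 - e) else 0)) + Q q : ℕ) : ℝ) *
            sqX sq z v q ^ 2 =
          (b : ℝ) * (2 ^ e * sqX sq z v c.1 ^ 2 + 2 ^ (8 - e) * sqX sq z v c.2 ^ 2) +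
            ∑ q ∈ Finset.range sq.length, (Q q : ℝ) * sqX sq z v q ^ 2 := by
        simp only [Nat.cast_add, Nat.cast_ite, Nat.cast_zero, add_mul, ite_mul, zero_mul,
          Finset.sum_add_distrib, Finset.sum_ite_eq', Finset.mem_range, hi, hk, if_true]
        push_cast
        ring
      rw [hsq, hev, abs_mul]
      simp only [Nat.add_assoc, Nat.add_comm 1] at hsum ⊢
      have h3 := mul_le_mul_of_nonneg_left (amgm8 (sqX sq z v c.1) (sqX sq z v c.2) he)
        (by positivity : (0 : ℝ) ≤ b * 2 ^ sh)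
      push_cast
      linarith

/-- The packed allowance, its value, and its copy among the square slots. -/
theorem lPk_spec (W sh n : ℕ) (gam : List (List Mon)) (z v : ℕ → ℝ) :
    ∀ (sq : Sq) (E : ℕ), sqOK n gam sq = true →
      ∃ L e : ℕ → ℕ, lPk W sh sq E = npk W n L ∧ (∀ k, L k ≤ sq.length * 2 ^ (48 + sh)) ∧
        eQ sq E = npk 64 sq.length (fun q => 32 * e q) ∧ (∀ q, e q < 2 ^ 48) ∧
        (∀ k, L k ≠ 0 → 0 ≤ (monAt gam k).ev z v) ∧
        ∑ k ∈ Finset.range n, (L k : ℝ) * (monAt gam k).ev z v =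
          2 ^ sh * ∑ q ∈ Finset.range sq.length, (e q : ℝ) * sqX sq z v q ^ 2
  | [], E, _ => ⟨fun _ => 0, fun _ => 0, by simp [lPk, npk], by simp, by simp [eQ, npk],
      by simp, fun k hk => absurd rfl hk, by simp⟩
  | p :: sq, E, h => by
    simp only [sqOK, List.all_cons, Bool.and_eq_true] at h
    obtain ⟨L, e, hL, hLb, hE, heb, hnn, hval⟩ := lPk_spec W sh n gam z v sq (Nat.shiftRight E 64) h.2
    have hp := h.1
    simp only [expandP, monsOK, Bool.and_eq_true, Nat.blt_eq, Nat.zero_add] at hp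
    obtain ⟨⟨hp, hsame⟩, -⟩ := hp
    obtain ⟨x, hx⟩ : ∃ x, x = qE E := ⟨_, rfl⟩
    have hx56 : x < 2 ^ 48 := hx ▸ Nat.mod_lt _ (by norm_num)
    refine ⟨fun k => (if k = p.1 then x * 2 ^ sh else 0) + L k,
      fun q => if q = 0 then x else e (q - 1), ?_, ?_, ?_, ?_, ?_, ?_⟩
    · show Nat.shiftLeft (Nat.shiftLeft (qE E) sh) (W * p.1) + lPk W sh sq (Nat.shiftRight E 64) = _
      rw [shl_base, ← hx, show Nat.shiftLeft x sh = x * 2 ^ sh from Nat.shiftLeft_eq x sh, hL,
        ← npk_single W n p.1 _ hp, npk_add]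
    · intro k
      have h1 : x * 2 ^ sh ≤ 2 ^ (48 + sh) := by
        rw [pow_add]; exact Nat.mul_le_mul_right _ hx56.le
      have := hLb k
      rw [List.length_cons, Nat.add_mul, one_mul]
      dsimp only
      split_ifs <;> omega
    · show 32 * qE E + Nat.shiftLeft (eQ sq (Nat.shiftRight E 64)) 64 = _
      rw [hE, List.length_cons, Sos.npk_succ, ← hx,
        show ∀ y, Nat.shiftLeft y 64 = y * base 64 from fun y => by simpa using shl_base 64 y 1]
      simp only [if_true, Nat.succ_ne_zero, if_false, Nat.add_sub_cancel]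
      ring
    · intro q
      dsimp only
      split
      · exact hx56
      · exact heb _
    · intro k hk
      rcases eq_or_ne k p.1 with rfl | hne
      · rw [ev_split (e := p.2) (f := p.2) hsame z v]; exact mul_self_nonneg _
      · exact hnn k (by simpa [hne] using hk)
    · rw [List.length_cons, Finset.sum_range_succ']
      simp only [Nat.succ_ne_zero, if_false, Nat.add_sub_cancel, if_true, Nat.cast_add, add_mul,
        Finset.sum_add_distrib, Nat.cast_ite, Nat.cast_zero, ite_mul, zero_mul, Finset.sum_ite_eq',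
        Finset.mem_range, hp, hval]
      have hev := ev_split (e := p.2) (f := p.2) hsame z v
      have h0 : sqX (p :: sq) z v 0 = p.2.ev .one z v := rfl
      have hs : ∀ q, sqX (p :: sq) z v (q + 1) = sqX sq z v q := fun q => by
        simp [sqX, sqBas]
      simp only [hs, h0, hev]
      push_cast
      ring

/-- The sign test. -/
theorem nnP_spec (W n : ℕ) (hW : 0 < W) (f : ℕ → ℤ) (hf : ∀ k, |f k| < half W)
    (h : nnP W (Sos.onesF W n) (Nat.mul (half W) (Sos.onesF W n)) (pk W n f) = true) :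
    ∀ k, k < n → 0 ≤ f k := by
  have hh : 2 ^ W = 2 * half W := by
    obtain ⟨m, rfl⟩ : ∃ m, W = m + 1 := ⟨W - 1, by omega⟩
    simp [half, pow_succ]; ring
  obtain ⟨y, hy⟩ : ∃ y : ℕ → ℕ, y = fun k => (f k + half W).toNat := ⟨_, rfl⟩
  have hyc : ∀ k, ((y k : ℕ) : ℤ) = f k + half W := fun k => by
    rw [hy]; exact Int.toNat_of_nonneg (by linarith [(abs_lt.1 (hf k)).1])
  have hylt : ∀ k, y k < 2 ^ W := fun k => by
    have := hyc k; have := (abs_lt.1 (hf k)).2; omega
  have hY : Int.toNat (Int.add (pk W n f) (Int.ofNat (Nat.mul (half W) (Sos.onesF W n)))) =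
      npk W n y := by
    have e : ((npk W n y : ℕ) : ℤ) = pk W n f + ((half W * Sos.onesF W n : ℕ) : ℤ) := by
      rw [Sos.onesF_eq W hW, Nat.cast_mul, Sos.ones_eq, pk, npk, Finset.mul_sum,
        ← Finset.sum_add_distrib]
      push_cast
      exact Finset.sum_congr rfl fun k _ => by rw [hyc k, add_mul]
    show (pk W n f + ((half W * Sos.onesF W n : ℕ) : ℤ)).toNat = _
    rw [← e, Int.toNat_natCast]
  simp only [nnP, hY] at h
  have h' := Nat.eq_of_beq_eq_true h
  change Sos.tops W n (npk W n y) = Sos.onesF W n at h'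
  rw [Sos.tops_npk W hW n y hylt] at h'
  have hb : ∀ k, y k / half W < base W := fun k =>
    lt_of_le_of_lt (Nat.div_le_self _ _) (hylt k)
  have hone : Sos.onesF W n = npk W n fun _ => 1 := by
    have : ((Sos.onesF W n : ℕ) : ℤ) = ((npk W n fun _ => 1 : ℕ) : ℤ) := by
      rw [Sos.onesF_eq W hW, Sos.ones_eq, npk]; push_cast; simp
    exact_mod_cast this
  intro k hk
  have h1 := congrArg (ndigs W n) h'
  rw [hone, ndigs_npk W n _ fun j _ => hb j,
    ndigs_npk W n _ fun j _ => Nat.one_lt_two_pow hW.ne'] at h1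
  have h2 : y k / half W = 1 := by
    have := congrArg (fun l => l.getD k 0) h1
    simpa [List.getD_eq_getElem?_getD, hk] using this
  have h3 : half W ≤ y k := by
    by_contra hc
    rw [Nat.div_eq_of_lt (not_le.1 hc)] at h2
    exact zero_ne_one h2
  have := hyc k
  omega

end Vale.Agent.P098.Exact.Sos6
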