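import Vale.Agent.P098.Exact.Chart6h

/-!
Shared vocabulary of the dimension six interior check: slot monomials, boxes of the chart, the
coordinates of a point, and the per-box statement that the assembly consumes.
-/

noncomputable section

namespace Vale.Agent.P098.Exact.Sos6

/-- A slot monomial `z_a z_b v^g`. -/
structure Mon where
  /-- first coordinate, below 32 -/
  a : ℕ
  /-- second coordinate, below 32 -/
  b : ℕ
  /-- exponents of the six gradient coordinates -/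
  g : List ℕ

/-- Value of a slot monomial. -/
def Mon.ev (G : Mon) (z v : ℕ → ℝ) : ℝ :=
  z G.a * z G.b * (v 0 ^ G.g.getD 0 0 * v 1 ^ G.g.getD 1 0 * v 2 ^ G.g.getD 2 0 *
    v 3 ^ G.g.getD 3 0 * v 4 ^ G.g.getD 4 0 * v 5 ^ G.g.getD 5 0)

/-- Weighted sum over slots. -/
def gsum (z v : ℕ → ℝ) : List Mon → List ℝ → ℝ
  | G :: Gs, x :: X => x * G.ev z v + gsum z v Gs X
  | _, _ => 0

/-- Weighted sum of an integer slot vector. -/
def gsumZ (z v : ℕ → ℝ) (Gs : List Mon) (X : List ℤ) : ℝ :=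
  gsum z v Gs (X.map fun x : ℤ => (x : ℝ))

/-- A box of the chart: centre and half widths, in units `1/4096`. -/
structure Box where
  /-- centre, first coordinate -/
  A : ℤ
  /-- centre, second coordinate -/
  B : ℤ
  /-- centre, third coordinate -/
  C : ℤ
  /-- half width, first coordinate -/
  a : ℤ
  /-- half width, second coordinate -/
  b : ℤ
  /-- half width, third coordinate -/
  c : ℤ

/-- Chart point of box coordinates in `[-1,1]`. -/
def Box.pt (x : Box) (s t u : ℝ) : ℝ × ℝ × ℝ :=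
  (((x.A : ℝ) + x.a * s) / 4096, ((x.B : ℝ) + x.b * t) / 4096, ((x.C : ℝ) + x.c * u) / 4096)

/-- The hypotheses on slot coordinates under which a certificate is sound. -/
structure Dom (z v : ℕ → ℝ) : Prop where
  ball : v 0 ^ 2 + v 1 ^ 2 + v 2 ^ 2 + v 3 ^ 2 + v 4 ^ 2 + v 5 ^ 2 ≤ 1
  half : 0 ≤ v 5
  prod : 0 ≤ z 30 * z 31

/-- Per-box conclusion: the interior form is at least `δ` at every point of the box. -/
def Box.Good (al : ℝ) (L : List Term) (δ : ℝ) (x : Box) : Prop :=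
  ∀ (s t u : ℝ), |s| ≤ 1 → |t| ≤ 1 → |u| ≤ 1 →
    ∀ (v : Fin 6 → ℝ) (τ : Fin 6 → Fin 6 → Fin 6 → ℝ) (a : ℝ),
      Admissible (chartH (x.pt s t u).1 (x.pt s t u).2.1 (x.pt s t u).2.2) v τ → 0 ≤ a →
      δ ≤ Qval al L (chartH (x.pt s t u).1 (x.pt s t u).2.1 (x.pt s t u).2.2) v τ a 1

/-- The thirty-two coordinates of a third derivative: `τ k i i` for `i ≠ k` (lexicographic in
`(k, i)`), `τ i j k` for `i < j < k` (lexicographic), then `a` and `b`. -/
def zvar (τ : Fin 6 → Fin 6 → Fin 6 → ℝ) (a b : ℝ) (n : ℕ) : ℝ :=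
  [τ 0 1 1, τ 0 2 2, τ 0 3 3, τ 0 4 4, τ 1 0 0, τ 1 2 2, τ 1 3 3, τ 1 4 4,
    τ 2 0 0, τ 2 1 1, τ 2 3 3, τ 2 4 4, τ 3 0 0, τ 3 1 1, τ 3 2 2, τ 3 4 4,
    τ 4 0 0, τ 4 1 1, τ 4 2 2, τ 4 3 3,
    τ 0 1 2, τ 0 1 3, τ 0 1 4, τ 0 2 3, τ 0 2 4, τ 0 3 4, τ 1 2 3, τ 1 2 4, τ 1 3 4, τ 2 3 4,
    a, b].getD n 0

/-- The gradient coordinates. -/
def vvar (v : Fin 6 → ℝ) (n : ℕ) : ℝ := [v 0, v 1, v 2, v 3, v 4, v 5].getD n 0

theorem dom_of_admissible {l v : Fin 6 → ℝ} {τ : Fin 6 → Fin 6 → Fin 6 → ℝ} {a b : ℝ}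
    (hA : Admissible l v τ) (hab : 0 ≤ a * b) : Dom (zvar τ a b) (vvar v) := by
  have h := hA.v_sq
  rw [Fin.sum_univ_six] at h
  exact ⟨by simpa [vvar] using h, by simpa [vvar] using hA.v_last, by simpa [zvar] using hab⟩

end Vale.Agent.P098.Exact.Sos6
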