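import Vale.Agent.P098.Exact.Sos6.Lin
import Vale.Agent.P098.Exact.Sos6.Layout
import Vale.Agent.P098.Exact.Sos.Assembly
import Vale.Agent.P098.Exact.Sos.Digits

/-!
Sparse rows over slots, packed into single integers with a digit bound, and the walk comparing an
expanded polynomial with rows.
-/

namespace Vale.Agent.P098.Exact.Sos6

open Sos (pk base half HP evC enc)

/-- A sparse slot vector: gaps between slots and coefficients. -/
abbrev Row := List (ℕ × ℤ)

/-- Rows keyed by exponent codes of the five eigenvalues and their cubic sum. -/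
abbrev Rows := List (ℕ × Row)

/-- Value of a row against slot values. -/
noncomputable def rv (gs : List ℝ) : Row → ℝ
  | [] => 0
  | (d, c) :: r =>
    match gs.drop d with
    | [] => 0
    | x :: gs' => c * x + rv gs' r

/-- The slots of a row are in range. -/
noncomputable def rowOK (r : Row) : ℕ → Bool :=
  List.rec (motive := fun _ => ℕ → Bool) (fun _ => true)
    (fun p _ ih n => Prod.rec (motive := fun _ => Bool)
      (fun d _ => Nat.blt d n && ih (Nat.sub n (Nat.add d 1))) p) r

/-- A packed vector with a bound of its digits. -/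
abbrev PV := ℤ × ℕ

/-- A nonpositive integer given by its absolute value, without conversion of literals. -/
noncomputable def nneg (p : ℕ) : ℤ :=
  Bool.rec (Int.negSucc (Nat.sub p 1)) (Int.ofNat 0) (Nat.beq p 0)

theorem nneg_eq (p : ℕ) : nneg p = -(p : ℤ) := by
  rcases p with _ | p
  · rfl
  · show Int.negSucc p = _
    simp [Int.negSucc_eq]

/-- A difference of naturals. -/
noncomputable def isub (a b : ℕ) : ℤ :=
  Bool.rec (nneg (Nat.sub b a)) (Int.ofNat (Nat.sub a b)) (Nat.ble b a)

theorem isub_eq (a b : ℕ) : isub a b = (a : ℤ) - b := by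
  unfold isub
  cases h : Nat.ble b a
  · have : ¬ b ≤ a := fun h' => by rw [Nat.ble_eq_true_of_le h'] at h; simp at h
    show nneg (b - a) = _
    rw [nneg_eq]
    omega
  · have := Nat.le_of_ble_eq_true h
    show ((a - b : ℕ) : ℤ) = _
    omega

/-- Sum. -/
noncomputable def iadd (x y : ℤ) : ℤ :=
  Int.rec (motive := fun _ => ℤ)
    (fun a => Int.rec (motive := fun _ => ℤ) (fun b => Int.ofNat (Nat.add a b))
      (fun b => isub a (Nat.add b 1)) y)
    (fun a => Int.rec (motive := fun _ => ℤ) (fun b => isub b (Nat.add a 1))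
      (fun b => Int.negSucc (Nat.add (Nat.add a b) 1)) y) x

theorem iadd_eq (x y : ℤ) : iadd x y = x + y := by
  cases x <;> cases y <;> simp only [iadd] <;> simp [isub_eq, Int.negSucc_eq] <;> ring

/-- Product. -/
noncomputable def imul (x y : ℤ) : ℤ :=
  Int.rec (motive := fun _ => ℤ)
    (fun a => Int.rec (motive := fun _ => ℤ) (fun b => Int.ofNat (Nat.mul a b))
      (fun b => nneg (Nat.mul a (Nat.add b 1))) y)
    (fun a => Int.rec (motive := fun _ => ℤ) (fun b => nneg (Nat.mul (Nat.add a 1) b))
      (fun b => Int.ofNat (Nat.mul (Nat.add a 1) (Nat.add b 1))) y) x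

theorem imul_eq (x y : ℤ) : imul x y = x * y := by
  cases x <;> cases y <;> simp only [imul] <;> simp [nneg_eq, Int.negSucc_eq] <;> ring

/-- Shift by bits. -/
noncomputable def ishl (x : ℤ) (k : ℕ) : ℤ :=
  Int.rec (motive := fun _ => ℤ) (fun a => Int.ofNat (Nat.shiftLeft a k))
    (fun a => nneg (Nat.shiftLeft (Nat.add a 1) k)) x

theorem ishl_eq (x : ℤ) (k : ℕ) : ishl x k = x * 2 ^ k := by
  cases x with
  | ofNat a => simp [ishl, Nat.shiftLeft_eq, Int.ofNat_eq_natCast]
  | negSucc a => simp [ishl, Nat.shiftLeft_eq, Int.negSucc_eq, nneg_eq]; ring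

/-- Operations on packed vectors. -/
noncomputable def pOps : VOps PV :=
  ⟨(0, 0), fun x y => (iadd x.1 y.1, Nat.add x.2 y.2),
    fun c x => (imul c x.1, Nat.mul (Int.natAbs c) x.2)⟩

/-- Real operations. -/
noncomputable def rOps : VOps ℝ := ⟨0, (· + ·), fun c x => c * x⟩

/-- A packed vector has a real value against slot values. -/
def PRel (W : ℕ) (gs : List ℝ) (M : PV) (x : ℝ) : Prop :=
  ∃ f : ℕ → ℤ, (∀ k, (f k).natAbs ≤ M.2) ∧ M.1 = pk W gs.length f ∧
    x = ∑ k ∈ Finset.range gs.length, (f k : ℝ) * gs.getD k 0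

theorem pk_add (W n : ℕ) (f g : ℕ → ℤ) : pk W n f + pk W n g = pk W n fun k => f k + g k := by
  simp [pk, ← Finset.sum_add_distrib, add_mul]

theorem pk_smul (W n : ℕ) (c : ℤ) (f : ℕ → ℤ) : c * pk W n f = pk W n fun k => c * f k := by
  simp [pk, Finset.mul_sum, mul_assoc]

theorem prel (W : ℕ) (gs : List ℝ) : VRel pOps rOps (PRel W gs) where
  zero := ⟨fun _ => 0, by simp [pOps], by simp [pOps, pk], by simp [rOps]⟩
  add := by
    rintro x x' y y' ⟨f, h1, h2, h3⟩ ⟨g, g1, g2, g3⟩
    refine ⟨fun k => f k + g k, fun k => ?_, ?_, ?_⟩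
    · exact le_trans (Int.natAbs_add_le _ _) (Nat.add_le_add (h1 k) (g1 k))
    · show iadd x.1 y.1 = _
      rw [iadd_eq, h2, g2, pk_add]
    · show x' + y' = _
      rw [h3, g3, ← Finset.sum_add_distrib]
      exact Finset.sum_congr rfl fun k _ => by push_cast; ring
  smul := by
    rintro c x x' ⟨f, h1, h2, h3⟩
    refine ⟨fun k => c * f k, fun k => ?_, ?_, ?_⟩
    · rw [Int.natAbs_mul]; exact Nat.mul_le_mul le_rfl (h1 k)
    · show imul c x.1 = _
      rw [imul_eq, h2, pk_smul]
    · show (c : ℝ) * x' = _
      rw [h3, Finset.mul_sum]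
      exact Finset.sum_congr rfl fun k _ => by push_cast; ring

/-- The `j`-th digit of `w` bits. -/
noncomputable def pdig (w N j : ℕ) : ℕ := Nat.mod (Nat.shiftRight N (Nat.mul w j)) (Nat.pow 2 w)

/-- A row packed with slot width `W`, slot `j` sent to the position given by the digit of `pn`. -/
noncomputable def leafU (W : ℕ) (r : Row) : ℕ → ℕ → PV :=
  List.rec (motive := fun _ => ℕ → ℕ → PV) (fun _ _ => (0, 0))
    (fun p _ ih pn j => Prod.rec (motive := fun _ => PV)
      (fun d c => pOps.add (ishl c (Nat.mul W (pdig 16 pn (Nat.add j d))), Int.natAbs c)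
        (ih pn (Nat.add (Nat.add j d) 1))) p) r

theorem unit_rel (W : ℕ) (gs : List ℝ) (c : ℤ) (i : ℕ) (hi : i < gs.length) :
    PRel W gs (ishl c (W * i), c.natAbs) ((c : ℝ) * gs.getD i 0) := by
  refine ⟨fun k => if k = i then c else 0, fun k => ?_, ?_, ?_⟩
  · show (if k = i then c else 0).natAbs ≤ c.natAbs
    split <;> simp
  · show ishl c (W * i) = _
    rw [ishl_eq, pk, Finset.sum_eq_single i (fun k _ hk => by simp [hk])
      (fun h => absurd (Finset.mem_range.2 hi) h), if_pos rfl]
    simp [base, pow_mul]
  · rw [Finset.sum_eq_single i (fun k _ hk => by simp [hk])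
      (fun h => absurd (Finset.mem_range.2 hi) h)]
    simp

theorem leafU_rel (W : ℕ) (gs : List ℝ) (pn : ℕ) : ∀ (r : Row) (j m : ℕ),
    (∀ i, j ≤ i → i < j + m → pdig 16 pn i < gs.length) → rowOK r m = true →
    PRel W gs (leafU W r pn j) (rv ((List.range' j m).map fun i => gs.getD (pdig 16 pn i) 0) r)
  | [], j, m, _, _ => (prel W gs).zero
  | (d, c) :: r, j, m, hp, h => by
    change (Nat.blt d m && rowOK r (m - (d + 1))) = true at h
    simp only [Bool.and_eq_true, Nat.blt_eq] at h
    obtain ⟨m', rfl⟩ : ∃ m', m = d + (m' + 1) := ⟨m - (d + 1), by omega⟩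
    have e2 : ((List.range' j (d + (m' + 1))).map fun i => gs.getD (pdig 16 pn i) 0).drop d =
        gs.getD (pdig 16 pn (j + d)) 0 ::
          (List.range' (j + d + 1) m').map fun i => gs.getD (pdig 16 pn i) 0 := by
      rw [← List.map_drop, List.drop_range', mul_one, Nat.add_sub_cancel_left, List.range'_succ]
      rfl
    show PRel W gs (pOps.add (ishl c (W * pdig 16 pn (j + d)), c.natAbs)
      (leafU W r pn (j + d + 1))) _
    simp only [rv, e2]
    exact (prel W gs).add (unit_rel W gs c _ (hp _ (by omega) (by omega)))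
      (leafU_rel W gs pn r _ m' (fun i h1 h2 => hp i (by omega) (by omega))
        (by simpa [show d + (m' + 1) - (d + 1) = m' by omega] using h.2))

/-! ### Keyed rows as polynomials -/

/-- The `i`-th exponent of a key. -/
def kexp (key i : ℕ) : ℕ := Nat.mod (Nat.div key (Nat.pow 16 i)) 16

/-- A monomial as a nested list. -/
noncomputable def monoL {M : Type} (z : M) (i : ℕ) (x : M) : List M :=
  Nat.rec (motive := fun _ => List M) [x] (fun _ ih => z :: ih) i

theorem evP_monoL {M : Type} {o : VOps M} {φ : M → ℝ} (H : VVal o φ) (s : ℝ) (x : M) :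
    ∀ i, evP φ s (monoL o.zero i x) = s ^ i * φ x
  | 0 => by simp [monoL, evP]
  | i + 1 => by
    rw [show monoL o.zero (i + 1) x = o.zero :: monoL o.zero i x from rfl]
    simp [evP, H.zero, evP_monoL H s x i, pow_succ]
    ring

theorem monoL_rel {M N : Type} {R : M → N → Prop} {z x : M} {z' x' : N} (hz : R z z')
    (hx : R x x') : ∀ i, List.Forall₂ R (monoL z i x) (monoL z' i x')
  | 0 => .cons hx .nil
  | i + 1 => .cons hz (monoL_rel hz hx i)

variable {M : Type}

/-- Operations on polynomials in four variables, the first outermost. -/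
noncomputable def VOps.poly4 (o : VOps M) : VOps (List (List (List (List M)))) := o.poly3.poly

/-- Operations on polynomials in five variables, the first outermost. -/
noncomputable def VOps.poly5 (o : VOps M) : VOps (List (List (List (List (List M))))) := o.poly4.poly

/-- Value of a polynomial in four variables. -/
noncomputable def ev4 (φ : M → ℝ) (g s t u : ℝ) (L : List (List (List (List M)))) : ℝ :=
  evP (ev3 φ s t u) g L

/-- Operations on polynomials in six variables, the first outermost. -/
noncomputable def VOps.poly6 (o : VOps M) :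
    VOps (List (List (List (List (List (List M)))))) := o.poly5.poly

/-- Value of a polynomial in five variables. -/
noncomputable def ev5 (φ : M → ℝ) (l : ℕ → ℝ) (L : List (List (List (List (List M))))) : ℝ :=
  evP (ev4 φ (l 1) (l 2) (l 3) (l 4)) (l 0) L

/-- Value of a polynomial in the cubic sum and five eigenvalues. -/
noncomputable def ev6 (φ : M → ℝ) (l : ℕ → ℝ) (L : List (List (List (List (List (List M)))))) :
    ℝ :=
  evP (ev5 φ l) (l 5) L

/-- Rows of one direction sent to another by swapping axis `k` with the first. -/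
structure Part where
  /-- the swapped axis -/
  k : ℕ
  /-- target positions of the slots, sixteen bits each -/
  pn : ℕ
  /-- the rows -/
  rows : Rows

/-- Swap of `0` and `k`. -/
def sw (k i : ℕ) : ℕ := if i = 0 then k else if i = k then 0 else i

/-- A key with swapped exponents. -/
def keyOf (k key : ℕ) : ℕ × ℕ × ℕ × ℕ × ℕ × ℕ :=
  (kexp key (sw k 0), kexp key (sw k 1), kexp key (sw k 2), kexp key (sw k 3), kexp key (sw k 4),
    kexp key 5)

/-- One keyed row as a polynomial. -/
noncomputable def rowP (o : VOps M) (x : M) (e : ℕ × ℕ × ℕ × ℕ × ℕ × ℕ) :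
    List (List (List (List (List (List M))))) :=
  monoL [] e.2.2.2.2.2 (monoL [] e.1 (monoL [] e.2.1 (monoL [] e.2.2.1 (monoL [] e.2.2.2.1
    (monoL o.zero e.2.2.2.2.1 x)))))

/-- Adjacent pairs added; `c` is an element waiting for a partner. -/
noncomputable def pairUp {X : Type} (o : VOps X) (L : List X) : Option X → List X :=
  List.rec (motive := fun _ => Option X → List X)
    (fun c => Option.rec (motive := fun _ => List X) [] (fun a => [a]) c)
    (fun x _ ih c => Option.rec (motive := fun _ => List X) (ih (some x))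
      (fun a => o.add a x :: ih none) c) L

/-- Sum along a balanced tree. -/
noncomputable def balSum {X : Type} (o : VOps X) (fuel : ℕ) : List X → X :=
  Nat.rec (motive := fun _ => List X → X) (fun L => L.foldr o.add o.zero)
    (fun _ ih L => ih (pairUp o L none)) fuel

theorem balSum_val {X : Type} {o : VOps X} {φ : X → ℝ} (H : VVal o φ) :
    ∀ (n : ℕ) (L : List X), φ (balSum o n L) = (L.map φ).sum := by
  have hp : ∀ (L : List X) (c : Option X),
      ((pairUp o L c).map φ).sum = (c.elim 0 φ) + (L.map φ).sum := by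
    intro L
    induction L with
    | nil => intro c; cases c <;> simp [pairUp]
    | cons x L ih =>
      intro c
      cases c with
      | none =>
        show ((pairUp o L (some x)).map φ).sum = _
        simp [ih]
      | some a =>
        show ((o.add a x :: pairUp o L none).map φ).sum = _
        simp [ih, H.add]
        ring
  intro n
  induction n with
  | zero =>
    intro L
    show φ (L.foldr o.add o.zero) = _
    induction L with
    | nil => simpa using H.zero
    | cons x L ih => simp [H.add, ih]
  | succ n ih =>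
    intro L
    show φ (balSum o n (pairUp o L none)) = _
    rw [ih, hp]
    simp

theorem balSum_rel {X Y : Type} {o : VOps X} {p : VOps Y} {R : X → Y → Prop} (H : VRel o p R) :
    ∀ (n : ℕ) {L : List X} {L' : List Y}, List.Forall₂ R L L' →
      R (balSum o n L) (balSum p n L') := by
  have hp : ∀ {L : List X} {L' : List Y}, List.Forall₂ R L L' → ∀ (c : Option X) (c' : Option Y),
      Option.Rel R c c' → List.Forall₂ R (pairUp o L c) (pairUp p L' c') := by
    intro L L' h
    induction h with
    | nil =>
      intro c c' hc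
      cases hc with
      | none => exact .nil
      | some h => exact .cons h .nil
    | cons hx _ ih =>
      intro c c' hc
      cases hc with
      | none => exact ih _ _ (.some hx)
      | some h => exact .cons (H.add h hx) (ih _ _ .none)
  intro n
  induction n with
  | zero =>
    intro L L' h
    induction h with
    | nil => exact H.zero
    | cons hx _ ih => exact H.add hx ih
  | succ n ih => intro L L' h; exact ih (hp h none none .none)

/-- The keyed rows of all parts as single terms. -/
noncomputable def termsP (o : VOps M) (leaf : Row → ℕ → ℕ → M) (P : List Part) :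
    List (List (List (List (List (List (List M)))))) :=
  List.rec (motive := fun _ => List (List (List (List (List (List (List M))))))) []
    (fun p _ ih => List.rec (motive := fun _ => List (List (List (List (List (List (List M))))))) ih
      (fun q _ ih2 => Prod.rec (motive := fun _ => List (List (List (List (List (List (List M)))))))
        (fun key r => rowP o (leaf r p.pn 0) (keyOf p.k key) :: ih2) q) p.rows) P

/-- Parts as a polynomial in the eigenvalues. -/
noncomputable def mkP (o : VOps M) (leaf : Row → ℕ → ℕ → M) (P : List Part) :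
    List (List (List (List (List (List M))))) :=
  balSum o.poly6 20 (termsP o leaf P)

/-- Value of keyed rows. -/
noncomputable def rowsVal (gs : List ℝ) (l : ℕ → ℝ) (rs : Rows) : ℝ :=
  (rs.map fun p => l 0 ^ kexp p.1 0 * l 1 ^ kexp p.1 1 * l 2 ^ kexp p.1 2 * l 3 ^ kexp p.1 3 *
    l 4 ^ kexp p.1 4 * l 5 ^ kexp p.1 5 * rv gs p.2).sum

/-- Value of parts. -/
noncomputable def partsVal (gs : List ℝ) (l : ℕ → ℝ) (P : List Part) : ℝ :=
  (P.map fun p => rowsVal ((List.range' 0 gs.length).map fun i => gs.getD (pdig 16 p.pn i) 0) (fun i => l (sw p.k i)) p.rows).sum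

theorem rOps_val : VVal rOps id :=
  ⟨rfl, fun _ _ => rfl, fun _ _ => rfl⟩

/-- The real leaf. -/
noncomputable def leafR (gs : List ℝ) (r : Row) (pn j : ℕ) : ℝ :=
  rv ((List.range' j (gs.length - j)).map fun i => gs.getD (pdig 16 pn i) 0) r

theorem key_val (l : ℕ → ℝ) (k : ℕ) (hk : k < 5) (key : ℕ) :
    l 0 ^ (keyOf k key).1 * l 1 ^ (keyOf k key).2.1 * l 2 ^ (keyOf k key).2.2.1 *
        l 3 ^ (keyOf k key).2.2.2.1 * l 4 ^ (keyOf k key).2.2.2.2.1 *
        l 5 ^ (keyOf k key).2.2.2.2.2 =
      l (sw k 0) ^ kexp key 0 * l (sw k 1) ^ kexp key 1 * l (sw k 2) ^ kexp key 2 *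
        l (sw k 3) ^ kexp key 3 * l (sw k 4) ^ kexp key 4 * l (sw k 5) ^ kexp key 5 := by
  interval_cases k <;> simp [keyOf, sw, -mul_eq_mul_left_iff, -mul_eq_mul_right_iff] <;> ring

theorem ev6_mkP (gs : List ℝ) (l : ℕ → ℝ) (P : List Part) (hP : ∀ p ∈ P, p.k < 5) :
    ev6 id l (mkP rOps (leafR gs) P) = partsVal gs l P := by
  have H1 := poly_val rOps_val (l 4)
  have H2 := poly_val H1 (l 3)
  have H3 := poly_val H2 (l 2)
  have H4 := poly_val H3 (l 1)
  have H5 := poly_val H4 (l 0)
  have H6 := poly_val H5 (l 5)
  refine (balSum_val H6 20 (termsP rOps (leafR gs) P)).trans ?_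
  induction P with
  | nil => rfl
  | cons p P ih =>
    obtain ⟨k, pn, rows⟩ := p
    have hk : k < 5 := hP ⟨k, pn, rows⟩ (by simp)
    have ih' := ih fun q hq => hP q (by simp [hq])
    simp only [partsVal, List.map_cons, List.sum_cons] at ih' ⊢
    clear hP ih
    induction rows with
    | nil => simpa [termsP, rowsVal] using ih'
    | cons q rows ih2 =>
      obtain ⟨key, r⟩ := q
      show ((rowP rOps (leafR gs r pn 0) (keyOf k key) ::
        termsP rOps (leafR gs) (⟨k, pn, rows⟩ :: P)).map _).sum = _
      simp only [rowsVal, List.map_cons, List.sum_cons] at ih2 ⊢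
      rw [ih2, add_assoc]
      congr 1
      rw [rowP, show ([] : List (List (List (List (List ℝ))))) = rOps.poly5.zero from rfl,
        evP_monoL (o := rOps.poly5) H5, show ([] : List (List (List (List ℝ)))) = rOps.poly4.zero from rfl,
        evP_monoL (o := rOps.poly4) H4, show ([] : List (List (List ℝ))) = rOps.poly3.zero from rfl,
        evP_monoL (o := rOps.poly3) H3, show ([] : List (List ℝ)) = rOps.poly2.zero from rfl,
        evP_monoL (o := rOps.poly2) H2, show ([] : List ℝ) = rOps.poly.zero from rfl,
        evP_monoL (o := rOps.poly) H1, evP_monoL rOps_val, ← key_val l k hk key]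
      simp only [id, leafR, Nat.sub_zero]
      ring

/-- All slots of all rows are in range. -/
noncomputable def rowsOK (n : ℕ) (rs : Rows) : Bool :=
  List.rec (motive := fun _ => Bool) true (fun p _ ih => rowOK p.2 n && ih) rs

/-- All parts are in range. -/
noncomputable def partsOK (n : ℕ) (P : List Part) : Bool :=
  P.all fun p => Nat.blt p.k 5 && ((List.range n).all fun i => Nat.blt (pdig 16 p.pn i) n) &&
    rowsOK n p.rows

theorem mkP_rel (W : ℕ) (gs : List ℝ) (P : List Part) (h : partsOK gs.length P = true) :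
    List.Forall₂ (List.Forall₂ (List.Forall₂ (Rel3 (PRel W gs)))) (mkP pOps (leafU W) P) (mkP rOps (leafR gs) P) := by
  have z := (prel W gs).zero
  refine balSum_rel (poly_rel (poly_rel (poly_rel (poly_rel (poly_rel (poly_rel (prel W gs))))))) 20 ?_
  induction P with
  | nil => exact .nil
  | cons p P ih =>
    obtain ⟨k, pn, rows⟩ := p
    simp only [partsOK, List.all_cons, Bool.and_eq_true, List.all_eq_true, Nat.blt_eq,
      List.mem_range] at h
    have ih' := ih (by simpa [partsOK] using h.2)
    obtain ⟨⟨⟨-, hps⟩, hr⟩, -⟩ := h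
    clear ih
    induction rows with
    | nil => exact ih'
    | cons q rows ih2 =>
      obtain ⟨key, r⟩ := q
      change (rowOK r gs.length && rowsOK gs.length rows) = true at hr
      simp only [Bool.and_eq_true] at hr
      exact .cons (monoL_rel .nil (monoL_rel .nil (monoL_rel .nil (monoL_rel .nil (monoL_rel .nil
          (monoL_rel z (show PRel W gs (leafU W r pn 0) (leafR gs r pn 0) from
            leafU_rel W gs pn r 0 gs.length (fun i _ hi => hps i (by omega)) hr.1) _) _) _) _) _) _) (ih2 hr.2)

/-! ### The walk -/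

/-- Exponents of a slot monomial. -/
def slotExp (G : Mon) : List ℕ :=
  (List.range 38).map (fun i => (if i = G.a then 1 else 0) + (if i = G.b then 1 else 0)) ++
    [G.g.getD 0 0, G.g.getD 1 0, G.g.getD 2 0, G.g.getD 3 0, G.g.getD 4 0, G.g.getD 5 0]

/-- A slot monomial fits the code. -/
def slotOK (G : Mon) : Bool :=
  Nat.blt G.a 38 && Nat.blt G.b 38 && (slotExp G).all fun e => Nat.blt e 16

/-- Codes of the slots. -/
def slotCodes (gl : List Mon) : List ℕ := gl.map fun G => enc (slotExp G)

/-- Code of a slot monomial in closed form. -/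
noncomputable def slotC (G : Mon) : ℕ :=
  Nat.add (Nat.add (Nat.pow 16 G.a) (Nat.pow 16 G.b)) (Nat.mul (Nat.pow 16 38)
    (Nat.add (G.g.getD 0 0) (Nat.mul 16 (Nat.add (G.g.getD 1 0) (Nat.mul 16 (Nat.add (G.g.getD 2 0)
      (Nat.mul 16 (Nat.add (G.g.getD 3 0) (Nat.mul 16 (Nat.add (G.g.getD 4 0)
        (Nat.mul 16 (G.g.getD 5 0))))))))))))

/-- A slot monomial fits the code, tested in closed form. -/
noncomputable def slotF (G : Mon) : Bool :=
  Nat.blt G.a 38 && Nat.blt G.b 38 && Nat.blt (G.g.getD 0 0) 16 && Nat.blt (G.g.getD 1 0) 16 &&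
    Nat.blt (G.g.getD 2 0) 16 && Nat.blt (G.g.getD 3 0) 16 && Nat.blt (G.g.getD 4 0) 16 &&
      Nat.blt (G.g.getD 5 0) 16

/-- Codes of the slots in closed form. -/
noncomputable def slotCs (gl : List Mon) : List ℕ := gl.map slotC

theorem enc_append : ∀ l m : List ℕ, enc (l ++ m) = enc l + 16 ^ l.length * enc m
  | [], m => by simp [enc]
  | e :: l, m => by
    simp only [List.cons_append, enc, enc_append l m, List.length_cons, pow_succ]
    ring

theorem enc_map_add (f g : ℕ → ℕ) : ∀ L : List ℕ,
    enc (L.map fun i => f i + g i) = enc (L.map f) + enc (L.map g)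
  | [] => rfl
  | i :: L => by
    simp only [List.map_cons, enc, enc_map_add f g L]
    ring

theorem enc_ind : ∀ n a : ℕ,
    enc ((List.range n).map fun i => if i = a then 1 else 0) = if a < n then 16 ^ a else 0
  | 0, a => by simp [enc]
  | n + 1, a => by
    rw [List.range_succ, List.map_append, enc_append, enc_ind n a, List.length_map,
      List.length_range]
    simp only [List.map_cons, List.map_nil, enc]
    split_ifs <;> simp_all <;> omega

theorem slotF_spec (G : Mon) (h : slotF G = true) :
    slotOK G = true ∧ slotC G = enc (slotExp G) := by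
  simp only [slotF, Bool.and_eq_true, Nat.blt_eq] at h
  obtain ⟨⟨⟨⟨⟨⟨⟨ha, hb⟩, h0⟩, h1⟩, h2⟩, h3⟩, h4⟩, h5⟩ := h
  refine ⟨?_, ?_⟩
  · simp only [slotOK, slotExp, Bool.and_eq_true, Nat.blt_eq, List.all_eq_true]
    refine ⟨⟨ha, hb⟩, fun e he => ?_⟩
    simp only [List.mem_append, List.mem_map, List.mem_cons, List.not_mem_nil, or_false] at he
    rcases he with ⟨i, -, rfl⟩ | rfl | rfl | rfl | rfl | rfl | rfl
    · split_ifs <;> norm_num
    all_goals assumption
  · rw [slotExp, enc_append, enc_map_add, enc_ind, enc_ind, if_pos ha, if_pos hb, List.length_map,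
      List.length_range]
    rfl

theorem slotF_all {gl : List Mon} (h : gl.all slotF = true) :
    gl.all slotOK = true ∧ slotCs gl = slotCodes gl := by
  rw [List.all_eq_true] at h
  exact ⟨List.all_eq_true.2 fun G hG => (slotF_spec G (h G hG)).1,
    List.map_congr_left fun G hG => (slotF_spec G (h G hG)).2⟩

/-- Coded monomials of one row. -/
noncomputable def rowCodes (key : ℕ) (r : Row) (rest : List (ℤ × ℕ)) : List ℕ → List (ℤ × ℕ) :=
  List.rec (motive := fun _ => List ℕ → List (ℤ × ℕ)) (fun _ => rest)
    (fun p _ ih cs => Prod.rec (motive := fun _ => List (ℤ × ℕ))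
      (fun d c => List.rec (motive := fun _ => List (ℤ × ℕ)) rest
        (fun sc cs' _ => (c, Nat.add key (Nat.mul 16777216 sc)) :: ih cs') (cs.drop d)) p) r

/-- Coded monomials of keyed rows. -/
noncomputable def allCodes (cs : List ℕ) (rs : Rows) : List (ℤ × ℕ) :=
  List.rec (motive := fun _ => List (ℤ × ℕ)) []
    (fun p _ ih => Prod.rec (motive := fun _ => List (ℤ × ℕ))
      (fun key r => rowCodes key r ih cs) p) rs

/-- Value of coded monomials in fifty variables. -/
noncomputable def evL (L : List (ℤ × ℕ)) (x : List ℝ) : ℝ :=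
  (L.map fun p => (p.1 : ℝ) * evC 50 p.2 x).sum

/-- Consume the monomials of a polynomial from a list; `code` holds the exponents so far. -/
noncomputable def chk (p : HP) : ℕ → ℕ → List (ℤ × ℕ) → Option (List (ℤ × ℕ)) :=
  HP.rec (motive := fun _ => ℕ → ℕ → List (ℤ × ℕ) → Option (List (ℤ × ℕ)))
    (fun z code _ L => Bool.rec
      (List.rec (motive := fun _ => Option (List (ℤ × ℕ))) none
        (fun e L' _ => Prod.rec (motive := fun _ => Option (List (ℤ × ℕ)))
          (fun c d => Bool.rec none (some L')
            (Nat.beq d code && Nat.beq (Int.natAbs (Int.sub c z)) 0)) e) L)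
      (some L) (Nat.beq (Int.natAbs z) 0))
    (fun _ _ ihh iht code i L =>
      Option.rec (motive := fun _ => Option (List (ℤ × ℕ))) none
        (fun L' => Bool.rec none (iht (Nat.add code (Nat.pow 16 i)) i L')
          (Nat.blt i 50 && Nat.blt (Nat.mod (Nat.div code (Nat.pow 16 i)) 16) 15))
        (ihh code (Nat.add i 1) L)) p

theorem chk_spec : ∀ (p : HP) (code i : ℕ) (L L' : List (ℤ × ℕ)) (x : List ℝ),
    chk p code i L = some L' → evL L x = evC 50 code x * p.ev (x.drop i) + evL L' x
  | .c z, code, i, L, L', x, h => by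
    change (Bool.rec _ (some L) (Nat.beq (Int.natAbs z) 0) : Option (List (ℤ × ℕ))) = some L' at h
    cases e : Nat.beq (Int.natAbs z) 0
    · rw [e] at h
      cases L with
      | nil => simp at h
      | cons q L₀ =>
        obtain ⟨c, d⟩ := q
        cases e2 : (Nat.beq d code && Nat.beq (Int.natAbs (Int.sub c z)) 0)
        · simp [e2] at h
        · simp only [e2] at h
          simp only [Bool.and_eq_true] at e2
          have hd : d = code := Nat.eq_of_beq_eq_true e2.1
          have hc : c = z := sub_eq_zero.1 (Int.natAbs_eq_zero.1 (Nat.eq_of_beq_eq_true e2.2))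
          cases h
          simp [evL, HP.ev, hd, hc]
          ring
    · rw [e] at h
      cases h
      simp [HP.ev, Int.natAbs_eq_zero.1 (Nat.eq_of_beq_eq_true e)]
  | .n h t, code, i, L, L', x, hh => by
    change (Option.rec (motive := fun _ => Option (List (ℤ × ℕ))) none
      (fun L1 => Bool.rec none (chk t (code + 16 ^ i) i L1)
        (Nat.blt i 50 && Nat.blt (code / 16 ^ i % 16) 15))
      (chk h code (i + 1) L)) = some L' at hh
    cases e : chk h code (i + 1) L with
    | none => simp [e] at hh
    | some L1 =>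
      cases e2 : (Nat.blt i 50 && Nat.blt (code / 16 ^ i % 16) 15)
      · simp [e, e2] at hh
      · simp only [e, e2] at hh
        simp only [Bool.and_eq_true, Nat.blt_eq] at e2
        rw [chk_spec h code (i + 1) L L1 x e, chk_spec t (code + 16 ^ i) i L1 L' x hh,
          Sos.evC_incr i 50 code x e2.1 e2.2]
        simp only [HP.ev, List.tail_drop, List.headD_eq_head?_getD, List.head?_drop,
          List.getD_eq_getElem?_getD]
        ring

/-- A polynomial has the given rows. -/
noncomputable def pieceOK (p : HP) (cs : List ℕ) (rs : Rows) : Bool :=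
  (rs.all fun q => Nat.blt q.1 16777216) && rowsOK cs.length rs &&
    Option.rec (motive := fun _ => Bool) false (fun L => L.isEmpty) (chk p 0 0 (allCodes cs rs))

theorem evC_split : ∀ (p q a b : ℕ) (x : List ℝ), a < 16 ^ p →
    evC (p + q) (a + 16 ^ p * b) x = evC p a x * evC q b (x.drop p)
  | 0, q, a, b, x, h => by
    rw [pow_zero, Nat.lt_one_iff] at h
    subst h
    simp [evC]
  | p + 1, q, a, b, x, h => by
    rw [show p + 1 + q = (p + q) + 1 by omega]
    have e : (16 : ℕ) ^ (p + 1) = 16 * 16 ^ p := pow_succ' 16 p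
    have h1 : (a + 16 ^ (p + 1) * b) % 16 = a % 16 := by
      rw [e, mul_assoc, Nat.add_mul_mod_self_left]
    have h2 : (a + 16 ^ (p + 1) * b) / 16 = a / 16 + 16 ^ p * b := by
      rw [e, mul_assoc, Nat.add_mul_div_left _ _ (by norm_num)]
    simp only [evC, h1, h2]
    rw [evC_split p q (a / 16) b x.tail (Nat.div_lt_of_lt_mul (by rwa [← e]))]
    simp [List.drop_tail]
    ring

/-- Coordinates of the third derivative in a variable list. -/
noncomputable def zOf (x : List ℝ) (n : ℕ) : ℝ := x.getD (6 + n) 0

/-- Gradient coordinates in a variable list. -/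
noncomputable def vOf (x : List ℝ) (n : ℕ) : ℝ := x.getD (44 + n) 0

/-- Slot values at a variable list. -/
noncomputable def slotVals (gl : List Mon) (x : List ℝ) : List ℝ :=
  gl.map fun G => G.ev (zOf x) (vOf x)

theorem evC_slot (G : Mon) (h : slotOK G = true) (x : List ℝ) :
    evC 44 (enc (slotExp G)) (x.drop 6) = G.ev (zOf x) (vOf x) := by
  simp only [slotOK, Bool.and_eq_true, Nat.blt_eq, List.all_eq_true] at h
  obtain ⟨⟨ha, hb⟩, hs⟩ := h
  rw [Sos.evC_enc 44 _ _ (by simp [slotExp]) hs]
  have hc : ∀ (e : ℕ) (l : List ℕ) (o : ℕ),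
      HP.evMon (e :: l) (x.drop o) = x.getD o 0 ^ e * HP.evMon l (x.drop (o + 1)) := fun e l o => by
    simp [HP.evMon, List.headD_eq_head?_getD, List.getD_eq_getElem?_getD]
  rw [slotExp, Sos.evMon_append, Sos.evMon_map_range, List.length_map, List.length_range,
    List.drop_drop]
  have hz : ∀ i, (x.drop 6).getD i 0 = x.getD (6 + i) 0 := fun i => by
    simp [List.getD_eq_getElem?_getD]
  simp only [hz, pow_add, Finset.prod_mul_distrib, pow_ite, pow_one, pow_zero,
    Finset.prod_ite_eq', Finset.mem_range, ha, hb, if_true, Nat.reduceAdd, hc, Mon.ev, zOf, vOf]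
  simp only [HP.evMon, Nat.reduceAdd]
  ring

theorem evC_key : ∀ (key : ℕ) (x : List ℝ),
    evC 6 key x = x.getD 0 0 ^ kexp key 0 * x.getD 1 0 ^ kexp key 1 * x.getD 2 0 ^ kexp key 2 *
      x.getD 3 0 ^ kexp key 3 * x.getD 4 0 ^ kexp key 4 * x.getD 5 0 ^ kexp key 5 := by
  intro key x
  have hx : ∀ y : List ℝ, y.headD 0 = y.getD 0 0 := fun y => by
    cases y <;> simp
  have hk : ∀ i, kexp key i = key / 16 ^ i % 16 := fun i => rfl
  simp only [evC, hx, List.getD_eq_getElem?_getD, List.getElem?_tail, hk, Nat.reduceAdd]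
  simp only [Nat.div_div_eq_div_mul, Nat.reduceMul, Nat.reducePow, Nat.div_one, mul_one]
  ring

theorem evL_rowCodes (key : ℕ) (hk : key < 16777216) (x : List ℝ) (rest : List (ℤ × ℕ)) :
    ∀ (r : Row) (gl : List Mon), gl.all slotOK = true → rowOK r gl.length = true →
      evL (rowCodes key r rest (slotCodes gl)) x =
        evC 6 key x * rv (slotVals gl x) r + evL rest x
  | [], gl, _, _ => by simp [rowCodes, rv]
  | (d, c) :: r, gl, hg, h => by
    change (Nat.blt d gl.length && rowOK r (gl.length - (d + 1))) = true at h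
    simp only [Bool.and_eq_true, Nat.blt_eq] at h
    obtain ⟨G, gl', e⟩ : ∃ G gl', gl.drop d = G :: gl' :=
      ⟨gl[d], gl.drop (d + 1), (List.getElem_cons_drop h.1).symm⟩
    have hl : gl'.length = gl.length - (d + 1) := by
      have := congrArg List.length e
      simp at this
      omega
    have e1 : (slotCodes gl).drop d = enc (slotExp G) :: slotCodes gl' := by
      rw [slotCodes, ← List.map_drop, e]; rfl
    have e2 : (slotVals gl x).drop d = G.ev (zOf x) (vOf x) :: slotVals gl' x := by
      rw [slotVals, ← List.map_drop, e]; rfl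
    have hG : slotOK G = true ∧ gl'.all slotOK = true := by
      have : ∀ y ∈ gl.drop d, slotOK y = true := fun y hy =>
        List.all_eq_true.1 hg y (List.mem_of_mem_drop hy)
      rw [e] at this
      exact ⟨this G (by simp), List.all_eq_true.2 fun y hy => this y (by simp [hy])⟩
    have ih := evL_rowCodes key hk x rest r gl' hG.2 (hl ▸ h.2)
    show evL (List.rec (motive := fun _ => List (ℤ × ℕ)) rest
      (fun sc cs' _ => (c, key + 16777216 * sc) :: rowCodes key r rest cs')
      ((slotCodes gl).drop d)) x = _
    rw [e1]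
    simp only [rv, e2, evL, List.map_cons, List.sum_cons] at ih ⊢
    rw [ih, show (50 : ℕ) = 6 + 44 from rfl, show (16777216 : ℕ) = 16 ^ 6 from rfl,
      evC_split 6 44 key _ x (by simpa using hk), evC_slot G hG.1 x]
    ring

/-- **A polynomial with checked rows has their value.** -/
theorem pieceOK_spec (p : HP) (gl : List Mon) (rs : Rows) (hg : gl.all slotOK = true)
    (h : pieceOK p (slotCodes gl) rs = true) (x : List ℝ) :
    p.ev x = rowsVal (slotVals gl x) (fun i => x.getD i 0) rs := by
  simp only [pieceOK, Bool.and_eq_true, List.all_eq_true, Nat.blt_eq] at h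
  obtain ⟨⟨hk, hr⟩, hc⟩ := h
  rw [show (slotCodes gl).length = gl.length by simp [slotCodes]] at hr
  cases e : chk p 0 0 (allCodes (slotCodes gl) rs) with
  | none => simp [e] at hc
  | some L =>
    rw [e] at hc
    obtain rfl : L = [] := by simpa using hc
    have h1 := chk_spec p 0 0 _ _ x e
    simp [Sos.evC_zero, evL] at h1
    rw [← h1]
    clear h1 e hc
    induction rs with
    | nil => simp [allCodes, rowsVal]
    | cons q rs ih =>
      obtain ⟨key, r⟩ := q
      change (rowOK r gl.length && rowsOK gl.length rs) = true at hr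
      simp only [Bool.and_eq_true] at hr
      have h2 := evL_rowCodes key (hk (key, r) (by simp)) x (allCodes (slotCodes gl) rs) r gl hg hr.1
      have ih' := ih (fun q hq => hk q (by simp [hq])) hr.2
      simp only [evL] at h2 ih'
      rw [show allCodes (slotCodes gl) ((key, r) :: rs) =
        rowCodes key r (allCodes (slotCodes gl) rs) (slotCodes gl) from rfl, h2, ih', evC_key]
      simp [rowsVal]

end Vale.Agent.P098.Exact.Sos6
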