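import Vale.Agent.P098.Exact.Sos6.GenK
import Vale.Agent.P098.Exact.Sos6.Rows
import Vale.Agent.P098.Exact.Sos.FastPoly

/-! The grouped interior form as polynomials in the eigenvalue and slot variables, and rows checked
against them for one direction give the value of the whole form. -/

namespace Vale.Agent.P098.Exact.Sos6

open Sos (HP evC enc)

/-- A homomorphism of operations. -/
structure Hom {R S : Type} (o : Ops R) (p : Ops S) (f : R → S) : Prop where
  cst : ∀ z, f (o.cst z) = p.cst z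
  add : ∀ a b, f (o.add a b) = p.add (f a) (f b)
  mul : ∀ a b, f (o.mul a b) = p.mul (f a) (f b)

/-- Image of a point. -/
def Point.map {R S : Type} (f : R → S) (x : Point R) : Point S :=
  ⟨fun n => f (x.z n), fun n => f (x.v n), fun n => f (x.l n), f x.t⟩

section Hom

variable {R S : Type} {o : Ops R} {p : Ops S} {f : R → S} (H : Hom o p f) (x : Point R)
include H

theorem hom_sumL : ∀ l : List R, f (sumL o l) = sumL p (l.map f)
  | [] => H.cst 0
  | [a] => rfl
  | a :: b :: l => by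
    rw [sumL, H.add, hom_sumL (b :: l)]
    rfl

theorem hom_sum6 (φ : ℕ → R) : f (sum6 o φ) = sum6 p fun i => f (φ i) := by
  simp [sum6, H.add]

theorem hom_pw (a : R) : ∀ k, f (pw o a k) = pw p (f a) k
  | 0 => H.cst 1
  | 1 => rfl
  | k + 2 => by rw [pw, H.mul, hom_pw a (k + 1)]; rfl

theorem hom_tauS (z : ℕ → R) (i j k : ℕ) :
    f (tauS o z i j k) = tauS p (fun n => f (z n)) i j k := by
  simp only [tauS, apply_ite f, H.cst, H.mul, hom_sumL H, List.map_map, Function.comp_def]

theorem hom_Hent (k i m : ℕ) : f (Hent o x k i m) = Hent p (x.map f) k i m := by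
  simp only [Hent, tauG, apply_ite f, H.cst, H.mul, hom_tauS H, Point.map]

theorem hom_agk (k : ℕ) : f (agk o x k) = agk p (x.map f) k := by
  simp only [agk, apply_ite f, H.cst, H.mul, Point.map]

theorem hom_hav (n k i : ℕ) : f (hav o x n k i) = hav p (x.map f) n k i := by
  simp only [hav, hom_sum6 H, H.mul, hom_Hent H, hom_pw H]
  rfl

theorem hom_trH (n k : ℕ) : f (trH o x n k) = trH p (x.map f) n k := by
  simp only [trH, hom_sum6 H, H.mul, hom_Hent H, hom_pw H]
  rfl

theorem hom_dwK (k : ℕ) : f (dwK o x k) = dwK p (x.map f) k := by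
  simp only [dwK, apply_ite f, H.cst, H.mul, Point.map]

theorem hom_valK (φ : Form) (k : ℕ) : f (valK o x φ k) = valK p (x.map f) φ k := by
  cases φ <;> simp only [valK, hom_sum6 H, hom_trH H, hom_agk H, hom_dwK H, H.mul, hom_hav H,
    hom_pw H] <;> rfl

theorem hom_dvalK (φ : Form) (k : ℕ) : f (dvalK o x φ k) = dvalK p (x.map f) φ k := by
  cases φ <;> simp only [dvalK, hom_sum6 H, hom_agk H, H.mul, H.add, H.cst, hom_hav H, hom_pw H,
    hom_Hent H] <;> rfl

theorem hom_valL (φ : Form) : f (valL o x φ) = valL p (x.map f) φ := by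
  cases φ <;> simp only [valL, hom_sum6 H, H.mul, H.cst, hom_pw H] <;> rfl

theorem hom_monG (a b c e : ℕ) : f (monG o x a b c e) = monG p (x.map f) a b c e := by
  simp only [monG, H.mul, hom_pw H, hom_sum6 H]
  rfl

theorem hom_gsumF (φ : ITerm → R) (φ' : ITerm → S) (hφ : ∀ t, f (φ t) = φ' t) (g : Form) :
    ∀ T : List ITerm, f (gsumF o φ g T) = gsumF p φ' g T
  | [] => H.cst 0
  | t :: T => by simp only [gsumF, apply_ite f, H.add, hφ, hom_gsumF φ φ' hφ g T]

theorem hom_fsumF (T : List ITerm) (φ : ITerm → R) (φ' : ITerm → S) (hφ : ∀ t, f (φ t) = φ' t)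
    (ψ : Form → R) (ψ' : Form → S) (hψ : ∀ g, f (ψ g) = ψ' g) :
    f (fsumF o T φ ψ) = fsumF p T φ' ψ' := by
  simp only [fsumF, hom_sumL H, List.map_map, Function.comp_def, H.mul, hψ,
    hom_gsumF H φ φ' hφ]

theorem hom_pieceG (an : ℤ) (den : ℕ) (T : List ITerm) (k : ℕ) :
    f (pieceG o x an den T k) = pieceG p (x.map f) an den T k := by
  have hc : ∀ t, f (cM o x t) = cM p (x.map f) t := fun t => by
    simp only [cM, H.mul, H.cst, hom_monG H]
  have he : ∀ t, f (cE o x an t) = cE p (x.map f) an t := fun t => by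
    simp only [cE, H.mul, H.cst, hom_monG H]
  have h3 : ∀ t, f (c3 o x t) = c3 p (x.map f) t := fun t => by
    simp only [c3, H.mul, H.cst, hom_monG H]
  have h0 : ∀ t, f (c0 o x t) = c0 p (x.map f) t := fun t => by
    simp only [c0, H.mul, H.cst, hom_monG H]
  have h1 : ∀ t, f (c1 o x t) = c1 p (x.map f) t := fun t => by
    simp only [c1, H.mul, H.cst, hom_monG H]
  have hw : ∀ t, f (cW o x t) = cW p (x.map f) t := fun t => by
    simp only [cW, H.mul, H.cst, hom_monG H]
  simp only [pieceG, hom_sumL H, List.map_cons, List.map_nil, H.mul, H.add, H.cst, dsK, dt3K, dp0K,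
    dp1K, hom_trH H, hom_agk H, hom_sum6 H, hom_hav H, hom_dwK H,
    hom_fsumF H T _ _ he _ _ (fun g => hom_valK H x g k),
    hom_fsumF H T _ _ h3 _ _ (fun g => hom_valK H x g k),
    hom_fsumF H T _ _ h0 _ _ (fun g => hom_valK H x g k),
    hom_fsumF H T _ _ h1 _ _ (fun g => hom_valK H x g k),
    hom_fsumF H T _ _ hw _ _ (fun g => hom_valK H x g k),
    hom_fsumF H T _ _ hc _ _ (fun g => hom_dvalK H x g k)]
  rfl

theorem hom_lapG (den : ℕ) (T : List ITerm) :
    f (lapG o x den T) = lapG p (x.map f) den T := by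
  have hc : ∀ t, f (cM o x t) = cM p (x.map f) t := fun t => by
    simp only [cM, H.mul, H.cst, hom_monG H]
  simp only [lapG, H.mul, H.add, H.cst, hom_pw H, hom_fsumF H T _ _ hc _ _ (hom_valL H x)]
  rfl

theorem hom_p2G : f (p2G o x) = p2G p (x.map f) := by
  simp only [p2G, hom_sum6 H, hom_pw H, H.mul]
  rfl

theorem hom_cM (t : ITerm) : f (cM o x t) = cM p (x.map f) t := by
  simp only [cM, H.mul, H.cst, hom_monG H]

theorem hom_KG (KL : List KI) : f (KG o x KL) = KG p (x.map f) KL := by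
  simp only [KG, hom_sumL H, List.map_map, Function.comp_def, kM, H.mul, hom_cM H, hom_pw H,
    hom_p2G H]
  rfl

theorem hom_dp2K (k : ℕ) : f (dp2K o x k) = dp2K p (x.map f) k := by
  simp only [dp2K, H.add, H.mul, H.cst, hom_sum6 H, hom_hav H, hom_agk H, hom_pw H]
  rfl

theorem hom_dkM (an : ℤ) (t : KI) (k : ℕ) : f (dkM o x an t k) = dkM p (x.map f) an t k := by
  simp only [dkM, H.add, H.mul, H.cst, hom_sumL H, List.map_cons, List.map_nil, hom_pw H, hom_p2G H,
    dsK, dt3K, dp0K, dp1K, hom_trH H, hom_agk H, hom_sum6 H, hom_hav H, hom_dwK H, hom_monG H,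
    hom_dp2K H, c3, c0, c1, cW, cM]
  rfl

theorem hom_pieceW (y : ℕ → R) (an : ℤ) (den : ℕ) (L L2 : List ITerm) (KL : List KI) (k : ℕ) :
    f (pieceW o x y an den L L2 KL k) =
      pieceW p (x.map f) (fun n => f (y n)) an den L L2 KL k := by
  simp only [pieceW, H.add, H.mul, H.cst, hom_sumL H, List.map_cons, List.map_nil, List.map_map,
    Function.comp_def, hom_pieceG H, hom_p2G H, hom_dp2K H, hom_dkM H, hom_KG H, hom_pw H, dsK,
    hom_trH H, hom_fsumF H L2 _ _ (hom_cM H x) _ _ (fun g => hom_valK H x g k)]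

theorem hom_lapW (L L2 : List ITerm) (KL : List KI) :
    f (lapW o x L L2 KL) = lapW p (x.map f) L L2 KL := by
  simp only [lapW, H.mul, H.cst, hom_sumL H, List.map_cons, List.map_nil, hom_pw H, hom_p2G H,
    hom_KG H, hom_fsumF H L _ _ (hom_cM H x) _ _ (hom_valL H x),
    hom_fsumF H L2 _ _ (hom_cM H x) _ _ (hom_valL H x)]
  rfl

end Hom

/-- Polynomial operations. -/
noncomputable def fops : Ops HP := ⟨HP.c, HP.fadd, HP.fmul⟩

/-- The variable point: eigenvalues, then slot coordinates. -/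
noncomputable def ptP : Point HP :=
  ⟨fun n => if n < 32 then HP.var (6 + n) else HP.c 0,
    fun n => if n < 6 then HP.var (44 + n) else HP.c 0,
    fun n => if n < 5 then HP.var n else HP.c 0, HP.var 5⟩

/-- The auxiliary coordinates; the one of the normal axis is zero. -/
noncomputable def yP (n : ℕ) : HP := if n < 5 then HP.var (38 + n) else HP.c 0

/-- The thirty-eight slot coordinates. -/
noncomputable def zvarK (τ : Fin 6 → Fin 6 → Fin 6 → ℝ) (a b : ℝ) (y : Fin 6 → ℝ) (n : ℕ) : ℝ :=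
  if n < 32 then zvar τ a b n else vvar y (n - 32)

/-- The variable list of a point; `l 5` is the cubic trace. -/
noncomputable def xList (l z v : ℕ → ℝ) : List ℝ :=
  [l 0, l 1, l 2, l 3, l 4, l 5] ++ (List.range 38).map z ++ (List.range 6).map v

theorem ev_fops (x : List ℝ) : Hom fops realOps fun q : HP => q.ev x :=
  ⟨fun z => by simp [fops, realOps, HP.ev], fun a b => HP.ev_fadd a b x,
    fun a b => HP.ev_fmul a b x⟩

theorem zOf_xList (l z v : ℕ → ℝ) {n : ℕ} (hn : n < 38) : zOf (xList l z v) n = z n := by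
  rw [zOf, show 6 + n = n + 1 + 1 + 1 + 1 + 1 + 1 by omega]
  simp [xList, List.getD_eq_getElem?_getD, List.getElem?_append, hn]

theorem vOf_xList (l z v : ℕ → ℝ) {n : ℕ} (hn : n < 6) : vOf (xList l z v) n = v n := by
  rw [vOf, show 44 + n = (38 + n) + 1 + 1 + 1 + 1 + 1 + 1 by omega]
  simp [xList, List.getD_eq_getElem?_getD, List.getElem?_append, hn]

theorem lOf_xList (l z v : ℕ → ℝ) {n : ℕ} (hn : n < 6) : (xList l z v).getD n 0 = l n := by
  interval_cases n <;> simp [xList]

theorem Mon.ev_xList (l z v : ℕ → ℝ) (G : Mon) (h : slotOK G = true) :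
    evC 44 (enc (slotExp G)) ((xList l z v).drop 6) = G.ev z v := by
  rw [evC_slot G h]
  simp only [slotOK, Bool.and_eq_true, Nat.blt_eq] at h
  simp only [Mon.ev, zOf_xList l z v h.1.1, zOf_xList l z v h.1.2,
    vOf_xList l z v (show 0 < 6 by omega), vOf_xList l z v (show 1 < 6 by omega),
    vOf_xList l z v (show 2 < 6 by omega), vOf_xList l z v (show 3 < 6 by omega),
    vOf_xList l z v (show 4 < 6 by omega), vOf_xList l z v (show 5 < 6 by omega)]

theorem slotVals_xList (l z v : ℕ → ℝ) (gl : List Mon) (h : gl.all slotOK = true) :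
    slotVals gl (xList l z v) = gl.map fun G => G.ev z v := by
  refine List.map_congr_left fun G hG => ?_
  have hG' := List.all_eq_true.1 h G hG
  rw [← Mon.ev_xList l z v G hG', evC_slot G hG']

/-- Eigenvalues and cubic trace. -/
noncomputable def lT (l : Fin 6 → ℝ) (n : ℕ) : ℝ := if n = 5 then ∑ i : Fin 6, l i ^ 3 else vvar l n

theorem ptP_map (l v : Fin 6 → ℝ) (τ : Fin 6 → Fin 6 → Fin 6 → ℝ) (a b : ℝ) (y : Fin 6 → ℝ)
    (hl : l 5 = 0) :
    ptP.map (fun q => q.ev (xList (lT l) (zvarK τ a b y) (vvar v))) = ptOf l v τ a b := by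
  simp only [Point.map, ptP, ptOf, Point.mk.injEq]
  refine ⟨funext fun n => ?_, funext fun n => ?_, funext fun n => ?_, ?_⟩
  · by_cases hn : n < 32
    · rw [if_pos hn, HP.ev_var]
      refine (zOf_xList _ _ _ (show n < 38 by omega)).trans ?_
      rw [zvarK, if_pos hn]
    · rw [if_neg hn]; simp [HP.ev, zvar, List.getD_eq_getElem?_getD, show 32 ≤ n by omega]
  · by_cases hn : n < 6
    · rw [if_pos hn, HP.ev_var]; exact vOf_xList _ _ _ hn
    · rw [if_neg hn]; simp [HP.ev, vvar, List.getD_eq_getElem?_getD, show 6 ≤ n by omega]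
  · by_cases hn : n < 5
    · rw [if_pos hn, HP.ev_var]
      refine (lOf_xList _ _ _ (show n < 6 by omega)).trans ?_
      rw [lT, if_neg (by omega)]
    · rw [if_neg hn]
      rcases (show n = 5 ∨ 6 ≤ n by omega) with rfl | h6
      · simp [HP.ev, vvar, hl]
      · simp [HP.ev, vvar, List.getD_eq_getElem?_getD, h6]
  · rw [HP.ev_var]
    exact (lOf_xList _ _ _ (show 5 < 6 by omega)).trans (if_pos rfl)

theorem yP_map (l v : ℕ → ℝ) (τ : Fin 6 → Fin 6 → Fin 6 → ℝ) (a b : ℝ) (y : Fin 6 → ℝ)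
    (hy : y 5 = 0) :
    (fun n => (yP n).ev (xList l (zvarK τ a b y) v)) = vvar y := by
  funext n
  by_cases hn : n < 5
  · rw [yP, if_pos hn, HP.ev_var, show 38 + n = 6 + (32 + n) by omega]
    refine (zOf_xList l _ v (show 32 + n < 38 by omega)).trans ?_
    rw [zvarK, if_neg (by omega), Nat.add_sub_cancel_left]
  · rw [yP, if_neg hn]
    rcases (show n = 5 ∨ 6 ≤ n by omega) with rfl | h6
    · simp [HP.ev, vvar, hy]
    · simp [HP.ev, vvar, List.getD_eq_getElem?_getD, h6]

/-! ### Swapping an axis with the first -/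

/-- Image of a coordinate. -/
def zpL : ℕ → List ℕ
  | 1 => [4, 5, 6, 7, 0, 1, 2, 3, 9, 8, 10, 11, 13, 12, 14, 15, 17, 16, 18, 19, 20, 21, 22, 26, 27, 28, 23, 24, 25, 29, 30, 31, 33, 32, 34, 35, 36, 37]
  | 2 => [9, 8, 10, 11, 5, 4, 6, 7, 1, 0, 2, 3, 14, 13, 12, 15, 18, 17, 16, 19, 20, 26, 27, 23, 24, 29, 21, 22, 28, 25, 30, 31, 34, 33, 32, 35, 36, 37]
  | 3 => [13, 14, 12, 15, 6, 5, 4, 7, 10, 9, 8, 11, 2, 0, 1, 3, 19, 17, 18, 16, 26, 21, 28, 23, 29, 25, 20, 27, 22, 24, 30, 31, 35, 33, 34, 32, 36, 37]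
  | 4 => [17, 18, 19, 16, 7, 5, 6, 4, 11, 9, 10, 8, 15, 13, 14, 12, 3, 0, 1, 2, 27, 28, 22, 29, 24, 25, 26, 20, 21, 23, 30, 31, 36, 33, 34, 35, 32, 37]
  | _ => List.range 38

/-- Image of a slot monomial. -/
def permMon (k : ℕ) (G : Mon) : Mon :=
  ⟨(zpL k).getD G.a 0, (zpL k).getD G.b 0, [G.g.getD (sw k 0) 0, G.g.getD (sw k 1) 0,
    G.g.getD (sw k 2) 0, G.g.getD (sw k 3) 0, G.g.getD (sw k 4) 0, G.g.getD 5 0]⟩

/-- The swap as a permutation. -/
def swF (k : Fin 5) : Equiv.Perm (Fin 6) := Equiv.swap 0 k.castSucc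

theorem swF_val (k : Fin 5) (i : Fin 6) : (swF k i).val = sw k.val i.val := by
  fin_cases k <;> fin_cases i <;> rfl

theorem zvarK_perm {l v : Fin 6 → ℝ} {τ : Fin 6 → Fin 6 → Fin 6 → ℝ} (hA : Admissible l v τ)
    (a b : ℝ) (y : Fin 6 → ℝ) (k : Fin 5) (n : ℕ) (hn : n < 38) :
    zvarK (fun i j m => τ (swF k i) (swF k j) (swF k m)) a b (fun i => y (swF k i)) n =
      zvarK τ a b y ((zpL k.val).getD n 0) := by
  have r := hA.tau_right
  have f := hA.tau_left
  fin_cases k <;> interval_cases n <;>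
    simp [zvarK, zvar, vvar, zpL, swF, Equiv.swap_apply_def, List.range, List.range.loop] <;>
    first
      | rfl
      | exact r _ _ _
      | exact f _ _ _
      | (rw [r]; exact f _ _ _)
      | (rw [f]; exact r _ _ _)
      | (rw [r, f, r])

theorem permMon_ev {l v : Fin 6 → ℝ} {τ : Fin 6 → Fin 6 → Fin 6 → ℝ} (hA : Admissible l v τ)
    (a b : ℝ) (y : Fin 6 → ℝ) (k : Fin 5) (G : Mon) (hG : slotOK G = true) :
    G.ev (zvarK (fun i j m => τ (swF k i) (swF k j) (swF k m)) a b (fun i => y (swF k i)))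
        (vvar fun i => v (swF k i)) = (permMon k.val G).ev (zvarK τ a b y) (vvar v) := by
  simp only [slotOK, Bool.and_eq_true, Nat.blt_eq] at hG
  simp only [Mon.ev, zvarK_perm hA a b y k _ hG.1.1, zvarK_perm hA a b y k _ hG.1.2, permMon]
  fin_cases k <;>
    simp [vvar, swF, sw, Equiv.swap_apply_def, -mul_eq_mul_left_iff, -mul_eq_mul_right_iff] <;> ring

/-- A packed list of the slot codes. -/
noncomputable def codesOK (C : ℕ) (gl : List Mon) : ℕ → Bool :=
  List.rec (motive := fun _ => ℕ → Bool) (fun _ => true)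
    (fun G _ ih j => slotF G && Nat.beq (pdig 176 C j) (slotC G) && ih (Nat.add j 1)) gl

theorem codesOK_spec (C : ℕ) : ∀ (gl : List Mon) (j : ℕ), codesOK C gl j = true →
    ∀ i (h : i < gl.length), pdig 176 C (j + i) = enc (slotExp gl[i])
  | [], j, _, i, h => by simp at h
  | G :: gl, j, hk, i, h => by
    change (slotF G && Nat.beq (pdig 176 C j) (slotC G) && codesOK C gl (j + 1)) = true at hk
    simp only [Bool.and_eq_true] at hk
    obtain ⟨⟨hF, hk1⟩, hk2⟩ := hk
    cases i with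
    | zero => simpa [← (slotF_spec G hF).2] using Nat.eq_of_beq_eq_true hk1
    | succ i =>
      have := codesOK_spec C gl (j + 1) hk2 i (by simpa using h)
      rw [show j + (i + 1) = j + 1 + i by omega, this]
      rfl

/-- The target positions are the images of the slots. -/
noncomputable def permOK (k C n pn : ℕ) (gl : List Mon) : ℕ → Bool :=
  List.rec (motive := fun _ => ℕ → Bool) (fun _ => true)
    (fun G _ ih j => slotF (permMon k G) &&
      Nat.beq (pdig 176 C (pdig 16 pn j)) (slotC (permMon k G)) &&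
        Nat.blt (pdig 16 pn j) n && ih (Nat.add j 1)) gl

theorem permOK_spec {l v : Fin 6 → ℝ} {τ : Fin 6 → Fin 6 → Fin 6 → ℝ} (hA : Admissible l v τ)
    (a b : ℝ) (y : Fin 6 → ℝ) (k : Fin 5) (C pn : ℕ) (all : List Mon)
    (hall : all.all slotOK = true) (hC : codesOK C all 0 = true) :
    ∀ (gl : List Mon) (j : ℕ), gl.all slotOK = true →
      permOK k.val C all.length pn gl j = true →
      ((List.range' j gl.length).map fun i =>
        (all.map fun G => G.ev (zvarK τ a b y) (vvar v)).getD (pdig 16 pn i) 0) =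
        gl.map fun G => G.ev (zvarK (fun i j m => τ (swF k i) (swF k j) (swF k m)) a b
          (fun i => y (swF k i))) (vvar fun i => v (swF k i))
  | [], j, _, _ => rfl
  | G :: gl, j, hg, h => by
    change (slotF (permMon k.val G) && Nat.beq (pdig 176 C (pdig 16 pn j))
      (slotC (permMon k.val G)) && Nat.blt (pdig 16 pn j) all.length &&
      permOK k.val C all.length pn gl (j + 1)) = true at h
    simp only [Bool.and_eq_true, Nat.blt_eq] at h
    simp only [List.all_cons, Bool.and_eq_true] at hg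
    obtain ⟨⟨⟨hpF, hc⟩, hi⟩, hr⟩ := h
    obtain ⟨hp, hcd⟩ := slotF_spec _ hpF
    rw [hcd] at hc
    rw [List.length_cons, List.range'_succ, List.map_cons, List.map_cons,
      permOK_spec hA a b y k C pn all hall hC gl (j + 1) hg.2 hr, permMon_ev hA a b y k G hg.1]
    congr 1
    have hc' := Nat.eq_of_beq_eq_true hc
    have hs := codesOK_spec C all 0 hC _ hi
    rw [Nat.zero_add, hc'] at hs
    simp only [List.getD_eq_getElem?_getD, List.getElem?_map, List.getElem?_eq_getElem hi,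
      Option.map_some, Option.getD_some]
    rw [← Mon.ev_xList (lT l) (zvarK τ a b y) (vvar v) _
        (List.all_eq_true.1 hall _ (List.getElem_mem hi)),
      ← Mon.ev_xList (lT l) (zvarK τ a b y) (vvar v) _ hp, hs]

theorem sK_perm {l v : Fin 6 → ℝ} {τ : Fin 6 → Fin 6 → Fin 6 → ℝ} (al : ℝ) (L L2 : List Term)
    (KL : List KTerm) (y : Fin 6 → ℝ) (a b : ℝ) (π : Equiv.Perm (Fin 6)) (hπ : π 5 = 5)
    (hA : Admissible l v τ) (k : Fin 6) :
    sK al L L2 KL (fun i => l (π i)) (fun i => v (π i)) (fun i j m => τ (π i) (π j) (π m))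
        (fun i => y (π i)) a b k = sK al L L2 KL l v τ y a b (π k) := by
  have hπ' : π (Fin.last 5) = Fin.last 5 := hπ
  have hU := pMat_orth π
  have hj : jet0 (fun i => l (π i)) (fun i => v (π i)) = lam (pMat π) 1 (jet0 l v) := by
    rw [lam_pMat]
    simp [jet0, hπ, π.injective.eq_iff]
  have hne : (jet0 l v).1 ≠ 0 := by
    intro e
    have : ∀ i, l i = 0 := fun i => by simpa [jet0] using congrFun (congrFun e i) i
    simpa [this] using hA.l_sq
  have hq : qdir (fun i => l (π i)) (fun i => v (π i))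
      (fun i j m => τ (π i) (π j) (π m)) a b k = lam (pMat π) 1 (qdir l v τ a b (π k)) := by
    rw [lam_pMat]
    have h5 : ∀ i, π i = 5 ↔ i = 5 := fun i => perm_eq_last hπ' i
    simp [qdir, bord, h5, π.injective.eq_iff]
  simp only [sK, hj, hq, dOmW_lam al L L2 hU one_pos hne, dKt_lam al KL hU one_pos hne,
    Kt_lam al KL hU one_pos hne, Real.one_rpow, one_mul]

theorem rowsVal_congr {f g : ℕ → ℝ} (gs : List ℝ) (R : Rows) (h : ∀ i < 6, f i = g i) :
    rowsVal gs f R = rowsVal gs g R := by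
  simp only [rowsVal, h 0 (by omega), h 1 (by omega), h 2 (by omega), h 3 (by omega), h 4 (by omega),
    h 5 (by omega)]

/-- The parts: one direction and its images, the normal direction and the Laplacian. -/
def partsOf (P : ℕ → ℕ) (R0 R5 R6 : Rows) : List Part :=
  [⟨0, P 0, R0⟩, ⟨1, P 1, R0⟩, ⟨2, P 2, R0⟩, ⟨3, P 3, R0⟩, ⟨4, P 4, R0⟩,
    ⟨0, P 0, R5⟩, ⟨0, P 0, R6⟩]

/-- The rows of the first direction have the value of its part. -/
def pieceVal (an : ℤ) (den : ℕ) (L L2 : List ITerm) (KL : List KI) (gl : List Mon) (R : Rows) :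
    Prop :=
  ∀ x : List ℝ, (pieceW fops ptP yP an den L L2 KL 0).ev x =
    rowsVal (slotVals gl x) (fun i => x.getD i 0) R

theorem pieceVal_of (an : ℤ) (den : ℕ) (L L2 : List ITerm) (KL : List KI) (gl : List Mon)
    (hg : gl.all slotF = true) (A0 A1 A2 A3 A4 A5 : Rows)
    (h0 : pieceOK (pieceP fops ptP yP an den L L2 KL 0 0) (slotCs gl) A0 = true)
    (h1 : pieceOK (pieceP fops ptP yP an den L L2 KL 0 1) (slotCs gl) A1 = true)
    (h2 : pieceOK (pieceP fops ptP yP an den L L2 KL 0 2) (slotCs gl) A2 = true)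
    (h3 : pieceOK (pieceP fops ptP yP an den L L2 KL 0 3) (slotCs gl) A3 = true)
    (h4 : pieceOK (pieceP fops ptP yP an den L L2 KL 0 4) (slotCs gl) A4 = true)
    (h5 : pieceOK (pieceP fops ptP yP an den L L2 KL 0 5) (slotCs gl) A5 = true) :
    pieceVal an den L L2 KL gl (A0 ++ A1 ++ A2 ++ A3 ++ A4 ++ A5) := fun x => by
  obtain ⟨hgl, hcs⟩ := slotF_all hg
  rw [hcs] at h0 h1 h2 h3 h4 h5
  have H := ev_fops x
  have ha : ∀ A B : Rows, rowsVal (slotVals gl x) (fun i => x.getD i 0) (A ++ B) =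
      rowsVal (slotVals gl x) (fun i => x.getD i 0) A +
        rowsVal (slotVals gl x) (fun i => x.getD i 0) B := fun A B => by
    simp [rowsVal]
  rw [ha, ha, ha, ha, ha, ← pieceOK_spec _ gl A0 hgl h0, ← pieceOK_spec _ gl A1 hgl h1,
    ← pieceOK_spec _ gl A2 hgl h2, ← pieceOK_spec _ gl A3 hgl h3, ← pieceOK_spec _ gl A4 hgl h4,
    ← pieceOK_spec _ gl A5 hgl h5]
  simp only [pieceW, pieceP, pieceG, sumL, H.add, H.mul, H.cst, radd, rmul, rcst]
  ring

/-- The checks of the rows and positions. -/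
noncomputable def rowsChk (an : ℤ) (den : ℕ) (L L2 : List ITerm) (KL : List KI) (gl : List Mon)
    (C : ℕ) (P : ℕ → ℕ) (R0 R5 R6 : Rows) : Prop :=
  gl.all slotF = true ∧ codesOK C gl 0 = true ∧
    (∀ k ∈ [0, 1, 2, 3, 4], permOK k C gl.length (P k) gl 0 = true) ∧
    pieceVal an den L L2 KL gl R0 ∧
    pieceOK (pieceW fops ptP yP an den L L2 KL 5) (slotCs gl) R5 = true ∧
    pieceOK (lapW fops ptP L L2 KL) (slotCs gl) R6 = true

theorem lT_sw (k : Fin 5) (i : ℕ) (hi : i < 6) (l : Fin 6 → ℝ) :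
    lT l (sw k.val i) = lT (fun j => l (swF k j)) i := by
  have e := swF_val k ⟨i, hi⟩
  simp only at e
  rcases Nat.lt_or_ge i 5 with h5 | h5
  · have hne : sw k.val i ≠ 5 := by
      simp only [sw]
      split_ifs <;> omega
    rw [lT, lT, if_neg hne, if_neg (by omega : i ≠ 5), ← e, vvar_val]
    exact (vvar_val (fun j => l (swF k j)) ⟨i, hi⟩).symm
  · obtain rfl : i = 5 := by omega
    have h : sw k.val 5 = 5 := by fin_cases k <;> rfl
    rw [lT, lT, h, if_pos rfl, if_pos rfl, Equiv.sum_comp (swF k) fun j => l j ^ 3]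

/-- **Checked rows have the value of the interior form with density.** -/
theorem rows_value (an : ℤ) (den : ℕ) (hden : 0 < den) (L L2 : List ITerm) (KL : List KI)
    (gl : List Mon) (C : ℕ) (P : ℕ → ℕ) (R0 R5 R6 : Rows)
    (h : rowsChk an den L L2 KL gl C P R0 R5 R6) (l v : Fin 6 → ℝ)
    (τ : Fin 6 → Fin 6 → Fin 6 → ℝ) (a b : ℝ) (y : Fin 6 → ℝ) (hy : y 5 = 0)
    (hA : Admissible l v τ) :
    partsVal (gl.map fun G => G.ev (zvarK τ a b y) (vvar v)) (lT l)
        (partsOf P R0 R5 R6) =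
      40000 * den * QvalK ((an : ℝ) / 100) (L.map (ITerm.term den)) (L2.map (ITerm.term den))
        (KL.map (KI.term den)) l v τ y a b := by
  obtain ⟨hglF, hC, hperm, h0, h5, h6⟩ := h
  obtain ⟨hgl, hcs⟩ := slotF_all hglF
  rw [hcs] at h5 h6
  have hdir : ∀ (l v : Fin 6 → ℝ) (τ : Fin 6 → Fin 6 → Fin 6 → ℝ) (y : Fin 6 → ℝ) (k : Fin 6)
      (R : Rows), y 5 = 0 → Admissible l v τ →
      (∀ x : List ℝ, (pieceW fops ptP yP an den L L2 KL k.val).ev x =
        rowsVal (slotVals gl x) (fun i => x.getD i 0) R) →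
      rowsVal (gl.map fun G => G.ev (zvarK τ a b y) (vvar v)) (lT l) R =
        40000 * den * sK ((an : ℝ) / 100) (L.map (ITerm.term den)) (L2.map (ITerm.term den))
          (KL.map (KI.term den)) l v τ y a b k := by
    intro l v τ y k R hy' hA' hR
    have hl : l 5 = 0 := hA'.l_last
    rw [← pieceW_real hA' an den hden L L2 KL y k, ← ptP_map l v τ a b y hl,
      ← yP_map (lT l) (vvar v) τ a b y hy', ← hom_pieceW (ev_fops _) ptP yP an den L L2 KL k.val,
      hR, slotVals_xList _ _ _ gl hgl]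
    exact rowsVal_congr _ R fun i hi => (lOf_xList _ _ _ hi).symm
  have hlen : (gl.map fun G => G.ev (zvarK τ a b y) (vvar v)).length = gl.length := by simp
  have hk : ∀ (k : Fin 5) (m : Fin 6) (R : Rows), (m = 0 ∨ k = 0) →
      (∀ x : List ℝ, (pieceW fops ptP yP an den L L2 KL m.val).ev x =
        rowsVal (slotVals gl x) (fun i => x.getD i 0) R) →
      rowsVal ((List.range' 0 gl.length).map fun i =>
        (gl.map fun G => G.ev (zvarK τ a b y) (vvar v)).getD (pdig 16 (P k.val) i) 0)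
      (fun i => lT l (sw k.val i)) R =
      40000 * den * sK ((an : ℝ) / 100) (L.map (ITerm.term den)) (L2.map (ITerm.term den))
        (KL.map (KI.term den)) l v τ y a b (swF k m) := by
    intro k m R _ hR
    have h5' : swF k 5 = 5 := by fin_cases k <;> rfl
    have hA' := hA.perm (swF k) l v τ h5'
    have hin : k.val ∈ [0, 1, 2, 3, 4] := by fin_cases k <;> simp
    rw [permOK_spec hA a b y k C (P k.val) gl hgl hC gl 0 hgl (hperm _ hin),
      rowsVal_congr _ R (g := lT fun i => l (swF k i)) fun i hi => lT_sw k i hi l,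
      hdir _ _ _ (fun i => y (swF k i)) m R (show y (swF k 5) = 0 by rw [h5']; exact hy) hA' hR,
      sK_perm _ _ _ _ y a b (swF k) h5' hA m]
  have e6 : ∀ R : Rows, rowsVal ((List.range' 0 gl.length).map fun i =>
      (gl.map fun G => G.ev (zvarK τ a b y) (vvar v)).getD (pdig 16 (P 0) i) 0)
      (fun i => lT l (sw 0 i)) R =
      rowsVal (gl.map fun G => G.ev (zvarK τ a b y) (vvar v)) (lT l) R := fun R => by
    have := permOK_spec hA a b y 0 C (P 0) gl hgl hC gl 0 hgl (hperm 0 (by simp))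
    rw [this]
    have e : ∀ i : Fin 6, swF 0 i = i := fun i => by simp [swF]
    simp only [e]
    exact rowsVal_congr _ R fun i _ => by simp [sw]; split <;> simp_all
  simp only [partsVal, partsOf, List.map_cons, List.map_nil, List.sum_cons, List.sum_nil, hlen]
  have q0 := hk 0 0 R0 (Or.inl rfl) h0
  have q1 := hk 1 0 R0 (Or.inl rfl) h0
  have q2 := hk 2 0 R0 (Or.inl rfl) h0
  have q3 := hk 3 0 R0 (Or.inl rfl) h0
  have q4 := hk 4 0 R0 (Or.inl rfl) h0
  have q5 := hk 0 5 R5 (Or.inr rfl) fun x => pieceOK_spec _ gl R5 hgl h5 x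
  simp only [show ((0 : Fin 5) : ℕ) = 0 from rfl] at q0 q5
  simp only [show ((1 : Fin 5) : ℕ) = 1 from rfl, show ((2 : Fin 5) : ℕ) = 2 from rfl,
    show ((3 : Fin 5) : ℕ) = 3 from rfl, show ((4 : Fin 5) : ℕ) = 4 from rfl] at q1 q2 q3 q4
  rw [q0, q1, q2, q3, q4, q5, e6 R6]
  simp only [show swF 0 0 = 0 from rfl, show swF 1 0 = 1 from rfl, show swF 2 0 = 2 from rfl,
    show swF 3 0 = 3 from rfl, show swF 4 0 = 4 from rfl, show swF 0 5 = 5 from rfl]
  have hl : l 5 = 0 := hA.l_last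
  have hL : rowsVal (gl.map fun G => G.ev (zvarK τ a b y) (vvar v)) (lT l) R6 =
      lapW realOps (ptOf l v τ a b) L L2 KL := by
    rw [← ptP_map l v τ a b y hl, ← hom_lapW (ev_fops _) ptP L L2 KL, pieceOK_spec _ gl R6 hgl h6,
      slotVals_xList _ _ _ gl hgl]
    exact rowsVal_congr _ R6 fun i hi => (lOf_xList _ _ _ hi).symm
  rw [hL, ← QGK_real hA an den hden L L2 KL y]
  simp only [QGK, radd, sum6_real, Fin.sum_univ_six, pieceW_real hA an den hden]
  ring

end Vale.Agent.P098.Exact.Sos6
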