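import Vale.Agent.P098.Exact.Reduce

/-!
The interior form in dimension six at a diagonal jet, for an arbitrary table, in closed grouped
form over any target ring given by data (so that it can be expanded by the kernel).
-/

noncomputable section

namespace Vale.Agent.P098.Exact.Sos6

/-- Operations of a target ring, given by data. -/
structure Ops (R : Type) where
  /-- integer constants -/
  cst : ℤ → R
  /-- sum -/
  add : R → R → R
  /-- product -/
  mul : R → R → R

/-- A term with integer coefficient. -/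
structure ITerm where
  /-- numerator of the coefficient -/
  m : ℤ
  /-- one-form -/
  form : Form
  /-- exponent of the cubic trace -/
  e3 : ℕ
  /-- exponent of the squared gradient -/
  e0 : ℕ
  /-- exponent of the Hessian at the gradient -/
  e1 : ℕ
  /-- exponent of the value -/
  ew : ℕ

/-- The rational term. -/
def ITerm.term (den : ℕ) (t : ITerm) : Term := ⟨(t.m : ℚ) / den, t.form, t.e3, t.e0, t.e1, t.ew⟩

/-- Weight. -/
def ITerm.wt (t : ITerm) : ℕ := t.form.wt + 3 * t.e3 + t.e1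

/-- Number of a form. -/
def fid : Form → ℕ
  | .a1 => 0 | .a2 => 1 | .s0 => 2 | .s1 => 3 | .s2 => 4 | .u0 => 5 | .u1 => 6 | .u2 => 7
  | .dw => 8 | .s11 => 9

/-- The ten forms. -/
def forms : List Form := [.a1, .a2, .s0, .s1, .s2, .u0, .u1, .u2, .dw, .s11]

variable {R : Type} (o : Ops R)

/-- Sum of a list. -/
def sumL : List R → R
  | [] => o.cst 0
  | [a] => a
  | a :: b :: l => o.add a (sumL (b :: l))

/-- Six term sum. -/
def sum6 (f : ℕ → R) : R := o.add (o.add (o.add (f 0) (f 1)) (o.add (f 2) (f 3))) (o.add (f 4) (f 5))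

/-- Powers. -/
def pw (x : R) : ℕ → R
  | 0 => o.cst 1
  | 1 => x
  | k + 2 => o.mul (pw x (k + 1)) x

/-- A point: thirty-two third-derivative coordinates, gradient, eigenvalues, cubic trace. -/
structure Point (R : Type) where
  /-- third derivative, then `a`, `b` -/
  z : ℕ → R
  /-- gradient -/
  v : ℕ → R
  /-- eigenvalues (the sixth is zero) -/
  l : ℕ → R
  /-- the cubic trace -/
  t : R

/-- Position of `τ k i i`, `i ≠ k`. -/
def idx2 (k i : ℕ) : ℕ := 4 * k + if i < k then i else i - 1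

/-- Position of `τ i j k`, `i < j < k < 5`. -/
def idx3 : ℕ → ℕ → ℕ → ℕ
  | 0, 1, 2 => 20 | 0, 1, 3 => 21 | 0, 1, 4 => 22 | 0, 2, 3 => 23 | 0, 2, 4 => 24 | 0, 3, 4 => 25
  | 1, 2, 3 => 26 | 1, 2, 4 => 27 | 1, 3, 4 => 28 | _, _, _ => 29

/-- A sorted entry of the tensor. -/
def tauS (z : ℕ → R) (i j k : ℕ) : R :=
  if 5 ≤ k then o.cst 0
  else if i = k then
    o.mul (o.cst (-1)) (sumL o (((List.range 5).filter fun m => m != i).map fun m => z (idx2 i m)))
  else if i = j then z (idx2 k i)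
  else if j = k then z (idx2 i j)
  else z (idx3 i j k)

/-- An entry of the tensor. -/
def tauG (z : ℕ → R) (i j k : ℕ) : R :=
  tauS o z (min i (min j k)) (max (min i j) (min (max i j) k)) (max i (max j k))

variable (x : Point R)

/-- Hessian part of the jet derivative in direction `k`. -/
def Hent (k i m : ℕ) : R :=
  if (i = 5 ∧ m = k) ∨ (m = 5 ∧ i = k) then
    (if k = 5 then o.cst 0 else o.mul (o.cst (-1)) (o.mul (x.z 31) (x.l k)))
  else tauG o x.z k i m

/-- `a l k`. -/
def agk (k : ℕ) : R := if k = 5 then o.cst 0 else o.mul (x.z 30) (x.l k)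

/-- `H A^n v`. -/
def hav (n k i : ℕ) : R := sum6 o fun m => o.mul (Hent o x k i m) (o.mul (pw o (x.l m) n) (x.v m))

/-- Traces `∑ l^n H i i`. -/
def trH (n k : ℕ) : R := sum6 o fun i => o.mul (pw o (x.l i) n) (Hent o x k i i)

/-- Derivative of the squared norm. -/
def dsK (k : ℕ) : R := o.mul (o.cst 2) (trH o x 1 k)

/-- Derivative of the cubic trace. -/
def dt3K (k : ℕ) : R := o.mul (o.cst 3) (trH o x 2 k)

/-- Derivative of the squared gradient. -/
def dp0K (k : ℕ) : R := o.mul (o.cst 2) (o.mul (agk o x k) (x.v k))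

/-- Derivative of the Hessian at the gradient. -/
def dp1K (k : ℕ) : R :=
  o.add (o.mul (o.cst 2) (o.mul (agk o x k) (o.mul (x.l k) (x.v k))))
    (sum6 o fun i => o.mul (x.v i) (hav o x 0 k i))

/-- Derivative of the value. -/
def dwK (k : ℕ) : R := if k = 5 then o.cst 0 else o.mul (x.z 31) (x.v k)

/-- Value of a form on direction `k`. -/
def valK : Form → ℕ → R
  | .a1, k => trH o x 1 k
  | .a2, k => trH o x 2 k
  | .s0, k => sum6 o fun i => o.mul (x.v i) (hav o x 0 k i)
  | .s1, k => sum6 o fun i => o.mul (o.mul (x.v i) (x.l i)) (hav o x 0 k i)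
  | .s2, k => sum6 o fun i => o.mul (o.mul (x.v i) (pw o (x.l i) 2)) (hav o x 0 k i)
  | .s11, k => sum6 o fun i => o.mul (o.mul (x.v i) (x.l i)) (hav o x 1 k i)
  | .u0, k => o.mul (agk o x k) (x.v k)
  | .u1, k => o.mul (agk o x k) (o.mul (x.l k) (x.v k))
  | .u2, k => o.mul (agk o x k) (o.mul (pw o (x.l k) 2) (x.v k))
  | .dw, k => dwK o x k

/-- Derivative of a form on direction `k` twice. -/
def dvalK : Form → ℕ → R
  | .a1, k => sum6 o fun i => sum6 o fun m => o.mul (Hent o x k i m) (Hent o x k i m)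
  | .a2, k => o.mul (o.cst 2) (sum6 o fun i =>
      o.mul (x.l i) (sum6 o fun m => o.mul (Hent o x k i m) (Hent o x k i m)))
  | .s0, k => o.mul (o.cst 2) (o.mul (agk o x k) (hav o x 0 k k))
  | .s1, k => o.add (o.mul (agk o x k) (o.add (o.mul (x.l k) (hav o x 0 k k)) (hav o x 1 k k)))
      (sum6 o fun i => o.mul (hav o x 0 k i) (hav o x 0 k i))
  | .s2, k => o.add (o.mul (agk o x k)
      (o.add (o.mul (pw o (x.l k) 2) (hav o x 0 k k)) (hav o x 2 k k)))
      (sum6 o fun i => o.mul (o.add (o.mul (x.l i) (hav o x 0 k i)) (hav o x 1 k i)) (hav o x 0 k i))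
  | .s11, k => o.mul (o.cst 2) (o.add (o.mul (agk o x k) (o.mul (x.l k) (hav o x 1 k k)))
      (sum6 o fun i => o.mul (hav o x 0 k i) (hav o x 1 k i)))
  | .u0, k => o.mul (agk o x k) (agk o x k)
  | .u1, k => o.mul (agk o x k) (o.add (hav o x 0 k k) (o.mul (x.l k) (agk o x k)))
  | .u2, k => o.mul (agk o x k) (o.add (o.add (o.mul (x.l k) (hav o x 0 k k)) (hav o x 1 k k))
      (o.mul (pw o (x.l k) 2) (agk o x k)))
  | .dw, _ => o.cst 0

/-- Value of a form on the Laplacian direction. -/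
def valL : Form → R
  | .a1 => o.mul (o.cst 3) (sum6 o fun i => pw o (x.l i) 2)
  | .a2 => o.mul (o.cst 3) (sum6 o fun i => pw o (x.l i) 3)
  | .s0 => o.mul (o.cst 3) (sum6 o fun i => o.mul (x.l i) (pw o (x.v i) 2))
  | .s1 => o.mul (o.cst 3) (sum6 o fun i => o.mul (pw o (x.l i) 2) (pw o (x.v i) 2))
  | .s2 => o.mul (o.cst 3) (sum6 o fun i => o.mul (pw o (x.l i) 3) (pw o (x.v i) 2))
  | .s11 => o.mul (o.cst 3) (sum6 o fun i => o.mul (pw o (x.l i) 3) (pw o (x.v i) 2))
  | .u0 => o.cst 0
  | .u1 => o.cst 0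
  | .u2 => o.cst 0
  | .dw => o.mul (o.cst (-5)) (x.v 5)

/-- A monomial of the invariants. -/
def monG (a b c e : ℕ) : R :=
  o.mul (o.mul (o.mul (pw o x.t a)
    (pw o (sum6 o fun i => pw o (x.v i) 2) b))
    (pw o (sum6 o fun i => o.mul (x.l i) (pw o (x.v i) 2)) c)) (pw o (x.v 5) e)

/-- Sum over the terms of one form. -/
def gsumF (φ : ITerm → R) (f : Form) : List ITerm → R
  | [] => o.cst 0
  | t :: L => if fid t.form = fid f then o.add (φ t) (gsumF φ f L) else gsumF φ f L

/-- Scaled coefficient of the monomial. -/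
def cM (t : ITerm) : R := o.mul (o.cst (40000 * t.m)) (monG o x t.e3 t.e0 t.e1 t.ew)

/-- Scaled coefficient from the power of the squared norm. -/
def cE (an : ℤ) (t : ITerm) : R :=
  o.mul (o.cst (200 * t.m * (2 * an - 100 * t.wt))) (monG o x t.e3 t.e0 t.e1 t.ew)

/-- Scaled partial by the cubic trace. -/
def c3 (t : ITerm) : R := o.mul (o.cst (40000 * t.m * t.e3)) (monG o x (t.e3 - 1) t.e0 t.e1 t.ew)

/-- Scaled partial by the squared gradient. -/
def c0 (t : ITerm) : R := o.mul (o.cst (40000 * t.m * t.e0)) (monG o x t.e3 (t.e0 - 1) t.e1 t.ew)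

/-- Scaled partial by the Hessian at the gradient. -/
def c1 (t : ITerm) : R := o.mul (o.cst (40000 * t.m * t.e1)) (monG o x t.e3 t.e0 (t.e1 - 1) t.ew)

/-- Scaled partial by the value. -/
def cW (t : ITerm) : R := o.mul (o.cst (40000 * t.m * t.ew)) (monG o x t.e3 t.e0 t.e1 (t.ew - 1))

/-- One factor against all forms. -/
def fsumF (T : List ITerm) (φ : ITerm → R) (ψ : Form → R) : R :=
  sumL o (forms.map fun f => o.mul (gsumF o φ f T) (ψ f))

/-- Part of one direction. -/
def pieceG (an : ℤ) (den : ℕ) (T : List ITerm) (k : ℕ) : R :=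
  sumL o [
    o.mul (dsK o x k) (o.add (fsumF o T (cE o x an) fun f => valK o x f k)
      (o.mul (o.cst (-(den * an ^ 2))) (dsK o x k))),
    o.mul (dt3K o x k) (fsumF o T (c3 o x) fun f => valK o x f k),
    o.mul (dp0K o x k) (fsumF o T (c0 o x) fun f => valK o x f k),
    o.mul (dp1K o x k) (fsumF o T (c1 o x) fun f => valK o x f k),
    o.mul (dwK o x k) (fsumF o T (cW o x) fun f => valK o x f k),
    fsumF o T (cM o x) fun f => dvalK o x f k]

/-- Part of the Laplacian. -/
def lapG (den : ℕ) (T : List ITerm) : R :=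
  o.mul (pw o (x.z 31) 2) (o.add (fsumF o T (cM o x) (valL o x)) (o.cst (-(160000 * den))))

/-- `40000 den` times the interior form. -/
def QG (an : ℤ) (den : ℕ) (T : List ITerm) : R :=
  o.add (sum6 o (pieceG o x an den T)) (lapG o x den T)

/-- Real operations. -/
def realOps : Ops ℝ := ⟨fun z => z, (· + ·), (· * ·)⟩

end Vale.Agent.P098.Exact.Sos6
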