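import Vale.Agent.P098.Exact.Sos6.RealForm
import Vale.Agent.P098.Exact.KTable

/-!
The interior form of two flux tables and a density table in closed grouped form over a target
ring given by data, and its value over the reals.
-/

noncomputable section

namespace Vale.Agent.P098.Exact.Sos6

/-- A density term with integer coefficient. -/
structure KI where
  /-- numerator of the coefficient -/
  m : ℤ
  /-- exponent of the cubic trace -/
  e3 : ℕ
  /-- exponent of the squared gradient -/
  e0 : ℕ
  /-- exponent of the Hessian at the gradient -/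
  e1 : ℕ
  /-- exponent of the squared Hessian at the gradient -/
  e2 : ℕ
  /-- exponent of the value -/
  ew : ℕ

/-- The rational term. -/
def KI.term (den : ℕ) (t : KI) : KTerm := ⟨(t.m : ℚ) / den, t.e3, t.e0, t.e1, t.e2, t.ew⟩

/-- The part shared with flux terms. -/
def KI.it (t : KI) : ITerm := ⟨t.m, .dw, t.e3, t.e0, t.e1, t.ew⟩

/-- Weight. -/
def KI.wt (t : KI) : ℕ := 3 * t.e3 + t.e1 + 2 * t.e2

variable {R : Type} (o : Ops R) (x : Point R) (y : ℕ → R)

/-- The squared Hessian at the gradient. -/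
def p2G : R := sum6 o fun i => pw o (o.mul (x.l i) (x.v i)) 2

/-- Its derivative. -/
def dp2K (k : ℕ) : R :=
  o.add (sum6 o fun i => o.mul (o.cst 2) (o.mul (o.mul (x.l i) (x.v i)) (hav o x 0 k i)))
    (o.mul (o.cst 2) (o.mul (agk o x k) (o.mul (pw o (x.l k) 2) (x.v k))))

/-- Scaled value of a density term. -/
def kM (t : KI) : R := o.mul (cM o x t.it) (pw o (p2G o x) t.e2)

/-- Scaled derivative of a density term. -/
def dkM (an : ℤ) (t : KI) (k : ℕ) : R :=
  o.add
    (o.mul (pw o (p2G o x) t.e2) (sumL o [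
      o.mul (dsK o x k)
        (o.mul (o.cst (200 * t.m * (2 * an - 100 * t.wt))) (monG o x t.e3 t.e0 t.e1 t.ew)),
      o.mul (dt3K o x k) (c3 o x t.it),
      o.mul (dp0K o x k) (c0 o x t.it),
      o.mul (dp1K o x k) (c1 o x t.it),
      o.mul (dwK o x k) (cW o x t.it)]))
    (o.mul (o.cst t.e2) (o.mul (cM o x t.it) (o.mul (pw o (p2G o x) (t.e2 - 1)) (dp2K o x k))))

/-- Scaled density. -/
def KG (KL : List KI) : R := sumL o (KL.map (kM o x))

/-- Part of one direction. -/
def pieceW (an : ℤ) (den : ℕ) (L L2 : List ITerm) (KL : List KI) (k : ℕ) : R :=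
  sumL o [
    pieceG o x an den L k,
    o.mul (o.cst (den * an ^ 2)) (o.mul (dsK o x k) (dsK o x k)),
    o.mul (p2G o x) (o.add (pieceG o x (an - 100) den L2 k)
      (o.mul (o.cst (den * (an - 100) ^ 2)) (o.mul (dsK o x k) (dsK o x k)))),
    o.mul (dp2K o x k) (fsumF o L2 (cM o x) fun f => valK o x f k),
    o.mul (y k) (sumL o (KL.map fun t => dkM o x an t k)),
    o.mul (KG o x KL) (pw o (y k) 2)]

/-- Six portions of the part of one direction, expanded separately. -/
def pieceP (an : ℤ) (den : ℕ) (L L2 : List ITerm) (KL : List KI) (k : ℕ) : ℕ → R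
  | 0 => o.add (o.mul (dsK o x k) (o.add (fsumF o L (cE o x an) fun f => valK o x f k)
      (o.mul (o.cst (-(den * an ^ 2))) (dsK o x k))))
      (o.mul (o.cst (den * an ^ 2)) (o.mul (dsK o x k) (dsK o x k)))
  | 1 => sumL o [o.mul (dt3K o x k) (fsumF o L (c3 o x) fun f => valK o x f k),
      o.mul (dp0K o x k) (fsumF o L (c0 o x) fun f => valK o x f k),
      o.mul (dwK o x k) (fsumF o L (cW o x) fun f => valK o x f k)]
  | 2 => o.mul (dp1K o x k) (fsumF o L (c1 o x) fun f => valK o x f k)
  | 3 => fsumF o L (cM o x) fun f => dvalK o x f k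
  | 4 => o.mul (p2G o x) (o.add (pieceG o x (an - 100) den L2 k)
      (o.mul (o.cst (den * (an - 100) ^ 2)) (o.mul (dsK o x k) (dsK o x k))))
  | _ => sumL o [
      o.mul (dp2K o x k) (fsumF o L2 (cM o x) fun f => valK o x f k),
      o.mul (y k) (sumL o (KL.map fun t => dkM o x an t k)),
      o.mul (KG o x KL) (pw o (y k) 2)]

/-- Part of the Laplacian. -/
def lapW (L L2 : List ITerm) (KL : List KI) : R :=
  o.mul (pw o (x.z 31) 2) (sumL o [fsumF o L (cM o x) (valL o x),
    o.mul (p2G o x) (fsumF o L2 (cM o x) (valL o x)), o.mul (o.cst (-4)) (KG o x KL)])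

/-- `40000 den` times the interior form with density. -/
def QGK (an : ℤ) (den : ℕ) (L L2 : List ITerm) (KL : List KI) : R :=
  o.add (sum6 o (pieceW o x y an den L L2 KL)) (lapW o x L L2 KL)

variable {l v : Fin 6 → ℝ} {τ : Fin 6 → Fin 6 → Fin 6 → ℝ} {a b : ℝ}

theorem p2G_real : p2G realOps (ptOf l v τ a b) = p2 (jet0 l v) := by
  simp only [p2G, sum6_real, pw_real, rmul, p2, jet0, ite_mul, zero_mul, Finset.sum_ite_eq,
    Finset.mem_univ, if_true, ptOf, vvar_val]

theorem dp2K_real (hA : Admissible (n := 5) l v τ) (k : Fin 6) :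
    dp2K realOps (ptOf l v τ a b) k.val = dp2 (jet0 l v) (qdir l v τ a b k) := by
  simp only [dp2K, radd, rmul, rcst, sum6_real, hav_real hA, pw_real, dp2, jet0, agk_real hA,
    ite_mul, zero_mul, mul_ite, mul_zero, Finset.sum_add_distrib, Finset.sum_ite_eq,
    Finset.sum_ite_eq', Finset.mem_univ, if_true, mul_add, Finset.sum_ite_irrel,
    Finset.sum_const_zero]
  simp only [ptOf, vvar_val, pow_zero, one_mul, Finset.mul_sum]
  push_cast
  congr 1
  · exact Finset.sum_congr rfl fun i _ => Finset.sum_congr rfl fun m _ => by ring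
  · ring

theorem sqA_jet0 (hA : Admissible (n := 5) l v τ) : sqA (jet0 l v) = 1 := by
  simp [sqA, jet0, ite_pow, hA.l_sq]

theorem KG_real (hA : Admissible (n := 5) l v τ) (al : ℝ) (den : ℕ) (hden : 0 < den) :
    ∀ KL : List KI, KG realOps (ptOf l v τ a b) KL =
      40000 * den * Kt al (KL.map (KI.term den)) (jet0 l v)
  | [] => by simp [KG, Kt, sumL_real]
  | t :: KL => by
    have ih := KG_real hA al den hden KL
    have hd : (den : ℝ) ≠ 0 := Nat.cast_ne_zero.2 hden.ne'
    simp only [KG, sumL_real, Kt, List.map_cons, List.sum_cons] at ih ⊢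
    rw [ih, mul_add]
    congr 1
    simp only [kM, cM, KI.it, rmul, rcst, monG_real, pw_real, p2G_real, KTerm.val, KI.term,
      KTerm.base, Term.mon, sqA_jet0 hA, Real.one_rpow, show (jet0 l v).2.2 = v 5 from rfl]
    push_cast
    field_simp

theorem dKG_real (hA : Admissible (n := 5) l v τ) (an : ℤ) (den : ℕ) (hden : 0 < den) (k : Fin 6) :
    ∀ KL : List KI,
      (KL.map fun t => dkM realOps (ptOf l v τ a b) an t k.val).sum =
        40000 * den * dKt ((an : ℝ) / 100) (KL.map (KI.term den)) (jet0 l v) (qdir l v τ a b k)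
  | [] => by simp [dKt]
  | t :: KL => by
    have ih := dKG_real hA an den hden k KL
    have hd : (den : ℝ) ≠ 0 := Nat.cast_ne_zero.2 hden.ne'
    simp only [dKt, List.map_cons, List.sum_cons] at ih ⊢
    rw [ih, mul_add]
    congr 1
    simp only [dkM, sumL_real, List.sum_cons, List.sum_nil, radd, rmul, rcst, pw_real, p2G_real,
      dsK_real hA, dt3K_real hA, dp0K_real hA, dp1K_real hA, dwK_real, dp2K_real hA, c3, c0, c1, cW,
      cM, monG_real, KI.it, KI.wt, KI.term, KTerm.dval, KTerm.wt, KTerm.base, Term.dmon, Term.mon,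
      sqA_jet0 hA, Real.one_rpow, show (jet0 l v).2.2 = v 5 from rfl]
    push_cast
    field_simp
    ring

theorem omV_lap (hA : Admissible (n := 5) l v τ) (al : ℝ) (den : ℕ) (hden : 0 < den) :
    ∀ L : List ITerm, (L.map fun t => cM realOps (ptOf l v τ a b) t *
        valL realOps (ptOf l v τ a b) t.form).sum =
      40000 * den * omV al (L.map (ITerm.term den)) (jet0 l v) (ljet0 l v)
  | [] => by simp [omV]
  | t :: L => by
    have ih := omV_lap hA al den hden L
    have hd : (den : ℝ) ≠ 0 := Nat.cast_ne_zero.2 hden.ne'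
    simp only [omV, List.map_cons, List.sum_cons] at ih ⊢
    rw [ih, mul_add]
    congr 1
    simp only [cM, rmul, rcst, monG_real, valL_real, Term.val, Term.mon, ITerm.term,
      sqA_jet0 hA, Real.one_rpow, show (jet0 l v).2.2 = v 5 from rfl]
    push_cast
    field_simp

theorem omV_dir (hA : Admissible (n := 5) l v τ) (al : ℝ) (den : ℕ) (hden : 0 < den) (k : Fin 6) :
    ∀ L : List ITerm, (L.map fun t => cM realOps (ptOf l v τ a b) t *
        valK realOps (ptOf l v τ a b) t.form k.val).sum =
      40000 * den * omV al (L.map (ITerm.term den)) (jet0 l v) (qdir l v τ a b k)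
  | [] => by simp [omV]
  | t :: L => by
    have ih := omV_dir hA al den hden k L
    have hd : (den : ℝ) ≠ 0 := Nat.cast_ne_zero.2 hden.ne'
    simp only [omV, List.map_cons, List.sum_cons] at ih ⊢
    rw [ih, mul_add]
    congr 1
    simp only [cM, rmul, rcst, monG_real, valK_real hA, Term.val, Term.mon, ITerm.term,
      sqA_jet0 hA, Real.one_rpow, show (jet0 l v).2.2 = v 5 from rfl]
    push_cast
    field_simp

theorem omV_unit (hA : Admissible (n := 5) l v τ) (al al' : ℝ) (L : List Term) (q : Jet 6) :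
    omV al L (jet0 l v) q = omV al' L (jet0 l v) q := by
  induction L with
  | nil => rfl
  | cons t L ih =>
    simp only [omV, List.map_cons, List.sum_cons] at ih ⊢
    simp only [ih, Term.val, sqA_jet0 hA, Real.one_rpow]

/-- The summand of one direction. -/
def sK (al : ℝ) (L L2 : List Term) (KL : List KTerm) (l v : Fin 6 → ℝ)
    (τ : Fin 6 → Fin 6 → Fin 6 → ℝ) (y : Fin 6 → ℝ) (a b : ℝ) (k : Fin 6) : ℝ :=
  dOmW al L L2 (jet0 l v) (qdir l v τ a b k) (qdir l v τ a b k)
    + y k * dKt al KL (jet0 l v) (qdir l v τ a b k) + Kt al KL (jet0 l v) * y k ^ 2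

theorem pieceW_real (hA : Admissible (n := 5) l v τ) (an : ℤ) (den : ℕ) (hden : 0 < den)
    (L L2 : List ITerm) (KL : List KI) (y : Fin 6 → ℝ) (k : Fin 6) :
    pieceW realOps (ptOf l v τ a b) (vvar y) an den L L2 KL k.val =
      40000 * den * sK ((an : ℝ) / 100) (L.map (ITerm.term den)) (L2.map (ITerm.term den))
        (KL.map (KI.term den)) l v τ y a b k := by
  have ha : ((an - 100 : ℤ) : ℝ) / 100 = (an : ℝ) / 100 - 1 := by push_cast; ring
  simp only [pieceW, sumL_real, List.sum_cons, List.sum_nil, rmul, radd, rcst, pw_real, fsumF_real,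
    pieceG_real hA _ den hden, dKG_real hA an den hden, KG_real hA ((an : ℝ) / 100) den hden,
    omV_dir hA ((an : ℝ) / 100 - 1) den hden, p2G_real, dp2K_real hA, dsK_real hA, vvar_val, ha,
    sK, dOmW]
  push_cast
  ring

/-- **The closed form with density is the interior form with density.** -/
theorem QGK_real (hA : Admissible (n := 5) l v τ) (an : ℤ) (den : ℕ) (hden : 0 < den)
    (L L2 : List ITerm) (KL : List KI) (y : Fin 6 → ℝ) :
    QGK realOps (ptOf l v τ a b) (vvar y) an den L L2 KL =
      40000 * den * QvalK ((an : ℝ) / 100) (L.map (ITerm.term den)) (L2.map (ITerm.term den))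
        (KL.map (KI.term den)) l v τ y a b := by
  have hb : (ptOf l v τ a b).z 31 = b := rfl
  have ha : ((an - 100 : ℤ) : ℝ) / 100 = (an : ℝ) / 100 - 1 := by push_cast; ring
  simp only [QGK, radd, sum6_real, pieceW, lapW, sumL_real, List.sum_cons, List.sum_nil, rmul, rcst,
    pw_real, fsumF_real, hb, pieceG_real hA _ den hden, dKG_real hA an den hden,
    KG_real hA ((an : ℝ) / 100) den hden, omV_lap hA ((an : ℝ) / 100) den hden,
    omV_dir hA ((an : ℝ) / 100 - 1) den hden, p2G_real, dp2K_real hA, dsK_real hA, vvar_val, ha]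
  rw [QvalK]
  simp only [dOmW, omW, omV_unit hA ((an : ℝ) / 100 - 1) ((an : ℝ) / 100) _ (ljet0 l v), mul_add, mul_sub, Finset.mul_sum, Finset.sum_add_distrib,
    Finset.sum_sub_distrib]
  push_cast
  ring

end Vale.Agent.P098.Exact.Sos6
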