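import Mathlib

/-!
Polynomials in up to three variables as nested coefficient lists over a module given by data:
sum, multiplication by integer polynomials and Taylor shift, with transfer along relations and
value lemmas.
-/

namespace Vale.Agent.P098.Exact.Sos6

/-- Operations of a module over the integers, given by data. -/
structure VOps (M : Type) where
  /-- zero -/
  zero : M
  /-- sum -/
  add : M → M → M
  /-- integer multiple -/
  smul : ℤ → M → M

/-- Coefficientwise sum; the longer list keeps its tail. -/
noncomputable def add1 {M : Type} (o : VOps M) (L : List M) : List M → List M :=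
  List.rec (motive := fun _ => List M → List M) (fun L' => L')
    (fun x xs ih L' => List.rec (motive := fun _ => List M) (x :: xs)
      (fun y ys _ => o.add x y :: ih ys) L') L

theorem add1_nil {M : Type} (o : VOps M) (L : List M) : add1 o [] L = L := rfl

theorem add1_cons_nil {M : Type} (o : VOps M) (x : M) (L : List M) :
    add1 o (x :: L) [] = x :: L := rfl

theorem add1_cons {M : Type} (o : VOps M) (x y : M) (L L' : List M) :
    add1 o (x :: L) (y :: L') = o.add x y :: add1 o L L' := rfl

/-- Coefficientwise multiple. -/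
noncomputable def smul1 {M : Type} (o : VOps M) (c : ℤ) (L : List M) : List M :=
  List.rec (motive := fun _ => List M) [] (fun x _ ih => o.smul c x :: ih) L

theorem smul1_cons {M : Type} (o : VOps M) (c : ℤ) (x : M) (L : List M) :
    smul1 o c (x :: L) = o.smul c x :: smul1 o c L := rfl

/-- Operations on polynomials in one more variable. -/
noncomputable def VOps.poly {M : Type} (o : VOps M) : VOps (List M) := ⟨[], add1 o, smul1 o⟩

/-- Map by the bare recursor, cheap in the kernel. -/
noncomputable def mapR {A B : Type} (f : A → B) (L : List A) : List B :=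
  List.rec (motive := fun _ => List B) [] (fun x _ ih => f x :: ih) L

theorem mapR_eq {A B : Type} (f : A → B) : ∀ L : List A, mapR f L = L.map f
  | [] => rfl
  | x :: L => by
    show f x :: mapR f L = _
    rw [mapR_eq f L]
    rfl

/-- Times the variable, without padding the zero polynomial. -/
noncomputable def shiftP {M : Type} (o : VOps M) (L : List M) : List M :=
  List.rec (motive := fun _ => List M) [] (fun x L _ => o.zero :: x :: L) L

/-- Product with a polynomial, given the product with one coefficient. -/
noncomputable def mul1 {M P : Type} (o : VOps M) (μ : P → M → M) (p : List P) (L : List M) :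
    List M :=
  List.rec (motive := fun _ => List M) []
    (fun q _ ih => add1 o (mapR (μ q) L) (shiftP o ih)) p

theorem mul1_cons {M P : Type} (o : VOps M) (μ : P → M → M) (q : P) (p : List P) (L : List M) :
    mul1 o μ (q :: p) L = add1 o (L.map (μ q)) (shiftP o (mul1 o μ p L)) := by
  rw [← mapR_eq]; rfl

/-- Taylor shift: coefficients in `s` of the polynomial at `a + r s`. -/
noncomputable def tay {M : Type} (o : VOps M) (a r : ℤ) (L : List M) : List M :=
  List.rec (motive := fun _ => List M) []
    (fun c _ ih => add1 o [c] (add1 o (smul1 o a ih) (o.zero :: smul1 o r ih))) L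

theorem tay_cons {M : Type} (o : VOps M) (a r : ℤ) (c : M) (L : List M) :
    tay o a r (c :: L) =
      add1 o [c] (add1 o (smul1 o a (tay o a r L)) (o.zero :: smul1 o r (tay o a r L))) := rfl

/-- A relation respected by two sets of operations. -/
structure VRel {M N : Type} (o : VOps M) (p : VOps N) (R : M → N → Prop) : Prop where
  zero : R o.zero p.zero
  add : ∀ {x x' y y'}, R x x' → R y y' → R (o.add x y) (p.add x' y')
  smul : ∀ (c : ℤ) {x x'}, R x x' → R (o.smul c x) (p.smul c x')

section Rel

variable {M N : Type} {o : VOps M} {p : VOps N} {R : M → N → Prop} (H : VRel o p R)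
include H

theorem add1_rel : ∀ {L : List M} {L' : List N}, List.Forall₂ R L L' →
    ∀ {K : List M} {K' : List N}, List.Forall₂ R K K' →
      List.Forall₂ R (add1 o L K) (add1 p L' K') := by
  intro L L' hL
  induction hL with
  | nil => intro K K' hK; exact hK
  | cons hx hxs ih =>
    intro K K' hK
    cases hK with
    | nil => exact List.Forall₂.cons hx hxs
    | cons hy hys => exact List.Forall₂.cons (H.add hx hy) (ih hys)

theorem smul1_rel (c : ℤ) : ∀ {L : List M} {L' : List N}, List.Forall₂ R L L' →
    List.Forall₂ R (smul1 o c L) (smul1 p c L') := by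
  intro L L' hL
  induction hL with
  | nil => exact List.Forall₂.nil
  | cons hx _ ih => exact List.Forall₂.cons (H.smul c hx) ih

theorem poly_rel : VRel o.poly p.poly (List.Forall₂ R) :=
  ⟨List.Forall₂.nil, fun h h' => add1_rel H h h', fun c _ _ h => smul1_rel H c h⟩

theorem tay_rel (a r : ℤ) : ∀ {L : List M} {L' : List N}, List.Forall₂ R L L' →
    List.Forall₂ R (tay o a r L) (tay p a r L') := by
  intro L L' hL
  induction hL with
  | nil => exact List.Forall₂.nil
  | cons hx _ ih =>
    rw [tay_cons, tay_cons]
    exact add1_rel H (List.Forall₂.cons hx List.Forall₂.nil)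
      (add1_rel H (smul1_rel H a ih) (List.Forall₂.cons H.zero (smul1_rel H r ih)))

theorem shiftP_rel {L : List M} {L' : List N} (h : List.Forall₂ R L L') :
    List.Forall₂ R (shiftP o L) (shiftP p L') := by
  cases h with
  | nil => exact .nil
  | cons hx hxs => exact .cons H.zero (.cons hx hxs)

theorem mul1_rel {P : Type} {μ : P → M → M} {ν : P → N → N}
    (hμ : ∀ q {x x'}, R x x' → R (μ q x) (ν q x')) :
    ∀ (q : List P) {L : List M} {L' : List N}, List.Forall₂ R L L' →
      List.Forall₂ R (mul1 o μ q L) (mul1 p ν q L')
  | [], _, _, _ => List.Forall₂.nil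
  | a :: q, L, L', hL => by
    rw [mul1_cons, mul1_cons]
    refine add1_rel H ?_ (shiftP_rel H (mul1_rel hμ q hL))
    induction hL with
    | nil => exact List.Forall₂.nil
    | cons hx _ ih => exact List.Forall₂.cons (hμ a hx) ih

end Rel

/-- Value of a coefficient list at `s` under a value map of coefficients. -/
noncomputable def evP {M : Type} (φ : M → ℝ) (s : ℝ) : List M → ℝ
  | [] => 0
  | x :: L => φ x + s * evP φ s L

/-- A value map that respects the operations. -/
structure VVal {M : Type} (o : VOps M) (φ : M → ℝ) : Prop where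
  zero : φ o.zero = 0
  add : ∀ x y, φ (o.add x y) = φ x + φ y
  smul : ∀ (c : ℤ) x, φ (o.smul c x) = c * φ x

section Val

variable {M : Type} {o : VOps M} {φ : M → ℝ} (H : VVal o φ) (s : ℝ)
include H

theorem evP_add1 : ∀ L K : List M, evP φ s (add1 o L K) = evP φ s L + evP φ s K
  | [], K => by simp [add1_nil, evP]
  | x :: L, [] => by simp [add1_cons_nil, evP]
  | x :: L, y :: K => by simp [add1_cons, evP, H.add, evP_add1 L K]; ring

theorem evP_smul1 (c : ℤ) : ∀ L : List M, evP φ s (smul1 o c L) = c * evP φ s L
  | [] => by simp [smul1, evP]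
  | x :: L => by simp [smul1_cons, evP, H.smul, evP_smul1 c L]; ring

theorem poly_val : VVal o.poly (evP φ s) :=
  ⟨rfl, evP_add1 H s, evP_smul1 H s⟩

theorem evP_tay (a r : ℤ) : ∀ L : List M, evP φ s (tay o a r L) = evP φ (a + r * s) L
  | [] => rfl
  | c :: L => by
    rw [tay_cons, evP_add1 H, evP_add1 H, evP_smul1 H]
    simp only [evP, H.zero, evP_smul1 H, evP_tay a r L]
    ring

theorem evP_mul1 {P : Type} {μ : P → M → M} {ψ : P → ℝ} (hμ : ∀ q x, φ (μ q x) = ψ q * φ x) :
    ∀ (q : List P) (L : List M), evP φ s (mul1 o μ q L) = evP ψ s q * evP φ s L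
  | [], L => by simp [mul1, evP]
  | a :: q, L => by
    have hm : ∀ K : List M, evP φ s (K.map (μ a)) = ψ a * evP φ s K := by
      intro K
      induction K with
      | nil => simp [evP]
      | cons x K ih => simp [evP, hμ, ih]; ring
    rw [mul1_cons, evP_add1 H, hm]
    have hs : ∀ K : List M, evP φ s (shiftP o K) = s * evP φ s K := fun K => by
      cases K <;> simp [shiftP, evP, H.zero]
    rw [hs, evP_mul1 hμ q L]
    simp only [evP]
    ring

end Val

/-! ### Three variables -/

variable {M : Type}

/-- Operations on polynomials in two variables. -/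
noncomputable def VOps.poly2 (o : VOps M) : VOps (List (List M)) := o.poly.poly

/-- Operations on polynomials in three variables. -/
noncomputable def VOps.poly3 (o : VOps M) : VOps (List (List (List M))) := o.poly2.poly

/-- Value of a polynomial in three variables. -/
noncomputable def ev3 (φ : M → ℝ) (s t u : ℝ) (L : List (List (List M))) : ℝ :=
  evP (evP (evP φ u) t) s L

/-- Product with an integer polynomial in three variables. -/
noncomputable def mul3 (o : VOps M) (q : List (List (List ℤ))) (L : List (List (List M))) :
    List (List (List M)) :=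
  mul1 o.poly2 (mul1 o.poly (mul1 o o.smul)) q L

/-- Taylor shift in three variables. -/
noncomputable def tay3 (o : VOps M) (a b c ra rb rc : ℤ) (L : List (List (List M))) :
    List (List (List M)) :=
  tay o.poly2 a ra (L.map fun K => tay o.poly b rb (K.map (tay o c rc)))

theorem evP_map {N : Type} (φ : M → ℝ) (ψ : N → ℝ) (f : N → M) (h : ∀ x, φ (f x) = ψ x) (s : ℝ) :
    ∀ L : List N, evP φ s (L.map f) = evP ψ s L
  | [] => rfl
  | x :: L => by simp [evP, h, evP_map φ ψ f h s L]

theorem ev3_mul3 {o : VOps M} {φ : M → ℝ} (H : VVal o φ) (s t u : ℝ)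
    (q : List (List (List ℤ))) (L : List (List (List M))) :
    ev3 φ s t u (mul3 o q L) = ev3 (fun z : ℤ => (z : ℝ)) s t u q * ev3 φ s t u L :=
  evP_mul1 (poly_val (poly_val H u) t) s
    (fun q2 K => evP_mul1 (poly_val H u) t (fun q1 J => evP_mul1 H u H.smul q1 J) q2 K) q L

theorem ev3_tay3 {o : VOps M} {φ : M → ℝ} (H : VVal o φ) (a b c ra rb rc : ℤ) (s t u : ℝ)
    (L : List (List (List M))) :
    ev3 φ s t u (tay3 o a b c ra rb rc L) = ev3 φ (a + ra * s) (b + rb * t) (c + rc * u) L := by
  rw [ev3, tay3, evP_tay (o := o.poly2) (poly_val (poly_val H u) t) s a ra]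
  refine evP_map _ _ _ (fun K => ?_) _ L
  rw [evP_tay (o := o.poly) (poly_val H u) t b rb]
  exact evP_map _ _ _ (fun J => evP_tay H u c rc J) _ K

theorem ev3_add {o : VOps M} {φ : M → ℝ} (H : VVal o φ) (s t u : ℝ)
    (L K : List (List (List M))) :
    ev3 φ s t u (o.poly3.add L K) = ev3 φ s t u L + ev3 φ s t u K :=
  (poly_val (poly_val (poly_val H u) t) s).add L K

theorem ev3_smul {o : VOps M} {φ : M → ℝ} (H : VVal o φ) (c : ℤ) (s t u : ℝ)
    (L : List (List (List M))) : ev3 φ s t u (o.poly3.smul c L) = c * ev3 φ s t u L :=
  (poly_val (poly_val (poly_val H u) t) s).smul c L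

/-- Lifted relation on polynomials in three variables. -/
def Rel3 {N : Type} (R : M → N → Prop) (L : List (List (List M))) (L' : List (List (List N))) :
    Prop :=
  List.Forall₂ (List.Forall₂ (List.Forall₂ R)) L L'

theorem mul3_rel {N : Type} {o : VOps M} {p : VOps N} {R : M → N → Prop} (H : VRel o p R)
    (q : List (List (List ℤ))) {L : List (List (List M))} {L' : List (List (List N))}
    (h : Rel3 R L L') : Rel3 R (mul3 o q L) (mul3 p q L') :=
  mul1_rel (poly_rel (poly_rel H))
    (fun q2 _ _ h2 => mul1_rel (poly_rel H) (fun q1 _ _ h1 => mul1_rel H (fun c _ _ h0 => H.smul c h0) q1 h1) q2 h2)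
    q h

theorem forall₂_map {A B A' B' : Type} {R : A → B → Prop} {S : A' → B' → Prop} (f : A → A')
    (g : B → B') (h : ∀ {x y}, R x y → S (f x) (g y)) {L : List A} {L' : List B}
    (hL : List.Forall₂ R L L') : List.Forall₂ S (L.map f) (L'.map g) := by
  induction hL with
  | nil => exact List.Forall₂.nil
  | cons hx _ ih => exact List.Forall₂.cons (h hx) ih

theorem tay3_rel {N : Type} {o : VOps M} {p : VOps N} {R : M → N → Prop} (H : VRel o p R)
    (a b c ra rb rc : ℤ) {L : List (List (List M))} {L' : List (List (List N))}
    (h : Rel3 R L L') : Rel3 R (tay3 o a b c ra rb rc L) (tay3 p a b c ra rb rc L') :=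
  tay_rel (poly_rel (poly_rel H)) a ra
    (forall₂_map _ _ (fun hK => tay_rel (poly_rel H) b rb
      (forall₂_map _ _ (fun hJ => tay_rel H c rc hJ) hK)) h)

theorem add3_rel {N : Type} {o : VOps M} {p : VOps N} {R : M → N → Prop} (H : VRel o p R)
    {L K : List (List (List M))} {L' K' : List (List (List N))}
    (h : Rel3 R L L') (h' : Rel3 R K K') : Rel3 R (o.poly3.add L K) (p.poly3.add L' K') :=
  (poly_rel (poly_rel (poly_rel H))).add h h'

theorem smul3_rel {N : Type} {o : VOps M} {p : VOps N} {R : M → N → Prop} (H : VRel o p R)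
    (c : ℤ) {L : List (List (List M))} {L' : List (List (List N))}
    (h : Rel3 R L L') : Rel3 R (o.poly3.smul c L) (p.poly3.smul c L') :=
  (poly_rel (poly_rel (poly_rel H))).smul c h

end Vale.Agent.P098.Exact.Sos6
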