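import Vale.Agent.P098.Exact.Sos6.Slice

/-!
Reduced parts of one bucket as stored literals: the equality is checked once, and boxes are then
checked against the literals.
-/

noncomputable section

namespace Vale.Agent.P098.Exact.Sos6

/-- Equality test of integers. -/
noncomputable def ibeq (x y : ℤ) : Bool :=
  Int.rec (motive := fun _ => Bool)
    (fun a => Int.rec (motive := fun _ => Bool) (fun b => Nat.beq a b) (fun _ => false) y)
    (fun a => Int.rec (motive := fun _ => Bool) (fun _ => false) (fun b => Nat.beq a b) y) x

theorem ibeq_eq {x y : ℤ} (h : ibeq x y = true) : x = y := by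
  cases x <;> cases y <;> simp [ibeq] at h <;> simp [Nat.eq_of_beq_eq_true, h]

/-- Equality test of packed vectors. -/
noncomputable def pvBeq (p q : PV) : Bool := ibeq p.1 q.1 && Nat.beq p.2 q.2

theorem pvBeq_eq {p q : PV} (h : pvBeq p q = true) : p = q := by
  simp only [pvBeq, Bool.and_eq_true] at h
  exact Prod.ext (ibeq_eq h.1) (Nat.eq_of_beq_eq_true h.2)

/-- Equality test of lists. -/
noncomputable def lstBeq {X : Type} (f : X → X → Bool) (L : List X) : List X → Bool :=
  List.rec (motive := fun _ => List X → Bool)
    (fun K => List.rec (motive := fun _ => Bool) true (fun _ _ _ => false) K)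
    (fun x _ ih K => List.rec (motive := fun _ => Bool) false (fun y K' _ => f x y && ih K') K) L

theorem lstBeq_eq {X : Type} (f : X → X → Bool) (hf : ∀ {x y}, f x y = true → x = y) :
    ∀ {L K : List X}, lstBeq f L K = true → L = K
  | [], [], _ => rfl
  | [], _ :: _, h => by simp [lstBeq] at h
  | _ :: _, [], h => by simp [lstBeq] at h
  | x :: L, y :: K, h => by
    change (f x y && lstBeq f L K) = true at h
    simp only [Bool.and_eq_true] at h
    rw [hf h.1, lstBeq_eq f hf h.2]

/-- Equality test of polynomials in three variables. -/
noncomputable def eq3 (L K : List (List (List PV))) : Bool := lstBeq (lstBeq (lstBeq pvBeq)) L K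

theorem eq3_eq {L K : List (List (List PV))} (h : eq3 L K = true) : L = K :=
  lstBeq_eq _ (fun h => lstBeq_eq _ (fun h => lstBeq_eq _ (fun h => pvBeq_eq h) h) h) h

/-- The stored pair is the reduced pair of the bucket. -/
noncomputable def eoOK (W D o n : ℕ) (rs : List Part)
    (EO : List (List (List PV)) × List (List (List PV))) : Bool :=
  Prod.rec (motive := fun _ => Bool) (fun E O => eq3 E EO.1 && eq3 O EO.2) (partsPS W D o n rs)

theorem eoOK_eq {W D o n : ℕ} {rs : List Part}
    {EO : List (List (List PV)) × List (List (List PV))} (h : eoOK W D o n rs EO = true) :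
    partsPS W D o n rs = EO := by
  change (eq3 (partsPS W D o n rs).1 EO.1 && eq3 (partsPS W D o n rs).2 EO.2) = true at h
  simp only [Bool.and_eq_true] at h
  exact Prod.ext (eq3_eq h.1) (eq3_eq h.2)

/-- **A box checked against the stored pair is checked.** -/
theorem boxS_of_lit {W D o n : ℕ} {gl : List Mon} {rs : List Part}
    {EO : List (List (List PV)) × List (List (List PV))} (h : eoOK W D o n rs EO = true)
    {x : Box} {H : HData} {k : List ℤ → List ℕ → Bool}
    (hB : boxEOK W 38 D (sliceL gl o n) EO x H k = true) :
    boxS W D gl o n rs x H k = true := by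
  rw [boxS, eoOK_eq h]
  exact hB

end Vale.Agent.P098.Exact.Sos6
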