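import Vale.Agent.P098.Exact.Sos6.Trunc
import Vale.Agent.P098.Exact.Sos6.Lit
import Vale.Agent.P098.Exact.Sos6.CheckS

/-!
Targets of a box from those of a parent box: one truncated polynomial and one vector of remainders
per parent and bucket, one Taylor shift for each child.
-/

noncomputable section

namespace Vale.Agent.P098.Exact.Sos6

open Sos (pk base half npk decode)

/-- A reduced pair of parts. -/
abbrev Pair := List (List (List PV)) × List (List (List PV))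

/-- Position of a child: `σ = (o + r s) / q` on each axis of the parent. -/
structure Rel where
  /-- denominator -/
  q : ℕ
  /-- offset, first axis -/
  oA : ℤ
  /-- offset, second axis -/
  oB : ℤ
  /-- offset, third axis -/
  oC : ℤ
  /-- width, first axis -/
  ra : ℤ
  /-- width, second axis -/
  rb : ℤ
  /-- width, third axis -/
  rc : ℤ

/-- One axis of a child lies in its parent. -/
noncomputable def axOK (q : ℕ) (o r C0 w0 C1 w1 : ℤ) : Bool :=
  decide (Int.mul (Int.ofNat q) (Int.sub C1 C0) = Int.mul o w0) &&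
    decide (Int.mul (Int.ofNat q) w1 = Int.mul r w0) && Nat.ble (Nat.add o.natAbs r.natAbs) q

/-- The child lies in its parent. -/
noncomputable def Rel.ok (c : Rel) (p x : Box) : Bool :=
  Nat.blt 0 c.q && axOK c.q c.oA c.ra p.A p.a x.A x.a && axOK c.q c.oB c.rb p.B p.b x.B x.b &&
    axOK c.q c.oC c.rc p.C p.c x.C x.c

theorem ax_sound {q : ℕ} {o r C0 w0 C1 w1 : ℤ} (hq : 0 < q) (h : axOK q o r C0 w0 C1 w1 = true)
    {s : ℝ} (hs : |s| ≤ 1) :
    |((o : ℝ) + r * s) / q| ≤ 1 ∧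
      ((C0 : ℝ) + w0 * (((o : ℝ) + r * s) / q)) = (C1 : ℝ) + w1 * s := by
  simp only [axOK, Bool.and_eq_true, decide_eq_true_eq, Nat.ble_eq] at h
  obtain ⟨⟨h1, h2⟩, h3⟩ := h
  have hq' : (0 : ℝ) < q := Nat.cast_pos.2 hq
  have h1' : (q : ℝ) * ((C1 : ℝ) - C0) = o * w0 := by
    have h : ((q : ℤ) * (C1 - C0) : ℤ) = o * w0 := h1
    have := congrArg (fun z : ℤ => (z : ℝ)) h
    simpa using this
  have h2' : (q : ℝ) * w1 = r * w0 := by
    have h : ((q : ℤ) * w1 : ℤ) = r * w0 := h2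
    have := congrArg (fun z : ℤ => (z : ℝ)) h
    simpa using this
  refine ⟨?_, ?_⟩
  · rw [abs_div, abs_of_pos hq', div_le_one hq']
    refine (abs_add_le _ _).trans ?_
    rw [abs_mul]
    refine le_trans (add_le_add le_rfl (mul_le_of_le_one_right (abs_nonneg _) hs)) ?_
    rw [← Int.cast_abs, ← Int.cast_abs, ← Int.natCast_natAbs, ← Int.natCast_natAbs, Int.cast_natCast,
      Int.cast_natCast]
    exact_mod_cast h3
  · field_simp
    linear_combination -h1' - s * h2'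

/-! ### Homogenisation with any unit -/

/-- Homogenised to the unit `q`. -/
noncomputable def homQ {M : Type} (o : VOps M) (q D : ℕ) (L : List (List (List M))) :
    List (List (List M)) :=
  homL (fun D1 K => homL (fun D2 J => homL (fun D3 c => o.smul (Int.ofNat (Nat.pow q D3)) c)
    J D2) K D1) L D

theorem evP_homQ {X : Type} (φ ψ : X → ℝ) (sm : ℕ → X → X) (okx : ℕ → X → Bool) (q : ℝ)
    (hq : q ≠ 0) (h : ∀ m x, okx m x = true → φ (sm m x) = q ^ m * ψ x) (s : ℝ) :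
    ∀ (L : List X) (D : ℕ), okL okx L D = true →
      evP φ s (homL sm L D) = q ^ D * evP ψ (s / q) L
  | [], D, _ => by simp [homL, evP]
  | x :: L, D, hk => by
    change (okx D x && (List.isEmpty L || Nat.blt 0 D) && okL okx L (D - 1)) = true at hk
    simp only [Bool.and_eq_true, Bool.or_eq_true, Nat.blt_eq] at hk
    rw [show homL sm (x :: L) D = sm D x :: homL sm L (D - 1) from rfl]
    simp only [evP, h D x hk.1.1, evP_homQ φ ψ sm okx q hq h s L (D - 1) hk.2]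
    rcases hk.1.2 with he | he
    · cases L with
      | nil => simp [evP]
      | cons => simp at he
    · obtain ⟨D, rfl⟩ : ∃ m, D = m + 1 := ⟨D - 1, by omega⟩
      simp only [Nat.add_sub_cancel, pow_succ]
      field_simp

theorem ev3_homQ {M : Type} {o : VOps M} {φ : M → ℝ} (H : VVal o φ) (q D : ℕ) (hq : 0 < q)
    (L : List (List (List M))) (hk : ok3 D L = true) (s t u : ℝ) :
    ev3 φ s t u (homQ o q D L) = (q : ℝ) ^ D * ev3 φ (s / q) (t / q) (u / q) L := by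
  have hq' : (q : ℝ) ≠ 0 := Nat.cast_ne_zero.2 hq.ne'
  refine evP_homQ _ _ _ _ _ hq' (fun D1 K h1 => ?_) s L D hk
  refine evP_homQ _ _ _ _ _ hq' (fun D2 J h2 => ?_) t K D1 h1
  refine evP_homQ _ _ _ _ _ hq' (fun D3 c _ => ?_) u J D2 h2
  rw [H.smul]
  simp [Int.ofNat_eq_natCast]

theorem homQ_rel {M N : Type} {o : VOps M} {p : VOps N} {R : M → N → Prop} (H : VRel o p R)
    (q D : ℕ) {L : List (List (List M))} {L' : List (List (List N))} (h : Rel3 R L L') :
    Rel3 R (homQ o q D L) (homQ p q D L') :=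
  homL_rel (R := List.Forall₂ (List.Forall₂ R)) (fun D1 _ _ h1 =>
    homL_rel (R := List.Forall₂ R) (fun D2 _ _ h2 =>
      homL_rel (R := R) (fun D3 _ _ h3 => H.smul (Int.ofNat (Nat.pow q D3)) h3) h2 D2) h1 D1) h D

/-! ### The parent -/

/-- Dropped absolute sums of the model by allowance, tabulated up to `nT`. -/
noncomputable def wtab (H : HData) (nT m : ℕ) : ℕ :=
  Bool.rec (tail3 m H.hm) (((List.range (Nat.add nT 1)).map fun j => tail3 j H.hm).getD m 0)
    (Nat.ble m nT)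

theorem wtab_eq (H : HData) (nT m : ℕ) : wtab H nT m = tail3 m H.hm := by
  rw [wtab]
  cases e : Nat.ble m nT
  · rfl
  · have := Nat.le_of_ble_eq_true e
    simp [List.getD_eq_getElem?_getD, List.getElem?_range (show m < nT + 1 by omega)]

/-- Truncated combined polynomial of a parent box. -/
noncomputable def parP (D nT : ℕ) (EO : Pair) (p : Box) (H : HData) : List (List (List PV)) :=
  pOps.poly3.add (pOps.poly3.smul (Int.ofNat H.U) (tr3 nT (atBox pOps D p EO.1)))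
    (mulT3 pOps nT H.hm (atBox pOps D p EO.2))

/-- Remainder vector of a parent box. -/
noncomputable def parR (W len D nT : ℕ) (EO : Pair) (p : Box) (H : HData) : ℕ :=
  Nat.add (Nat.mul H.U (sumW W len fz (tag3 nT (atBox pOps D p EO.1))))
    (sumW W len (fun m => Nat.add (wtab H nT m) H.e) (tag3 nT (atBox pOps D p EO.2)))

/-- Digit bound of the remainder. -/
noncomputable def parB (D nT : ℕ) (EO : Pair) (p : Box) (H : HData) : ℕ :=
  Nat.add (Nat.mul H.U (sumWB fz (tag3 nT (atBox pOps D p EO.1))))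
    (sumWB (fun m => Nat.add (wtab H nT m) H.e) (tag3 nT (atBox pOps D p EO.2)))

/-- The polynomial of a child. -/
noncomputable def chP (D nT : ℕ) (EO : Pair) (p : Box) (H : HData) (c : Rel) :
    List (List (List PV)) :=
  tay3 pOps c.oA c.oB c.oC c.ra c.rb c.rc (homQ pOps c.q (Nat.sub nT 1) (parP D nT EO p H))

/-- Packed targets of a child. -/
noncomputable def boxVC (D nT : ℕ) (EO : Pair) (p : Box) (H : HData) (c : Rel) : List ℤ :=
  (keptL (0, 0) (chP D nT EO p H c)).map Prod.fst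

/-- Loads of a child. -/
noncomputable def boxElC (W N D nT : ℕ) (gl : List Mon) (EO : Pair) (p : Box) (H : HData)
    (c : Rel) : List ℕ :=
  (loads N gl (ndigs W gl.length
    (Nat.add (sumA W gl.length (drop3 (chP D nT EO p H c)))
      (Nat.mul (Nat.pow c.q (Nat.sub nT 1)) (parR W gl.length D nT EO p H))))).map
    fun l => Nat.div (Nat.add l 63) 64

/-- A child: valid model on the parent, position, no overflow, and a check of targets and loads. -/
noncomputable def boxCOK (W N D nT : ℕ) (gl : List Mon) (EO : Pair) (p : Box) (H : HData) (c : Rel)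
    (x : Box) (k : List ℤ → List ℕ → Bool) : Bool :=
  H.ok p && c.ok p x && ok3 (Nat.sub nT 1) (parP D nT EO p H) &&
    Nat.blt (Nat.add (Nat.add (sumB (keptL (0, 0) (chP D nT EO p H c)))
      (sumB (drop3 (chP D nT EO p H c))))
      (Nat.mul (Nat.add (Nat.pow c.q (Nat.sub nT 1)) 1) (parB D nT EO p H))) (half W) &&
    k (boxVC D nT EO p H c) (boxElC W N D nT gl EO p H c)

/-- A child on one bucket. -/
noncomputable def boxC (W D nT : ℕ) (gl : List Mon) (o n : ℕ) (rs : List Part) (p : Box) (H : HData)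
    (c : Rel) (x : Box) (k : List ℤ → List ℕ → Bool) : Bool :=
  boxCOK W 38 D nT (sliceL gl o n) (partsPS W D o n rs) p H c x k

/-- A child checked against the stored pair is checked. -/
theorem boxC_of_lit {W D nT o n : ℕ} {gl : List Mon} {rs : List Part} {EO : Pair}
    (h : eoOK W D o n rs EO = true) {p : Box} {H : HData} {c : Rel} {x : Box}
    {k : List ℤ → List ℕ → Bool} (hB : boxCOK W 38 D nT (sliceL gl o n) EO p H c x k = true) :
    boxC W D nT gl o n rs p H c x k = true := by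
  rw [boxC, eoOK_eq h]
  exact hB

/-- **Targets and loads of a checked child.** -/
theorem targetC (W N D nT : ℕ) (gl : List Mon) (EO : Pair) (p : Box) (H : HData) (c : Rel) (x : Box)
    (k : List ℤ → List ℕ → Bool) (hW : 0 < W) (hoE : ok3 D EO.1 = true) (hoO : ok3 D EO.2 = true)
    (hgl : ∀ G ∈ gl, G.a < N ∧ G.b < N) (hB : boxCOK W N D nT gl EO p H c x k = true) :
    k (boxVC D nT EO p H c) (boxElC W N D nT gl EO p H c) = true ∧
      ∀ (s t u : ℝ), |s| ≤ 1 → |t| ≤ 1 → |u| ≤ 1 → ∀ (z v : ℕ → ℝ) (h X : ℝ), 0 ≤ h →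
        h ^ 2 = 1 - 2 * (x.pt s t u).1 ^ 2 - 2 * (x.pt s t u).2.1 ^ 2 - 20 * (x.pt s t u).2.2 ^ 2 →
        v 0 ^ 2 + v 1 ^ 2 + v 2 ^ 2 + v 3 ^ 2 + v 4 ^ 2 + v 5 ^ 2 ≤ 1 →
        ∀ E' O' : List (List (List ℝ)), Rel3 (PRel W (gl.map fun G => G.ev z v)) EO.1 E' →
        Rel3 (PRel W (gl.map fun G => G.ev z v)) EO.2 O' →
        2 ^ D * X = ev3 id (x.pt s t u).1 (x.pt s t u).2.1 (x.pt s t u).2.2 E' +
          h * ev3 id (x.pt s t u).1 (x.pt s t u).2.1 (x.pt s t u).2.2 O' →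
        2 * |(H.U : ℝ) * 4096 ^ D * 2 ^ D * (c.q : ℝ) ^ (nT - 1) * X - polyR (fun m =>
            gsumZ z v gl (decode W gl.length ((boxVC D nT EO p H c).getD m 0))) s t u| ≤
          ∑ m ∈ Finset.range N, ((boxElC W N D nT gl EO p H c).getD m 0 : ℝ) * z m ^ 2 := by
  simp only [boxCOK, Bool.and_eq_true, Nat.blt_eq] at hB
  obtain ⟨⟨⟨⟨hH, hc⟩, hoP⟩, hsum⟩, hk⟩ := hB
  refine ⟨hk, fun s t u hs ht hu z v h X h0 hh hv E' O' hE hO e1 => ?_⟩
  simp only [Rel.ok, Bool.and_eq_true, Nat.blt_eq] at hc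
  obtain ⟨⟨⟨hq, hxA⟩, hxB⟩, hxC⟩ := hc
  obtain ⟨sA, eA⟩ := ax_sound hq hxA hs
  obtain ⟨sB, eB⟩ := ax_sound hq hxB ht
  obtain ⟨sC, eC⟩ := ax_sound hq hxC hu
  obtain ⟨σ, hσ⟩ : ∃ σ : ℝ, σ = ((c.oA : ℝ) + c.ra * s) / c.q := ⟨_, rfl⟩
  obtain ⟨τ, hτ⟩ : ∃ τ : ℝ, τ = ((c.oB : ℝ) + c.rb * t) / c.q := ⟨_, rfl⟩
  obtain ⟨υ, hυ⟩ : ∃ υ : ℝ, υ = ((c.oC : ℝ) + c.rc * u) / c.q := ⟨_, rfl⟩
  rw [← hσ] at sA eA
  rw [← hτ] at sB eB
  rw [← hυ] at sC eC
  have hpt : p.pt σ τ υ = x.pt s t u := by rw [Box.pt, Box.pt, eA, eB, eC]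
  rw [← hpt] at e1 hh
  obtain ⟨gs, hgs⟩ : ∃ gs, gs = gl.map fun G => G.ev z v := ⟨_, rfl⟩
  have hn : gs.length = gl.length := by simp [hgs]
  rw [← hgs] at hE hO
  have hbE := atBox_rel (prel W gs) D p hE
  have hbO := atBox_rel (prel W gs) D p hO
  have hP : Rel3 (PRel W gs) (parP D nT EO p H) _ :=
    add3_rel (prel W gs) (smul3_rel (prel W gs) (Int.ofNat H.U) (tr3_rel nT hbE))
      (mulT3_rel (prel W gs) nT H.hm hbO)
  obtain ⟨Er, hEr⟩ : ∃ Er, Er = atBox rOps D p E' := ⟨_, rfl⟩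
  obtain ⟨Or, hOr⟩ : ∃ Or, Or = atBox rOps D p O' := ⟨_, rfl⟩
  rw [← hEr] at hbE hP
  rw [← hOr] at hbO hP
  obtain ⟨Pr, hPr⟩ : ∃ Pr, Pr = rOps.poly3.add (rOps.poly3.smul (Int.ofNat H.U) (tr3 nT Er))
      (mulT3 rOps nT H.hm Or) := ⟨_, rfl⟩
  rw [← hPr] at hP
  have hC : Rel3 (PRel W gs) (chP D nT EO p H c) _ :=
    tay3_rel (prel W gs) c.oA c.oB c.oC c.ra c.rb c.rc (homQ_rel (prel W gs) c.q (nT - 1) hP)
  obtain ⟨Cr, hCr⟩ : ∃ Cr, Cr = tay3 rOps c.oA c.oB c.oC c.ra c.rb c.rc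
      (homQ rOps c.q (nT - 1) Pr) := ⟨_, rfl⟩
  rw [← hCr] at hC
  have V := rOps_val
  -- the error on the parent
  have hpar : |(H.U : ℝ) * 4096 ^ D * 2 ^ D * X - ev3 id σ τ υ Pr| ≤
      (H.U : ℝ) * wS fz (tag3 nT Er) +
        wS (fun m => Nat.add (wtab H nT m) H.e) (tag3 nT Or) := by
    have hE0 : ev3 id σ τ υ Er =
        4096 ^ D * ev3 id (p.pt σ τ υ).1 (p.pt σ τ υ).2.1 (p.pt σ τ υ).2.2 E' := by
      rw [hEr]
      exact ev_atBox V D p _ (by rw [← ok3_rel D hE]; exact hoE) σ τ υ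
    have hO0 : ev3 id σ τ υ Or =
        4096 ^ D * ev3 id (p.pt σ τ υ).1 (p.pt σ τ υ).2.1 (p.pt σ τ υ).2.2 O' := by
      rw [hOr]
      exact ev_atBox V D p _ (by rw [← ok3_rel D hO]; exact hoO) σ τ υ
    have hval : (H.U : ℝ) * 4096 ^ D * 2 ^ D * X - ev3 id σ τ υ Pr =
        (H.U : ℝ) * (ev3 id σ τ υ Er - ev3 id σ τ υ (tr3 nT Er)) +
          (((H.U : ℝ) * h - ev3 (fun z : ℤ => (z : ℝ)) σ τ υ H.hm) * ev3 id σ τ υ Or +
            -(ev3 id σ τ υ (mulT3 rOps nT H.hm Or) -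
              ev3 (fun z : ℤ => (z : ℝ)) σ τ υ H.hm * ev3 id σ τ υ Or)) := by
      rw [hPr, ev3_add V, ev3_smul V]
      simp only [Int.ofNat_eq_natCast, Int.cast_natCast]
      rw [hE0, hO0]
      linear_combination ((H.U : ℝ) * 4096 ^ D) * e1
    rw [hval]
    have h1 := tr3_err σ τ υ sA sB sC nT Er
    have h2 := mulT3_err σ τ υ sA sB sC nT H.hm Or
    have h3 := abs3 σ τ υ sA sB sC nT Or
    have h4 := H.bound p hH σ τ υ h sA sB sC h0 hh
    have h5 := wS_mul H.e (fun _ => 1) (tag3 nT Or)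
    simp only [mul_one] at h5
    have e : wS (fun m => Nat.add (wtab H nT m) H.e) (tag3 nT Or) =
        wS (fun m => tail3 m H.hm) (tag3 nT Or) + (H.e : ℝ) * wS (fun _ => 1) (tag3 nT Or) := by
      rw [← h5, ← wS_add]
      simp only [wtab_eq, Nat.add_eq]
    rw [e]
    refine (abs_add_le _ _).trans (add_le_add ?_ ?_)
    · rw [abs_mul, Nat.abs_cast]
      exact mul_le_mul_of_nonneg_left h1 (Nat.cast_nonneg _)
    · refine (abs_add_le _ _).trans ?_
      rw [abs_neg, abs_mul, add_comm]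
      exact add_le_add h2 (mul_le_mul h4 h3 (abs_nonneg _) (Nat.cast_nonneg _))
  have hev : ev3 id s t u Cr = (c.q : ℝ) ^ (nT - 1) * ev3 id σ τ υ Pr := by
    rw [hCr, ev3_tay3 V, ev3_homQ V c.q (nT - 1) hq _ (by rw [← ok3_rel _ hP]; exact hoP),
      hσ, hτ, hυ]
  have hko := ev3_kept s t u hs ht hu Cr
  -- the absolute vectors
  obtain ⟨qn, hqn⟩ : ∃ qn, qn = Nat.pow c.q (nT - 1) := ⟨_, rfl⟩
  have hqn' : (c.q : ℝ) ^ (nT - 1) = qn := by rw [hqn, Nat.pow_eq, Nat.cast_pow]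
  obtain ⟨bE, hbEd⟩ : ∃ b, b = sumWB fz (tag3 nT (atBox pOps D p EO.1)) := ⟨_, rfl⟩
  obtain ⟨bO, hbOd⟩ : ∃ b, b = sumWB (fun m => Nat.add (wtab H nT m) H.e)
      (tag3 nT (atBox pOps D p EO.2)) := ⟨_, rfl⟩
  have hsum' : sumB (keptL (0, 0) (chP D nT EO p H c)) + sumB (drop3 (chP D nT EO p H c))
      + (qn + 1) * (H.U * bE + bO) < half W := by
    rw [hqn, hbEd, hbOd]
    exact hsum
  have hB1 : H.U * bE + bO ≤ (qn + 1) * (H.U * bE + bO) :=
    Nat.le_mul_of_pos_left _ (Nat.succ_pos _)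
  have hB2 : qn * (H.U * bE + bO) ≤ (qn + 1) * (H.U * bE + bO) :=
    Nat.mul_le_mul_right _ (Nat.le_succ _)
  have hUpos : 0 < H.U := by
    simp only [HData.ok, Bool.and_eq_true, Nat.blt_eq] at hH
    exact hH.1.1
  have hB3 : bE ≤ H.U * bE := Nat.le_mul_of_pos_left _ hUpos
  obtain ⟨a, a1, a2, a3⟩ := sumA_rel W hW gs (drop3_rel hC) (by omega)
  obtain ⟨bv, b1, b2, b3⟩ := sumW_rel W hW gs fz (tag3_rel nT hbE) (by rw [← hbEd]; omega)
  obtain ⟨cv, c1, c2, c3⟩ := sumW_rel W hW gs (fun m => Nat.add (wtab H nT m) H.e)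
    (tag3_rel nT hbO) (by rw [← hbOd]; omega)
  rw [← hbEd] at b2
  rw [← hbOd] at c2
  have hdig : ndigs W gl.length (Nat.add (sumA W gl.length (drop3 (chP D nT EO p H c)))
      (Nat.mul (Nat.pow c.q (nT - 1)) (parR W gl.length D nT EO p H))) =
      (List.range gl.length).map fun k => a k + qn * (H.U * bv k + cv k) := by
    rw [← hn, a1, parR, b1, c1, ← hqn]
    show ndigs W gs.length (npk W gs.length a +
      qn * (H.U * npk W gs.length bv + npk W gs.length cv)) = _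
    rw [npk_smul, npk_add, npk_smul, npk_add]
    refine ndigs_npk W _ _ fun k _ => ?_
    have h1 : qn * (H.U * bv k + cv k) ≤ qn * (H.U * bE + bO) :=
      Nat.mul_le_mul_left _ (Nat.add_le_add (Nat.mul_le_mul_left _ (b2 k)) (c2 k))
    have h3 := a2 k
    have h4 : half W ≤ base W := Nat.pow_le_pow_right (by norm_num) (Nat.sub_le _ _)
    omega
  have hL := loads_bound N z v hv gl
    ((List.range gl.length).map fun k => a k + qn * (H.U * bv k + cv k)) hgl
  rw [← hgs, ← hdig] at hL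
  have hkept : polyR (fun m => gsumZ z v gl (decode W gl.length ((boxVC D nT EO p H c).getD m 0)))
      s t u = ∑ i ∈ Finset.range 5, ∑ j ∈ Finset.range 5, ∑ l ∈ Finset.range 5,
        s ^ i * (t ^ j * (u ^ l * kept 0 Cr i j l)) := by
    refine Finset.sum_congr rfl fun i hi => Finset.sum_congr rfl fun j hj =>
      Finset.sum_congr rfl fun l hl => ?_
    simp only [Finset.mem_range] at hi hj hl
    have hV : (boxVC D nT EO p H c).getD (25 * i + 5 * j + l) 0 =
        (kept (0, 0) (chP D nT EO p H c) i j l).1 := by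
      rw [boxVC, keptL, List.getD_eq_getElem?_getD, List.getElem?_map, List.getElem?_map,
        List.getElem?_range (by omega)]
      simp only [Option.map_some, Option.getD_some]
      rw [show (25 * i + 5 * j + l) / 25 = i by omega,
        show (25 * i + 5 * j + l) / 5 % 5 = j by omega, show (25 * i + 5 * j + l) % 5 = l by omega]
    have hm : (kept (0, 0) (chP D nT EO p H c) i j l).2 ≤
        sumB (keptL (0, 0) (chP D nT EO p H c)) := by
      refine mem_le_sumB _ _ ?_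
      rw [keptL, List.mem_map]
      refine ⟨25 * i + 5 * j + l, List.mem_range.2 (by omega), ?_⟩
      rw [show (25 * i + 5 * j + l) / 25 = i by omega,
        show (25 * i + 5 * j + l) / 5 % 5 = j by omega, show (25 * i + 5 * j + l) % 5 = l by omega]
    simp only [hV]
    rw [decode_gsum W hW gl z v _ _ (hgs ▸ kept_rel (prel W gs).zero hC i j l) (by omega)]
    show kept 0 Cr i j l * _ = _
    ring
  have hQ : |(H.U : ℝ) * 4096 ^ D * 2 ^ D * (c.q : ℝ) ^ (nT - 1) * X - polyR (fun m =>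
      gsumZ z v gl (decode W gl.length ((boxVC D nT EO p H c).getD m 0))) s t u| ≤
      ∑ k ∈ Finset.range gl.length,
        ((a k + qn * (H.U * bv k + cv k) : ℕ) : ℝ) * |gs.getD k 0| := by
    rw [hkept]
    refine (abs_sub_le _ (ev3 id s t u Cr) _).trans ?_
    rw [hev, hqn', show (H.U : ℝ) * 4096 ^ D * 2 ^ D * qn * X - qn * ev3 id σ τ υ Pr =
      qn * ((H.U : ℝ) * 4096 ^ D * 2 ^ D * X - ev3 id σ τ υ Pr) by ring, abs_mul, Nat.abs_cast]
    have h6 := hko.trans (hn ▸ a3)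
    rw [hev, hqn'] at h6
    have h7 := mul_le_mul_of_nonneg_left (hpar.trans (add_le_add
      (mul_le_mul_of_nonneg_left (hn ▸ b3) (Nat.cast_nonneg _)) (hn ▸ c3)))
      (Nat.cast_nonneg (α := ℝ) qn)
    simp only [Finset.mul_sum, ← Finset.sum_add_distrib] at h7
    push_cast
    simp only [add_mul, mul_add, mul_assoc, Finset.sum_add_distrib] at h7 ⊢
    linarith
  have hel : ∀ m, ((loads N gl (ndigs W gl.length (Nat.add (sumA W gl.length (drop3 (chP D nT EO p H c)))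
      (Nat.mul (Nat.pow c.q (nT - 1)) (parR W gl.length D nT EO p H))))).getD m 0 : ℝ)
      ≤ 64 * ((boxElC W N D nT gl EO p H c).getD m 0 : ℝ) := by
    intro m
    rw [boxElC]
    generalize loads N gl _ = L
    have : L.getD m 0 ≤ 64 * (L.map fun l => Nat.div (Nat.add l 63) 64).getD m 0 := by
      rcases lt_or_ge m L.length with hm | hm
      · simp [List.getD_eq_getElem?_getD, hm]
        show L[m] ≤ 64 * ((L[m] + 63) / 64)
        omega
      · simp [List.getD_eq_getElem?_getD, hm]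
    exact_mod_cast this
  have h7 : ∀ k ∈ Finset.range gl.length,
      ((a k + qn * (H.U * bv k + cv k) : ℕ) : ℝ) * |gs.getD k 0| =
      ((((List.range gl.length).map fun k => a k + qn * (H.U * bv k + cv k)).getD k 0 : ℕ) : ℝ) *
        |gs.getD k 0| :=
    fun k hk => by simp [List.getD_eq_getElem?_getD, Finset.mem_range.1 hk]
  rw [Finset.sum_congr rfl h7, ← hdig] at hQ
  have h8 := hL.trans (Finset.sum_le_sum fun m _ =>
    mul_le_mul_of_nonneg_right (hel m) (sq_nonneg (z m)))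
  simp only [mul_assoc, ← Finset.mul_sum] at h8
  simp only [mul_assoc] at hQ ⊢
  linarith

/-! ### Recombination -/

/-- **A child whose buckets are checked is good.** -/
theorem goodK_of_child (an : ℤ) (den : ℕ) (hden : 0 < den) (L L2 : List ITerm) (KL : List KI)
    (gl : List Mon) (C : ℕ) (P : ℕ → ℕ) (R0 R5 R6 : Rows)
    (hrows : rowsChk an den L L2 KL gl C P R0 R5 R6) (W D n B nT : ℕ) (hW : 0 < W)
    (hparts : partsOK gl.length (partsOf P R0 R5 R6) = true) (hlen : gl.length ≤ B * n)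
    (hsl : ∀ b, b < B → sliceOK W D (b * n) n (partsOf P R0 R5 R6) = true)
    (k : ℕ → List ℤ → List ℕ → Bool) (gap : ℕ → ℕ) (hk : CtrlSoundS W gl n B gap k) (G : ℕ)
    (hG : ∀ c, 31 ≤ c → c < 37 → G ≤ gap c) (δ : ℝ) (p x : Box) (H : HData) (hU : 0 < H.U)
    (c : Rel) (hq : 0 < c.q)
    (hδ : δ * (2 * 1728 * ((H.U : ℝ) * 4096 ^ D * 2 ^ D * (c.q : ℝ) ^ (nT - 1) * (40000 * den))) ≤ G)
    (hB : ∀ b, b < B → boxC W D nT gl (b * n) n (partsOf P R0 R5 R6) p H c x (k b) = true) :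
    x.GoodK ((an : ℝ) / 100) (L.map (ITerm.term den)) (L2.map (ITerm.term den))
      (KL.map (KI.term den)) δ := by
  obtain ⟨rs, hrs⟩ : ∃ rs, rs = partsOf P R0 R5 R6 := ⟨_, rfl⟩
  rw [← hrs] at hparts hsl hB
  have hgl : ∀ o, ∀ G ∈ sliceL gl o n, G.a < 38 ∧ G.b < 38 := fun o M hM => by
    have := List.all_eq_true.1 (slotF_all hrows.1).1 M (List.mem_of_mem_drop (List.mem_of_mem_take hM))
    simp only [slotOK, Bool.and_eq_true, Nat.blt_eq] at this
    exact ⟨this.1.1, this.1.2⟩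
  have hT : ∀ b, b < B → _ := fun b hb => by
    have h := hsl b hb
    simp only [sliceOK, Bool.and_eq_true, Nat.ble_eq] at h
    exact targetC W 38 D nT _ _ p H c x (k b) hW h.1.2 h.2 (hgl (b * n)) (hB b hb)
  intro s t u hs ht hu v τ y a hy hA ha
  obtain ⟨P0, hp⟩ : ∃ P0, P0 = x.pt s t u := ⟨_, rfl⟩
  rw [← hp] at hA ⊢
  obtain ⟨X, hX⟩ : ∃ X, X = QvalK ((an : ℝ) / 100) (L.map (ITerm.term den))
      (L2.map (ITerm.term den)) (KL.map (KI.term den)) (chartH P0.1 P0.2.1 P0.2.2) v τ y a 1 :=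
    ⟨_, rfl⟩
  rw [← hX]
  obtain ⟨h, hh⟩ : ∃ h, h = hgt P0.1 P0.2.1 P0.2.2 := ⟨_, rfl⟩
  have hrad : 0 ≤ 1 - 2 * P0.1 ^ 2 - 2 * P0.2.1 ^ 2 - 20 * P0.2.2 ^ 2 := by
    by_contra hn
    have h0 : h = 0 := hh ▸ Real.sqrt_eq_zero_of_nonpos (not_le.1 hn).le
    have hsq := hA.l_sq
    rw [Fin.sum_univ_six] at hsq
    simp [chartH, ← hh, h0] at hsq
    nlinarith
  have hl : lT (chartH P0.1 P0.2.1 P0.2.2) = lsG (h / 2) P0.1 P0.2.1 P0.2.2 := by
    funext i
    rcases lt_or_ge i 6 with hi | hi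
    · interval_cases i <;> simp [lT, lsG, vvar, chartH, hh, Fin.sum_univ_six]
    · simp [lT, lsG, vvar, List.getD_eq_getElem?_getD, hi, show i ≠ 5 by omega]
  have hz : 0 ≤ a * (1 : ℝ) := by linarith
  have hD := domK (b := 1) y hA hz
  have hv := rows_value an den hden L L2 KL gl C P R0 R5 R6 hrows _ v τ a 1 y hy hA
  rw [← hX, hl, ← hrs] at hv
  obtain ⟨z, hzd⟩ : ∃ z, z = zvarK τ a 1 y := ⟨_, rfl⟩
  rw [← hzd] at hD hv
  obtain ⟨gs, hgs⟩ : ∃ gs, gs = gl.map fun G => G.ev z (vvar v) := ⟨_, rfl⟩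
  rw [← hgs] at hv
  have hn' : gs.length = gl.length := by simp [hgs]
  obtain ⟨SC, hSC⟩ : ∃ SC, SC = (H.U : ℝ) * 4096 ^ D * 2 ^ D * (c.q : ℝ) ^ (nT - 1) := ⟨_, rfl⟩
  obtain ⟨Pf, hPf⟩ : ∃ Pf : ℕ → ℕ → ℝ, Pf = fun b q =>
      gsumZ z (vvar v) (sliceL gl (b * n) n) (decode W (sliceL gl (b * n) n).length
        ((boxVC D nT (partsPS W D (b * n) n rs) p H c).getD q 0)) := ⟨_, rfl⟩
  obtain ⟨el, hel⟩ : ∃ el : ℕ → List ℕ, el = fun b =>
      boxElC W 38 D nT (sliceL gl (b * n) n) (partsPS W D (b * n) n rs) p H c := ⟨_, rfl⟩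
  have h1 : ∀ b ∈ Finset.range B, 2 * |SC * partsVal (maskS gs (b * n) n)
      (lsG (h / 2) P0.1 P0.2.1 P0.2.2) rs - polyR (Pf b) s t u| ≤
      ∑ c ∈ Finset.range 38, ((el b).getD c 0 : ℝ) * z c ^ 2 := by
    intro b hb
    rw [Finset.mem_range] at hb
    have h' := hsl b hb
    simp only [sliceOK, Bool.and_eq_true, Nat.ble_eq] at h'
    have hmk5 := mkP_relS W (b * n) n gs rs (by rw [hn']; exact hparts)
    have hmk := sub6_rel (prel W _) hmk5
    obtain ⟨hE, hO⟩ := red_rel (prel W _) hmk D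
    rw [← partsPS] at hE hO
    have V := rOps_val
    have hh2 : (hgt P0.1 P0.2.1 P0.2.2) ^ 2 =
        1 - 2 * P0.1 ^ 2 - 2 * P0.2.1 ^ 2 - 20 * P0.2.2 ^ 2 := hgt_sq hrad
    have e1 := ev_red V P0.1 P0.2.1 P0.2.2 _ hh2
      (sub6 rOps (mkP rOps (leafR (maskS gs (b * n) n)) rs)) D
      (by rw [← hmk.length_eq]; exact h'.1.1)
    rw [← hh, ev4_sub6 V, ev6_mkP _ _ rs (fun q hq => by
      simp only [partsOK, List.all_eq_true, Bool.and_eq_true, Nat.blt_eq] at hparts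
      exact (hparts q hq).1.1)] at e1
    have hgsb : (sliceL gl (b * n) n).map (fun G => G.ev z (vvar v)) =
        (gs.drop (b * n)).take n := by
      simp [sliceL, hgs, List.map_take, List.map_drop]
    rw [← hgsb] at hE hO
    rw [hp] at e1
    rw [hSC, hPf, hel, hp]
    exact (hT b hb).2 s t u hs ht hu z (vvar v) h _ (hh ▸ Real.sqrt_nonneg _)
      (by rw [hh, ← hp]; exact hh2) hD.ball _ _ hE hO e1
  obtain ⟨E, hE⟩ : ∃ E, E = ∑ c ∈ Finset.range 38,
      ((∑ b ∈ Finset.range B, (el b).getD c 0 : ℕ) : ℝ) * z c ^ 2 := ⟨_, rfl⟩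
  obtain ⟨Q, hQd⟩ : ∃ Q : ℕ → ℝ, Q = fun q => ∑ b ∈ Finset.range B, Pf b q := ⟨_, rfl⟩
  have h2 : 2 * (polyR Q s t u - SC * (40000 * den * X)) ≤ E := by
    have hv' : ∑ b ∈ Finset.range B, partsVal (maskS gs (b * n) n)
        (lsG (h / 2) P0.1 P0.2.1 P0.2.2) rs = 40000 * den * X := by
      rw [partsVal_slices gs n B (by omega)]
      exact hv
    rw [← hv', hQd, polyR_sum, Finset.mul_sum, ← Finset.sum_sub_distrib, Finset.mul_sum, hE]
    simp only [Nat.cast_sum, Finset.sum_mul]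
    rw [Finset.sum_comm]
    exact Finset.sum_le_sum fun b hb =>
      le_trans (mul_le_mul_of_nonneg_left ((le_abs_self _).trans_eq (abs_sub_comm _ _)) two_pos.le)
        (h1 b hb)
  have hc := hk (fun b => boxVC D nT (partsPS W D (b * n) n rs) p H c) el
    (fun b hb => by rw [hel]; exact (hT b hb).1) z (vvar v) hD
  have hgap := gap_le gap G hG τ a y hy
  rw [← hzd] at hgap
  have hg : 1728 * E + (G : ℝ) * (1 + ∑ k, y k ^ 2) ≤ 2 * (1728 * polyR Q s t u) := by
    have hb : ∀ i < 5, ∀ j < 5, ∀ m < 5,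
        1728 * E + (G : ℝ) * (1 + ∑ k, y k ^ 2) ≤ 2 * ctrlR Q i j m := fun i hi j hj m hm => by
      rw [hQd, hPf]
      refine le_trans ?_ (hc i hi j hj m hm)
      rw [hE, Finset.mul_sum]
      refine le_trans (add_le_add le_rfl hgap) (le_of_eq ?_)
      rw [← Finset.sum_add_distrib]
      refine Finset.sum_congr rfl fun c _ => ?_
      push_cast
      ring
    rw [polyR_eq]
    simp only [Finset.mul_sum]
    calc 1728 * E + (G : ℝ) * (1 + ∑ k, y k ^ 2)
        = ∑ i ∈ Finset.range 5, ∑ j ∈ Finset.range 5, ∑ m ∈ Finset.range 5,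
            bW s t u i j m * (1728 * E + (G : ℝ) * (1 + ∑ k, y k ^ 2)) := by
          simp only [← Finset.sum_mul, bW_sum, one_mul]
      _ ≤ _ := Finset.sum_le_sum fun i hi => Finset.sum_le_sum fun j hj =>
        Finset.sum_le_sum fun m hm => by
          refine (mul_le_mul_of_nonneg_left (hb i (Finset.mem_range.1 hi) j (Finset.mem_range.1 hj) m
            (Finset.mem_range.1 hm)) (bW_nonneg hs ht hu i j m)).trans_eq ?_
          ring
  rw [← hSC] at hδ
  by_contra hcon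
  have h3 := mul_lt_mul_of_pos_right (not_le.1 hcon)
    (show 0 < 2 * 1728 * (SC * (40000 * den)) by rw [hSC]; positivity)
  have h4 := mul_le_mul_of_nonneg_right hδ (show (0 : ℝ) ≤ 1 + ∑ k, y k ^ 2 by positivity)
  nlinarith

/-- **A child whose kernel checks succeed is good.** -/
theorem goodK_of_checkC (an : ℤ) (den : ℕ) (hden : 0 < den) (L L2 : List ITerm) (KL : List KI)
    (T : DTbl) (hT : T.Ok) (hN : T.Y.N = 38) (C : ℕ) (P : ℕ → ℕ) (R0 R5 R6 : Rows)
    (hrows : rowsChk an den L L2 KL T.Y.gl C P R0 R5 R6) (D n B W0 b0 nT : ℕ) (hW : 0 < T.Y.W)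
    (hparts : partsOK T.Y.gl.length (partsOf P R0 R5 R6) = true) (hlen : T.Y.n ≤ B * n)
    (hsl : ∀ b, b < B → sliceOK T.Y.W D (b * n) n (partsOf P R0 R5 R6) = true)
    (hlit : T.Y.litOK W0 b0 = true) (G : ℕ)
    (hG : ((List.range 6).all fun n => Nat.ble G (T.Y.gapAt (31 + n))) = true) (δ : ℝ) (p x : Box)
    (H : HData) (hU : 0 < H.U) (c : Rel) (hq : 0 < c.q) (facs : List (List ℕ × ℤ))
    (hfac : ∀ p ∈ facs, T.Y.facOK W0 b0 p.1 p.2 = true) (plan : List (List ℕ)) (sh DD EE : ℕ)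
    (els : List (List ℕ)) (hels : els.length = B) (hpay : T.payOK sh DD EE (elTot els) = true)
    (hδ : δ * (2 * 1728 * ((H.U : ℝ) * 4096 ^ D * 2 ^ D * (c.q : ℝ) ^ (nT - 1) * (40000 * den))) ≤ G)
    (hB : ∀ b, b < B → boxC T.Y.W D nT T.Y.gl (b * n) n (partsOf P R0 R5 R6) p H c x
      (T.checkS n W0 (facs.map Prod.snd) plan sh DD EE els b) = true) :
    x.GoodK ((an : ℝ) / 100) (L.map (ITerm.term den)) (L2.map (ITerm.term den))
      (KL.map (KI.term den)) δ := by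
  have hgl : T.Y.gl.length = T.Y.n := by
    have h := hT.base.lists
    simp only [Tbl.listsOK, Bool.and_eq_true, decide_eq_true_eq] at h
    exact h.1.1.1
  refine goodK_of_child an den hden L L2 KL T.Y.gl C P R0 R5 R6 hrows T.Y.W D n B nT hW hparts
    (hgl.trans_le hlen) hsl _ T.Y.gapAt
    (T.ctrlSoundS hT hN n B W0 b0 hlen hlit facs hfac plan sh DD EE els hels hpay) G
    (fun c h1 h2 => ?_) δ p x H hU c hq hδ hB
  simp only [List.all_eq_true, List.mem_range, Nat.ble_eq] at hG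
  have := hG (c - 31) (by omega)
  rwa [Nat.add_sub_cancel' h1] at this

end Vale.Agent.P098.Exact.Sos6
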