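import Vale.Agent.P098.Exact.Sos6.Abs

/-!
Elimination of the dependent chart coordinate, homogenisation and expansion at a box, and the
split into kept and dropped coefficients, all generic in the coefficient module.
-/

namespace Vale.Agent.P098.Exact.Sos6

/-- Integer operations. -/
def zOps : VOps ℤ := ⟨0, Int.add, Int.mul⟩

theorem zOps_val : VVal zOps (fun z : ℤ => (z : ℝ)) :=
  ⟨Int.cast_zero, fun x y => Int.cast_add x y, fun c x => Int.cast_mul c x⟩

/-- The square of the dependent coordinate. -/
def R4 : List (List (List ℤ)) := [[[1, 0, -20], [], [-2]], [], [[-2]]]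

theorem ev3_R4 (s t u : ℝ) :
    ev3 (fun z : ℤ => (z : ℝ)) s t u R4 = 1 - 2 * s ^ 2 - 2 * t ^ 2 - 20 * u ^ 2 := by
  simp [R4, ev3, evP]
  ring

variable {M : Type}

/-- Even and odd parts after `g = h/2`, `h² = R`, scaled by `2 ^ e`. -/
noncomputable def red (o : VOps M) (L : List (List (List (List M)))) :
    ℕ → List (List (List M)) × List (List (List M)) :=
  List.rec (motive := fun _ => ℕ → List (List (List M)) × List (List (List M)))
    (fun _ => ([], []))
    (fun d _ ih e => Prod.rec (motive := fun _ => List (List (List M)) × List (List (List M)))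
      (fun E O => (o.poly3.add (o.poly3.smul (Int.ofNat (Nat.pow 2 e)) d) (mul3 o R4 O), E))
      (ih (Nat.sub e 1))) L

theorem red_cons (o : VOps M) (d : List (List (List M))) (L : List (List (List (List M)))) (e : ℕ) :
    red o (d :: L) e = (o.poly3.add (o.poly3.smul (2 ^ e : ℕ) d) (mul3 o R4 (red o L (e - 1)).2),
      (red o L (e - 1)).1) := rfl

theorem ev_red {o : VOps M} {φ : M → ℝ} (H : VVal o φ) (s t u h : ℝ)
    (hh : h ^ 2 = 1 - 2 * s ^ 2 - 2 * t ^ 2 - 20 * u ^ 2) :
    ∀ (L : List (List (List (List M)))) (e : ℕ), L.length ≤ e + 1 →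
      2 ^ e * ev4 φ (h / 2) s t u L =
        ev3 φ s t u (red o L e).1 + h * ev3 φ s t u (red o L e).2
  | [], e, _ => by simp [red, ev4, ev3, evP]
  | d :: L, e, hl => by
    rw [red_cons]
    simp only [ev3_add H, ev3_smul H, ev3_mul3 H, ev3_R4, ev4, evP]
    cases e with
    | zero =>
      obtain rfl : L = [] := List.length_eq_zero_iff.1 (by simp at hl ⊢; omega)
      simp [red, ev3, evP]
    | succ e =>
      have ih := ev_red H s t u h hh L e (by simp at hl ⊢; omega)
      rw [ev4] at ih
      simp only [Nat.add_sub_cancel, pow_succ] at ih ⊢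
      push_cast
      linear_combination h * ih + ev3 φ s t u (red o L e).2 * hh

theorem red_rel {N : Type} {o : VOps M} {p : VOps N} {R : M → N → Prop} (H : VRel o p R) :
    ∀ {L : List (List (List (List M)))} {L' : List (List (List (List N)))},
      List.Forall₂ (Rel3 R) L L' → ∀ e,
        Rel3 R (red o L e).1 (red p L' e).1 ∧ Rel3 R (red o L e).2 (red p L' e).2 := by
  intro L L' h
  induction h with
  | nil => intro e; exact ⟨.nil, .nil⟩
  | cons hx _ ih =>
    intro e
    rw [red_cons, red_cons]
    exact ⟨add3_rel H (smul3_rel H _ hx) (mul3_rel H R4 (ih (e - 1)).2), (ih (e - 1)).1⟩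

/-! ### The eigenvalues in the chart variables -/

/-- The eigenvalue `i` as a linear form in `(g, A, B, C)`. -/
def lin : ℕ → List (List (List (List ℤ)))
  | 0 => [[[[0, 1]], [[1]]], [[[1]]]]
  | 1 => [[[[0, 1]], [[-1]]], [[[1]]]]
  | 2 => [[[[0, -4]]]]
  | 3 => [[[[0, 1], [1]]], [[[-1]]]]
  | _ => [[[[0, 1], [-1]]], [[[-1]]]]

theorem ev4_lin (g s t u : ℝ) :
    (ev4 (fun z : ℤ => (z : ℝ)) g s t u (lin 0) = g + s + u) ∧
    (ev4 (fun z : ℤ => (z : ℝ)) g s t u (lin 1) = g - s + u) ∧
    (ev4 (fun z : ℤ => (z : ℝ)) g s t u (lin 2) = -(4 * u)) ∧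
    (ev4 (fun z : ℤ => (z : ℝ)) g s t u (lin 3) = -g + u + t) ∧
    (ev4 (fun z : ℤ => (z : ℝ)) g s t u (lin 4) = -g + u - t) := by
  simp [lin, ev4, ev3, evP]
  constructor <;> (try constructor) <;> (try constructor) <;> (try constructor) <;> ring

/-- Product with an integer polynomial in four variables. -/
noncomputable def mul4 (o : VOps M) (q : List (List (List (List ℤ))))
    (L : List (List (List (List M)))) : List (List (List (List M))) :=
  mul1 o.poly3 (mul3 o) q L

theorem ev4_mul4 {o : VOps M} {φ : M → ℝ} (H : VVal o φ) (g s t u : ℝ)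
    (q : List (List (List (List ℤ)))) (L : List (List (List (List M)))) :
    ev4 φ g s t u (mul4 o q L) = ev4 (fun z : ℤ => (z : ℝ)) g s t u q * ev4 φ g s t u L :=
  evP_mul1 (o := o.poly3) (poly_val (poly_val (poly_val H u) t) s) g
    (fun q3 K => ev3_mul3 H s t u q3 K) q L

theorem mul4_rel {N : Type} {o : VOps M} {p : VOps N} {R : M → N → Prop} (H : VRel o p R)
    (q : List (List (List (List ℤ)))) {L : List (List (List (List M)))}
    {L' : List (List (List (List N)))} (h : List.Forall₂ (Rel3 R) L L') :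
    List.Forall₂ (Rel3 R) (mul4 o q L) (mul4 p q L') :=
  mul1_rel (poly_rel (poly_rel (poly_rel H))) (fun q3 _ _ h3 => mul3_rel H q3 h3) q h

/-- Substitute a form for one variable by Horner's rule. -/
noncomputable def horner {X : Type} (o : VOps M) (q : List (List (List (List ℤ))))
    (inner : X → List (List (List (List M)))) (L : List X) : List (List (List (List M))) :=
  List.rec (motive := fun _ => List (List (List (List M)))) []
    (fun x _ ih => o.poly4.add (inner x) (mul4 o q ih)) L

theorem ev4_horner {X : Type} {o : VOps M} {φ : M → ℝ} (H : VVal o φ) (g s t u : ℝ)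
    (q : List (List (List (List ℤ)))) (inner : X → List (List (List (List M)))) (ψ : X → ℝ)
    (hψ : ∀ x, ev4 φ g s t u (inner x) = ψ x) : ∀ L : List X,
      ev4 φ g s t u (horner o q inner L) =
        evP ψ (ev4 (fun z : ℤ => (z : ℝ)) g s t u q) L
  | [] => rfl
  | x :: L => by
    have H4 := (poly_val (poly_val (poly_val (poly_val H u) t) s) g).add (inner x)
      (mul4 o q (horner o q inner L))
    refine H4.trans ?_
    show ev4 φ g s t u (inner x) + ev4 φ g s t u _ = _
    rw [hψ, ev4_mul4 H, ev4_horner H g s t u q inner ψ hψ L]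
    rfl

theorem horner_rel {X Y N : Type} {o : VOps M} {p : VOps N} {R : M → N → Prop} (H : VRel o p R)
    {S : X → Y → Prop} (q : List (List (List (List ℤ)))) {f : X → List (List (List (List M)))}
    {f' : Y → List (List (List (List N)))}
    (hf : ∀ {x y}, S x y → List.Forall₂ (Rel3 R) (f x) (f' y)) {L : List X} {L' : List Y}
    (hL : List.Forall₂ S L L') : List.Forall₂ (Rel3 R) (horner o q f L) (horner p q f' L') := by
  induction hL with
  | nil => exact .nil
  | cons hx _ ih => exact (poly_rel (poly_rel (poly_rel (poly_rel H)))).add (hf hx) (mul4_rel H q ih)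

/-- A polynomial in the eigenvalues in the chart variables. -/
noncomputable def sub5 (o : VOps M) (L : List (List (List (List (List M))))) :
    List (List (List (List M))) :=
  horner o (lin 0) (horner o (lin 1) (horner o (lin 2) (horner o (lin 3)
    (horner o (lin 4) fun c => [[[[c]]]])))) L

theorem sub5_rel {N : Type} {o : VOps M} {p : VOps N} {R : M → N → Prop} (H : VRel o p R)
    {L : List (List (List (List (List M))))} {L' : List (List (List (List (List N))))}
    (h : List.Forall₂ (List.Forall₂ (Rel3 R)) L L') :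
    List.Forall₂ (Rel3 R) (sub5 o L) (sub5 p L') :=
  horner_rel H _ (fun h1 => horner_rel H _ (fun h2 => horner_rel H _ (fun h3 => horner_rel H _
    (fun h4 => horner_rel H _ (fun hc => .cons (.cons (.cons (.cons hc .nil) .nil) .nil) .nil) h4)
    h3) h2) h1) h

theorem ev4_sub5 {o : VOps M} {φ : M → ℝ} (H : VVal o φ) (g s t u : ℝ)
    (L : List (List (List (List (List M))))) :
    ev4 φ g s t u (sub5 o L) =
      ev5 φ (fun i => [g + s + u, g - s + u, -(4 * u), -g + u + t, -g + u - t].getD i 0) L := by
  obtain ⟨e0, e1, e2, e3, e4⟩ := ev4_lin g s t u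
  rw [sub5, ev4_horner H g s t u (lin 0) _
    (evP (evP (evP (evP φ (-g + u - t)) (-g + u + t)) (-(4 * u))) (g - s + u)), e0]
  · rfl
  intro x1
  rw [ev4_horner H g s t u (lin 1) _ (evP (evP (evP φ (-g + u - t)) (-g + u + t)) (-(4 * u))), e1]
  intro x2
  rw [ev4_horner H g s t u (lin 2) _ (evP (evP φ (-g + u - t)) (-g + u + t)), e2]
  intro x3
  rw [ev4_horner H g s t u (lin 3) _ (evP φ (-g + u - t)), e3]
  intro x4
  rw [ev4_horner H g s t u (lin 4) _ φ, e4]
  intro c
  simp [ev4, ev3, evP]

/-- The sum of the cubes of the eigenvalues in `(g, A, B, C)`. -/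
noncomputable def cubes : List (List (List (List ℤ))) :=
  balSum zOps.poly4 3 ([0, 1, 2, 3, 4].map fun i => mul4 zOps (lin i) (mul4 zOps (lin i) (lin i)))

/-- The eigenvalues and their cubic sum at chart values. -/
noncomputable def lsG (g s t u : ℝ) (i : ℕ) : ℝ :=
  [g + s + u, g - s + u, -(4 * u), -g + u + t, -g + u - t,
    (g + s + u) ^ 3 + (g - s + u) ^ 3 + (-(4 * u)) ^ 3 + (-g + u + t) ^ 3 + (-g + u - t) ^ 3].getD i 0

theorem ev4_cubes (g s t u : ℝ) :
    ev4 (fun z : ℤ => (z : ℝ)) g s t u cubes = lsG g s t u 5 := by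
  have H := poly_val (poly_val (poly_val (poly_val zOps_val u) t) s) g
  obtain ⟨e0, e1, e2, e3, e4⟩ := ev4_lin g s t u
  refine (balSum_val (o := zOps.poly4) H 3 _).trans ?_
  have hm : ∀ i, evP (evP (evP (evP (fun z : ℤ => (z : ℝ)) u) t) s) g
      (mul4 zOps (lin i) (mul4 zOps (lin i) (lin i))) =
      ev4 (fun z : ℤ => (z : ℝ)) g s t u (lin i) ^ 3 := fun i => by
    show ev4 (fun z : ℤ => (z : ℝ)) g s t u _ = _
    rw [ev4_mul4 zOps_val, ev4_mul4 zOps_val]
    ring
  simp only [List.map_cons, List.map_nil, List.sum_cons, List.sum_nil, hm, e0, e1, e2, e3, e4,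
    lsG, List.getD_cons_succ, List.getD_cons_zero]
  ring

/-- A polynomial in the cubic sum and the eigenvalues in the chart variables. -/
noncomputable def sub6 (o : VOps M) (L : List (List (List (List (List (List M)))))) :
    List (List (List (List M))) :=
  horner o cubes (sub5 o) L

theorem sub6_rel {N : Type} {o : VOps M} {p : VOps N} {R : M → N → Prop} (H : VRel o p R)
    {L : List (List (List (List (List (List M)))))}
    {L' : List (List (List (List (List (List N)))))}
    (h : List.Forall₂ (List.Forall₂ (List.Forall₂ (Rel3 R))) L L') :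
    List.Forall₂ (Rel3 R) (sub6 o L) (sub6 p L') :=
  horner_rel H _ (fun h1 => sub5_rel H h1) h

theorem ev4_sub6 {o : VOps M} {φ : M → ℝ} (H : VVal o φ) (g s t u : ℝ)
    (L : List (List (List (List (List (List M)))))) :
    ev4 φ g s t u (sub6 o L) = ev6 φ (lsG g s t u) L := by
  rw [sub6, ev4_horner H g s t u cubes _ (ev5 φ (lsG g s t u)), ev4_cubes]
  · rfl
  intro X
  rw [ev4_sub5 H]
  simp [ev5, lsG]

/-! ### Homogenisation -/

/-- Scale coefficients by falling degree. -/
noncomputable def homL {X : Type} (sm : ℕ → X → X) (L : List X) : ℕ → List X :=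
  List.rec (motive := fun _ => ℕ → List X) (fun _ => [])
    (fun x _ ih D => sm D x :: ih (Nat.sub D 1)) L

/-- The degree suffices. -/
noncomputable def okL {X : Type} (okx : ℕ → X → Bool) (L : List X) : ℕ → Bool :=
  List.rec (motive := fun _ => ℕ → Bool) (fun _ => true)
    (fun x L' ih D => okx D x && (List.isEmpty L' || Nat.blt 0 D) && ih (Nat.sub D 1)) L

/-- Homogenised to the units of boxes. -/
noncomputable def hom3 (o : VOps M) (D : ℕ) (L : List (List (List M))) : List (List (List M)) :=
  homL (fun D1 K => homL (fun D2 J => homL (fun D3 c => o.smul (Int.ofNat (Nat.pow 4096 D3)) c)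
    J D2) K D1) L D

/-- The total degree suffices. -/
noncomputable def ok3 (D : ℕ) (L : List (List (List M))) : Bool :=
  okL (fun D1 K => okL (fun D2 J => okL (fun _ _ => true) J D2) K D1) L D

theorem evP_homL {X : Type} (φ ψ : X → ℝ) (sm : ℕ → X → X) (okx : ℕ → X → Bool)
    (h : ∀ m x, okx m x = true → φ (sm m x) = 4096 ^ m * ψ x) (s : ℝ) :
    ∀ (L : List X) (D : ℕ), okL okx L D = true →
      evP φ s (homL sm L D) = 4096 ^ D * evP ψ (s / 4096) L
  | [], D, _ => by simp [homL, evP]
  | x :: L, D, hk => by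
    change (okx D x && (List.isEmpty L || Nat.blt 0 D) && okL okx L (D - 1)) = true at hk
    simp only [Bool.and_eq_true, Bool.or_eq_true, Nat.blt_eq] at hk
    rw [show homL sm (x :: L) D = sm D x :: homL sm L (D - 1) from rfl]
    simp only [evP, h D x hk.1.1, evP_homL φ ψ sm okx h s L (D - 1) hk.2]
    rcases hk.1.2 with he | he
    · cases L with
      | nil => simp [evP]
      | cons => simp at he
    · obtain ⟨D, rfl⟩ : ∃ m, D = m + 1 := ⟨D - 1, by omega⟩
      simp only [Nat.add_sub_cancel, pow_succ]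
      ring

theorem ev3_hom {o : VOps M} {φ : M → ℝ} (H : VVal o φ) (D : ℕ) (L : List (List (List M)))
    (hk : ok3 D L = true) (s t u : ℝ) :
    ev3 φ s t u (hom3 o D L) = 4096 ^ D * ev3 φ (s / 4096) (t / 4096) (u / 4096) L := by
  refine evP_homL _ _ _ _ (fun D1 K h1 => ?_) s L D hk
  refine evP_homL _ _ _ _ (fun D2 J h2 => ?_) t K D1 h1
  refine evP_homL _ _ _ _ (fun D3 c _ => ?_) u J D2 h2
  rw [H.smul]
  simp [Int.ofNat_eq_natCast]

theorem homL_rel {X Y : Type} {R : X → Y → Prop} {f : ℕ → X → X} {g : ℕ → Y → Y}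
    (h : ∀ m {x y}, R x y → R (f m x) (g m y)) {L : List X} {L' : List Y}
    (hL : List.Forall₂ R L L') : ∀ D, List.Forall₂ R (homL f L D) (homL g L' D) := by
  induction hL with
  | nil => intro D; exact .nil
  | cons hx _ ih => intro D; exact .cons (h D hx) (ih _)

theorem okL_rel {X Y : Type} {R : X → Y → Prop} {f : ℕ → X → Bool} {g : ℕ → Y → Bool}
    (h : ∀ m {x y}, R x y → f m x = g m y) {L : List X} {L' : List Y}
    (hL : List.Forall₂ R L L') : ∀ D, okL f L D = okL g L' D := by
  induction hL with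
  | nil => intro D; rfl
  | @cons a b l l' hx hl ih =>
    intro D
    show (f D a && (List.isEmpty l || _) && okL f l _) = (g D b && (List.isEmpty l' || _) && okL g l' _)
    rw [h D hx, ih]
    cases hl <;> rfl

theorem hom3_rel {N : Type} {o : VOps M} {p : VOps N} {R : M → N → Prop} (H : VRel o p R) (D : ℕ)
    {L : List (List (List M))} {L' : List (List (List N))} (h : Rel3 R L L') :
    Rel3 R (hom3 o D L) (hom3 p D L') :=
  homL_rel (R := List.Forall₂ (List.Forall₂ R)) (fun D1 _ _ h1 =>
    homL_rel (R := List.Forall₂ R) (fun D2 _ _ h2 =>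
      homL_rel (R := R) (fun D3 _ _ h3 => H.smul (Int.ofNat (Nat.pow 4096 D3)) h3) h2 D2) h1 D1) h D

theorem ok3_rel {N : Type} {R : M → N → Prop} (D : ℕ)
    {L : List (List (List M))} {L' : List (List (List N))} (h : Rel3 R L L') :
    ok3 D L = ok3 D L' :=
  okL_rel (R := List.Forall₂ (List.Forall₂ R)) (fun D1 _ _ h1 =>
    okL_rel (R := List.Forall₂ R) (fun D2 _ _ h2 => okL_rel (R := R) (fun _ _ _ _ => rfl) h2 D2)
      h1 D1) h D

/-- A polynomial in the chart coordinates, expanded at a box. -/
noncomputable def atBox (o : VOps M) (D : ℕ) (x : Box) (L : List (List (List M))) :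
    List (List (List M)) :=
  tay3 o x.A x.B x.C x.a x.b x.c (hom3 o D L)

theorem ev_atBox {o : VOps M} {φ : M → ℝ} (H : VVal o φ) (D : ℕ) (x : Box)
    (L : List (List (List M))) (hk : ok3 D L = true) (s t u : ℝ) :
    ev3 φ s t u (atBox o D x L) =
      4096 ^ D * ev3 φ (x.pt s t u).1 (x.pt s t u).2.1 (x.pt s t u).2.2 L := by
  rw [atBox, ev3_tay3 H, ev3_hom H D L hk]
  rfl

theorem atBox_rel {N : Type} {o : VOps M} {p : VOps N} {R : M → N → Prop} (H : VRel o p R)
    (D : ℕ) (x : Box) {L : List (List (List M))} {L' : List (List (List N))} (h : Rel3 R L L') :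
    Rel3 R (atBox o D x L) (atBox p D x L') :=
  tay3_rel H _ _ _ _ _ _ (hom3_rel H D h)

/-! ### Kept and dropped coefficients -/

/-- A coefficient. -/
def kept (z : M) (L : List (List (List M))) (i j k : ℕ) : M := ((L.getD i []).getD j []).getD k z

/-- The kept coefficients, order `25 i + 5 j + k`. -/
def keptL (z : M) (L : List (List (List M))) : List M :=
  (List.range 125).map fun m => kept z L (m / 25) (m / 5 % 5) (m % 5)

/-- The dropped coefficients. -/
def drop3 (L : List (List (List M))) : List M :=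
  (L.drop 5).flatten.flatten ++
    (L.take 5).flatMap fun K => (K.drop 5).flatten ++ (K.take 5).flatMap fun J => J.drop 5

theorem evP_abs {X : Type} (φ σ : X → ℝ) (hσ : ∀ x, |φ x| ≤ σ x) (s : ℝ) (hs : |s| ≤ 1) :
    ∀ L : List X, |evP φ s L| ≤ (L.map σ).sum
  | [] => by simp [evP]
  | x :: L => by
    simp only [evP, List.map_cons, List.sum_cons]
    refine (abs_add_le _ _).trans (add_le_add (hσ x) ?_)
    rw [abs_mul]
    exact (mul_le_of_le_one_left (abs_nonneg _) hs).trans (evP_abs φ σ hσ s hs L)

theorem evP_split {X : Type} (φ ψ ρ σ : X → ℝ) (z : X) (hz : ψ z = 0)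
    (h1 : ∀ x, |φ x - ψ x| ≤ ρ x) (h2 : ∀ x, |φ x| ≤ σ x) (s : ℝ) (hs : |s| ≤ 1) :
    ∀ (L : List X) (n : ℕ), |evP φ s L - ∑ i ∈ Finset.range n, s ^ i * ψ (L.getD i z)| ≤
      ((L.take n).map ρ).sum + ((L.drop n).map σ).sum
  | L, 0 => by simpa using evP_abs φ σ h2 s hs L
  | [], n + 1 => by simp [evP, hz]
  | x :: L, n + 1 => by
    simp only [evP, Finset.sum_range_succ', List.getD_cons_succ, List.getD_cons_zero, pow_zero,
      one_mul, List.take_succ_cons, List.drop_succ_cons, List.map_cons, List.sum_cons]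
    have e : φ x + s * evP φ s L -
        (∑ i ∈ Finset.range n, s ^ (i + 1) * ψ (L.getD i z) + ψ x) =
        (φ x - ψ x) + s * (evP φ s L - ∑ i ∈ Finset.range n, s ^ i * ψ (L.getD i z)) := by
      rw [mul_sub, Finset.mul_sum]
      simp only [pow_succ]
      rw [Finset.sum_congr rfl fun i _ => show s ^ i * s * ψ (L.getD i z) =
        s * (s ^ i * ψ (L.getD i z)) by ring]
      ring
    rw [e, add_assoc]
    refine (abs_add_le _ _).trans (add_le_add (h1 x) ?_)
    rw [abs_mul]
    exact (mul_le_of_le_one_left (abs_nonneg _) hs).trans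
      (evP_split φ ψ ρ σ z hz h1 h2 s hs L n)

theorem sum_map_flatten {X : Type} (f : X → ℝ) :
    ∀ L : List (List X), (L.flatten.map f).sum = (L.map fun K => (K.map f).sum).sum
  | [] => rfl
  | K :: L => by
    simp only [List.flatten_cons, List.map_append, List.sum_append, List.map_cons, List.sum_cons,
      sum_map_flatten f L]

theorem sum_map_flatMap {X Y : Type} (f : X → ℝ) (g : Y → List X) :
    ∀ L : List Y, ((L.flatMap g).map f).sum = (L.map fun K => ((g K).map f).sum).sum
  | [] => rfl
  | K :: L => by simp [sum_map_flatMap f g L]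

/-- Kept coefficients up to the dropped absolute values. -/
theorem ev3_kept (s t u : ℝ) (hs : |s| ≤ 1) (ht : |t| ≤ 1) (hu : |u| ≤ 1)
    (L : List (List (List ℝ))) :
    |ev3 id s t u L - ∑ i ∈ Finset.range 5, ∑ j ∈ Finset.range 5, ∑ k ∈ Finset.range 5,
        s ^ i * (t ^ j * (u ^ k * kept 0 L i j k))| ≤ ((drop3 L).map fun x => |x|).sum := by
  have a1 : ∀ J : List ℝ, |evP id u J - ∑ k ∈ Finset.range 5, u ^ k * J.getD k 0| ≤
      ((J.drop 5).map fun x => |x|).sum := fun J => by
    refine (evP_split id id (fun _ => 0) (fun x => |x|) 0 rfl (by simp) (fun x => le_rfl) u hu J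
      5).trans_eq ?_
    simp
  have b1 : ∀ J : List ℝ, |evP id u J| ≤ (J.map fun x => |x|).sum :=
    evP_abs id _ (fun x => le_rfl) u hu
  have a2 : ∀ K : List (List ℝ), |evP (evP id u) t K -
      ∑ j ∈ Finset.range 5, t ^ j * ∑ k ∈ Finset.range 5, u ^ k * (K.getD j []).getD k 0| ≤
      (((K.drop 5).flatten ++ (K.take 5).flatMap fun J => J.drop 5).map fun x => |x|).sum := fun K => by
    refine (evP_split (evP id u) (fun J => ∑ k ∈ Finset.range 5, u ^ k * J.getD k 0) _ _ []
      (by simp) a1 b1 t ht K 5).trans_eq ?_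
    rw [List.map_append, List.sum_append, sum_map_flatten, sum_map_flatMap, add_comm]
  have b2 : ∀ K : List (List ℝ), |evP (evP id u) t K| ≤
      (K.flatten.map fun x => |x|).sum := fun K =>
    (evP_abs _ _ b1 t ht K).trans_eq (sum_map_flatten _ K).symm
  have h := (evP_split (evP (evP id u) t) (fun K => ∑ j ∈ Finset.range 5,
    t ^ j * ∑ k ∈ Finset.range 5, u ^ k * (K.getD j []).getD k 0) _ _ [] (by simp) a2 b2 s hs L 5)
  simp only [Finset.mul_sum] at h
  refine (le_of_eq ?_).trans (h.trans_eq ?_)
  · rfl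
  · rw [drop3, List.map_append, List.sum_append, sum_map_flatten, sum_map_flatMap, add_comm]
    congr 1
    rw [sum_map_flatten]
    congr 1
    refine List.map_congr_left fun K _ => ?_
    rw [sum_map_flatten]

theorem getD_rel {X Y : Type} {R : X → Y → Prop} {z : X} {z' : Y} (hz : R z z') {L : List X}
    {L' : List Y} (h : List.Forall₂ R L L') : ∀ i, R (L.getD i z) (L'.getD i z') := by
  induction h with
  | nil => intro i; simpa using hz
  | cons hx _ ih => intro i; cases i with
    | zero => simpa using hx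
    | succ i => simpa using ih i

theorem kept_rel {N : Type} {R : M → N → Prop} {z : M} {z' : N} (hz : R z z')
    {L : List (List (List M))} {L' : List (List (List N))} (h : Rel3 R L L') (i j k : ℕ) :
    R (kept z L i j k) (kept z' L' i j k) :=
  getD_rel hz (getD_rel List.Forall₂.nil (getD_rel List.Forall₂.nil h i) j) k

theorem drop3_rel {N : Type} {R : M → N → Prop} {L : List (List (List M))}
    {L' : List (List (List N))} (h : Rel3 R L L') : List.Forall₂ R (drop3 L) (drop3 L') := by
  refine List.rel_append (List.rel_flatten (List.rel_flatten (List.forall₂_drop 5 h))) ?_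
  refine List.rel_flatMap (List.forall₂_take 5 h) fun K K' hK => ?_
  exact List.rel_append (List.rel_flatten (List.forall₂_drop 5 hK))
    (List.rel_flatMap (List.forall₂_take 5 hK) fun J J' hJ => List.forall₂_drop 5 hJ)

theorem keptL_rel {N : Type} {R : M → N → Prop} {z : M} {z' : N} (hz : R z z')
    {L : List (List (List M))} {L' : List (List (List N))} (h : Rel3 R L L') :
    List.Forall₂ R (keptL z L) (keptL z' L') := by
  rw [keptL, keptL, List.forall₂_map_left_iff, List.forall₂_map_right_iff, List.forall₂_same]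
  exact fun m _ => kept_rel hz h _ _ _

end Vale.Agent.P098.Exact.Sos6
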