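import Vale.Agent.P098.Exact.Sos6.Gen
import Vale.Agent.P098.Exact.Sos6.Layout

/-! The closed grouped form over the reals is the interior form. -/

noncomputable section

namespace Vale.Agent.P098.Exact.Sos6

theorem pw_real (x : ℝ) : ∀ k, pw realOps x k = x ^ k
  | 0 => by simp [pw, realOps]
  | 1 => by simp [pw]
  | k + 2 => by rw [pw, pw_real x (k + 1), pow_succ x (k + 1)]; rfl

theorem sum6_real (f : ℕ → ℝ) : sum6 realOps f = ∑ i : Fin 6, f i.val := by
  rw [Fin.sum_univ_six]
  show f 0 + f 1 + (f 2 + f 3) + (f 4 + f 5) = f 0 + f 1 + f 2 + f 3 + f 4 + f 5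
  ring

theorem sumL_real : ∀ l : List ℝ, sumL realOps l = l.sum
  | [] => by simp [sumL, realOps]
  | [a] => by simp [sumL]
  | a :: b :: l => by rw [sumL, sumL_real (b :: l), List.sum_cons]; rfl

theorem rmul (a b : ℝ) : realOps.mul a b = a * b := rfl
theorem radd (a b : ℝ) : realOps.add a b = a + b := rfl
theorem rcst (z : ℤ) : realOps.cst z = (z : ℝ) := rfl

/-- The point of given variables. -/
def ptOf (l v : Fin 6 → ℝ) (τ : Fin 6 → Fin 6 → Fin 6 → ℝ) (a b : ℝ) : Point ℝ :=
  ⟨zvar τ a b, vvar v, vvar l, ∑ i : Fin 6, l i ^ 3⟩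

variable {l v : Fin 6 → ℝ} {τ : Fin 6 → Fin 6 → Fin 6 → ℝ} {a b : ℝ}

theorem vvar_val (w : Fin 6 → ℝ) (i : Fin 6) : vvar w i.val = w i := by fin_cases i <;> rfl

theorem tauS_real (hA : Admissible (n := 5) l v τ) (i j k : Fin 6) (hij : i ≤ j) (hjk : j ≤ k) :
    tauS realOps (zvar τ a b) i.val j.val k.val = τ i j k := by
  have r := hA.tau_right
  have f := hA.tau_left
  have z1 : ∀ p q, τ 5 p q = 0 := hA.tau_last
  have z2 : ∀ p q, τ p 5 q = 0 := fun p q => by rw [f, z1]
  have z3 : ∀ p q, τ p q 5 = 0 := fun p q => by rw [r, z2]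
  have tr : ∀ p : Fin 6, τ p p p = -∑ q ∈ (Finset.univ.erase p), τ p q q := fun p => by
    have := hA.tau_trace p
    rw [← Finset.add_sum_erase _ _ (Finset.mem_univ p)] at this
    linarith
  have two : ∀ p q : Fin 6, τ p p q = τ q p p := fun p q => by rw [r, f]
  fin_cases i <;> fin_cases j <;>
    first
      | exact absurd hij (by decide)
      | (fin_cases k <;>
          first
            | exact absurd hjk (by decide)
            | (simp [tauS, idx2, idx3, zvar, sumL_real, rmul, rcst, z1, z2, z3, two,
                List.range, List.range.loop]; done)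
            | (simp [tauS, idx2, idx3, zvar]; exact (two _ _).symm)
            | (simp [tauS, idx2, idx3, zvar, sumL_real, rmul, rcst, List.range, List.range.loop];
               rw [tr]; simp [Finset.sum_erase_eq_sub, Fin.sum_univ_six, z1, z2, z3]; ring))

theorem tauG_real (hA : Admissible (n := 5) l v τ) (i j k : Fin 6) :
    tauG realOps (zvar τ a b) i.val j.val k.val = τ i j k := by
  have r := hA.tau_right
  have f := hA.tau_left
  have key : ∀ p q s : Fin 6, p ≤ q → q ≤ s →
      tauS realOps (zvar τ a b) p.val q.val s.val = τ p q s := fun p q s h1 h2 => tauS_real hA p q s h1 h2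
  unfold tauG
  rcases le_total i j with hij | hij <;> rcases le_total j k with hjk | hjk <;>
    rcases le_total i k with hik | hik
  all_goals
    simp only [Fin.le_def] at hij hjk hik
    first
      | (rw [show min i.val (min j.val k.val) = i.val by omega,
          show max (min i.val j.val) (min (max i.val j.val) k.val) = j.val by omega,
          show max i.val (max j.val k.val) = k.val by omega]
         exact key i j k (Fin.le_def.2 (by omega)) (Fin.le_def.2 (by omega)))
      | (rw [show min i.val (min j.val k.val) = i.val by omega,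
          show max (min i.val j.val) (min (max i.val j.val) k.val) = k.val by omega,
          show max i.val (max j.val k.val) = j.val by omega]
         rw [key i k j (Fin.le_def.2 (by omega)) (Fin.le_def.2 (by omega)), r])
      | (rw [show min i.val (min j.val k.val) = j.val by omega,
          show max (min i.val j.val) (min (max i.val j.val) k.val) = i.val by omega,
          show max i.val (max j.val k.val) = k.val by omega]
         rw [key j i k (Fin.le_def.2 (by omega)) (Fin.le_def.2 (by omega)), f])
      | (rw [show min i.val (min j.val k.val) = j.val by omega,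
          show max (min i.val j.val) (min (max i.val j.val) k.val) = k.val by omega,
          show max i.val (max j.val k.val) = i.val by omega]
         rw [key j k i (Fin.le_def.2 (by omega)) (Fin.le_def.2 (by omega)), r j k i, f])
      | (rw [show min i.val (min j.val k.val) = k.val by omega,
          show max (min i.val j.val) (min (max i.val j.val) k.val) = i.val by omega,
          show max i.val (max j.val k.val) = j.val by omega]
         rw [key k i j (Fin.le_def.2 (by omega)) (Fin.le_def.2 (by omega)), f k i j, r i k j])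
      | (rw [show min i.val (min j.val k.val) = k.val by omega,
          show max (min i.val j.val) (min (max i.val j.val) k.val) = j.val by omega,
          show max i.val (max j.val k.val) = i.val by omega]
         rw [key k j i (Fin.le_def.2 (by omega)) (Fin.le_def.2 (by omega)), f k j i, r j k i, f j i k])

theorem last_eq : Fin.last 5 = (5 : Fin 6) := rfl

theorem Hent_real (hA : Admissible (n := 5) l v τ) (k i m : Fin 6) :
    Hent realOps (ptOf l v τ a b) k.val i.val m.val = (qdir l v τ a b k).1 i m := by
  have z1 : ∀ p q, τ 5 p q = 0 := hA.tau_last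
  have z2 : ∀ p q, τ p 5 q = 0 := fun p q => by rw [hA.tau_left, z1]
  have z3 : ∀ p q, τ p q 5 = 0 := fun p q => by rw [hA.tau_right, z2]
  have hl : l 5 = 0 := hA.l_last
  have h5 : ∀ q : Fin 6, (q.val = 5) = (q = 5) := fun q => propext (Fin.ext_iff (a := q) (b := 5)).symm
  simp only [Hent, ptOf, qdir, bord, last_eq, tauG_real hA, vvar_val, Fin.val_inj, h5, rmul, rcst]
  have hb : zvar τ a b 31 = b := rfl
  by_cases hk : k = 5
  · subst hk
    simp [hl, z1]
  · by_cases h1 : i = 5 ∧ m = k
    · obtain ⟨rfl, rfl⟩ := h1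
      simp [hk, z2, hb]
    · by_cases h2 : m = 5 ∧ i = k
      · obtain ⟨rfl, rfl⟩ := h2
        simp [hk, z3, hb, Ne.symm hk]
      · simp [h1, h2]

theorem agk_real (hA : Admissible (n := 5) l v τ) (k m : Fin 6) :
    (qdir l v τ a b k).2.1 m = if k = m then agk realOps (ptOf l v τ a b) k.val else 0 := by
  have hl : l 5 = 0 := hA.l_last
  have ha : zvar τ a b 30 = a := rfl
  simp only [qdir, agk, ptOf, rmul, rcst, vvar_val]
  by_cases hm : k = m
  · subst hm
    by_cases hk : k = 5
    · subst hk; simp [hl]
    · simp [hk, Fin.ext_iff.not.1 hk, ha]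
      intro h; exact absurd (Fin.ext h) hk
  · simp [hm]

theorem dwK_real (k : Fin 6) :
    dwK realOps (ptOf l v τ a b) k.val = (qdir l v τ a b k).2.2 := by
  have hb : zvar τ a b 31 = b := rfl
  simp only [dwK, ptOf, qdir, last_eq, rmul, rcst, vvar_val, hb]
  fin_cases k <;> simp

theorem qdir_symm (hA : Admissible (n := 5) l v τ) (k i m : Fin 6) :
    (qdir l v τ a b k).1 i m = (qdir l v τ a b k).1 m i := by
  simp only [qdir, bord, hA.tau_right k i m]
  ring

theorem hav_real (hA : Admissible (n := 5) l v τ) (n : ℕ) (k i : Fin 6) :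
    hav realOps (ptOf l v τ a b) n k.val i.val =
      ∑ m, (qdir l v τ a b k).1 i m * (l m ^ n * v m) := by
  rw [hav, sum6_real]
  refine Finset.sum_congr rfl fun m _ => ?_
  rw [rmul, rmul, Hent_real hA, pw_real]
  simp [ptOf, vvar_val]

theorem trH_real (hA : Admissible (n := 5) l v τ) (n : ℕ) (k : Fin 6) :
    trH realOps (ptOf l v τ a b) n k.val = ∑ i, l i ^ n * (qdir l v τ a b k).1 i i := by
  rw [trH, sum6_real]
  refine Finset.sum_congr rfl fun i _ => ?_
  rw [rmul, Hent_real hA, pw_real]
  simp [ptOf, vvar_val]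

theorem valK_real (hA : Admissible (n := 5) l v τ) (f : Form) (k : Fin 6) :
    valK realOps (ptOf l v τ a b) f k.val = f.val (jet0 l v) (qdir l v τ a b k) := by
  cases f <;> simp only [valK, trH_real hA, hav_real hA, dwK_real, sum6_real, rmul, pw_real,
    Form.val, jet0, ite_mul, zero_mul, mul_ite, mul_zero, Finset.sum_ite_eq,
    Finset.sum_ite_eq', Finset.mem_univ, if_true, agk_real hA, Finset.sum_ite_irrel,
    Finset.sum_const_zero, pow_zero, one_mul, pow_one, sq]
  all_goals simp only [ptOf, vvar_val, Finset.mul_sum]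
  all_goals first
    | (refine Finset.sum_congr rfl fun i _ => ?_; ring)
    | (refine Finset.sum_congr rfl fun i _ => Finset.sum_congr rfl fun m _ => ?_; ring)
    | ring

theorem quad_swap {H : Fin 6 → Fin 6 → ℝ} (hs : ∀ i m, H i m = H m i) (p q w : Fin 6 → ℝ) :
    ∑ x, ∑ y, ∑ m, p x * H x m * w m * q y * H m y =
      ∑ m, w m * (∑ i, H m i * p i) * (∑ i, H m i * q i) := by
  calc ∑ x, ∑ y, ∑ m, p x * H x m * w m * q y * H m y
      = ∑ x, ∑ m, ∑ y, p x * H x m * w m * q y * H m y :=
        Finset.sum_congr rfl fun x _ => Finset.sum_comm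
    _ = ∑ m, ∑ x, ∑ y, p x * H x m * w m * q y * H m y := Finset.sum_comm
    _ = _ := Finset.sum_congr rfl fun m _ => by
        rw [mul_assoc (w m), Finset.sum_mul, Finset.mul_sum]
        refine Finset.sum_congr rfl fun x _ => ?_
        rw [← mul_assoc, Finset.mul_sum]
        refine Finset.sum_congr rfl fun y _ => ?_
        rw [hs x m]
        ring

theorem dvalK_real (hA : Admissible (n := 5) l v τ) (f : Form) (k : Fin 6) :
    dvalK realOps (ptOf l v τ a b) f k.val =
      f.dval (jet0 l v) (qdir l v τ a b k) (qdir l v τ a b k) := by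
  have hs := qdir_symm (a := a) (b := b) hA k
  obtain ⟨H, eH⟩ : ∃ H : Fin 6 → Fin 6 → ℝ, H = (qdir l v τ a b k).1 := ⟨_, rfl⟩
  rw [← eH] at hs
  obtain ⟨g, eg⟩ : ∃ g, g = agk realOps (ptOf l v τ a b) k.val := ⟨_, rfl⟩
  cases f <;> simp only [dvalK, hav_real hA, sum6_real, rmul, radd, rcst, pw_real, Hent_real hA,
    Form.dval, jet0, ← eH, ← eg, ite_mul, zero_mul, mul_ite, mul_zero, Finset.sum_ite_eq,
    Finset.sum_ite_eq', Finset.mem_univ, if_true, agk_real hA, Finset.sum_ite_irrel,
    Finset.sum_const_zero, pow_zero, one_mul, pow_one, sq, Int.cast_ofNat, Int.cast_zero,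
    Finset.sum_add_distrib, add_mul]
  all_goals simp only [ptOf, vvar_val] at *
  case a1 => exact Finset.sum_congr rfl fun i _ => Finset.sum_congr rfl fun m _ => by rw [hs m i]
  case a2 =>
    have sw : ∑ x, ∑ y, H x y * l y * H y x = ∑ x, l x * ∑ y, H x y * H x y := by
      rw [Finset.sum_comm]
      refine Finset.sum_congr rfl fun i _ => ?_
      rw [Finset.mul_sum]
      exact Finset.sum_congr rfl fun m _ => by rw [hs m i]; ring
    have sw2 : ∑ x, ∑ y, l x * H x y * H y x = ∑ x, l x * ∑ y, H x y * H x y := by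
      refine Finset.sum_congr rfl fun i _ => ?_
      rw [Finset.mul_sum]
      exact Finset.sum_congr rfl fun m _ => by rw [hs m i]; ring
    rw [sw, sw2]
    ring
  case s0 =>
    simp only [Finset.mul_sum, ← Finset.sum_add_distrib]
    exact Finset.sum_congr rfl fun i _ => by rw [hs i k]; ring
  case s1 =>
    have q1 := quad_swap hs v v (fun _ => 1)
    simp only [mul_one, one_mul] at q1
    rw [q1]
    have e1 : ∑ x, g * l k * v x * H k x = g * (l k * ∑ i, H k i * v i) := by
      simp only [Finset.mul_sum]; exact Finset.sum_congr rfl fun i _ => by ring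
    have e2 : ∑ x, v x * l x * g * H x k = g * ∑ i, H k i * (l i * v i) := by
      simp only [Finset.mul_sum]; exact Finset.sum_congr rfl fun i _ => by rw [hs i k]; ring
    rw [e1, e2]
    ring
  case s2 =>
    have q1 := quad_swap hs v v l
    have q2 := quad_swap hs (fun i => l i * v i) v (fun _ => 1)
    simp only [mul_one, one_mul] at q2
    have e0 : ∑ x, ∑ y, ∑ m, v x * l x * H x m * v y * H m y =
        ∑ x, ∑ y, ∑ m, l x * v x * H x m * v y * H m y :=
      Finset.sum_congr rfl fun x _ => Finset.sum_congr rfl fun y _ => Finset.sum_congr rfl fun m _ => by ring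
    rw [q1, e0, q2]
    have e1 : ∑ x, g * l k * l k * v x * H k x = g * (l k * l k * ∑ i, H k i * v i) := by
      simp only [Finset.mul_sum]; exact Finset.sum_congr rfl fun i _ => by ring
    have e2 : ∑ x, v x * l x * l x * g * H x k = g * ∑ i, H k i * (l i * l i * v i) := by
      simp only [Finset.mul_sum]; exact Finset.sum_congr rfl fun i _ => by rw [hs i k]; ring
    rw [e1, e2]
    ring
  case s11 =>
    have q2 := quad_swap hs v (fun i => l i * v i) (fun _ => 1)
    simp only [mul_one, one_mul] at q2
    have q3 := quad_swap hs (fun i => l i * v i) v (fun _ => 1)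
    simp only [mul_one, one_mul] at q3
    have e1 : ∑ x, g * l k * l x * v x * H k x = g * (l k * ∑ i, H k i * (l i * v i)) := by
      simp only [Finset.mul_sum]; exact Finset.sum_congr rfl fun i _ => by ring
    have e2 : ∑ x, v x * l x * l k * g * H x k = g * (l k * ∑ i, H k i * (l i * v i)) := by
      simp only [Finset.mul_sum]; exact Finset.sum_congr rfl fun i _ => by rw [hs i k]; ring
    have e3 : ∑ x, ∑ y, ∑ m, v x * H x m * l y * v y * H m y =
        ∑ x, ∑ y, ∑ m, v x * H x m * (l y * v y) * H m y :=
      Finset.sum_congr rfl fun x _ => Finset.sum_congr rfl fun y _ =>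
        Finset.sum_congr rfl fun m _ => by ring
    have e4 : ∑ x, ∑ y, ∑ m, v x * l x * H m y * v y * H x m =
        ∑ x, ∑ y, ∑ m, l x * v x * H x m * v y * H m y :=
      Finset.sum_congr rfl fun x _ => Finset.sum_congr rfl fun y _ =>
        Finset.sum_congr rfl fun m _ => by ring
    rw [e1, e2, e3, e4, q2, q3]
    simp only [mul_comm (∑ i, H _ i * (l i * v i))]
    ring
  case u1 =>
    have e1 : ∑ x, H k x * v x * g = g * ∑ i, H k i * v i := by
      simp only [Finset.mul_sum]; exact Finset.sum_congr rfl fun i _ => by ring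
    rw [e1]
    ring
  case u2 =>
    have e1 : ∑ x, H k x * l x * v x * g = g * ∑ i, H k i * (l i * v i) := by
      simp only [Finset.mul_sum]; exact Finset.sum_congr rfl fun i _ => by ring
    have e2 : ∑ x, l k * H k x * v x * g = g * (l k * ∑ i, H k i * v i) := by
      simp only [Finset.mul_sum]; exact Finset.sum_congr rfl fun i _ => by ring
    rw [e1, e2]
    ring

theorem valL_real (f : Form) :
    valL realOps (ptOf l v τ a b) f = f.val (jet0 l v) (ljet0 l v) := by
  cases f <;> simp only [valL, sum6_real, rmul, rcst, pw_real, Form.val, jet0, ljet0, ite_mul,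
    zero_mul, mul_ite, mul_zero, Finset.sum_ite_eq, Finset.sum_ite_eq', Finset.mem_univ, if_true,
    Finset.sum_ite_irrel, Finset.sum_const_zero, Pi.zero_apply, Int.cast_zero]
  all_goals simp only [ptOf, vvar_val, Finset.mul_sum]
  all_goals first
    | rfl
    | (refine Finset.sum_congr rfl fun i _ => ?_; push_cast; ring)
    | (simp only [last_eq, show vvar v 5 = v 5 from rfl]; push_cast; ring)

theorem dsK_real (hA : Admissible (n := 5) l v τ) (k : Fin 6) :
    dsK realOps (ptOf l v τ a b) k.val = dsqA (jet0 l v) (qdir l v τ a b k) := by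
  simp only [dsK, trH_real hA, rmul, rcst, dsqA, jet0, mul_ite, ite_mul, mul_zero, zero_mul,
    Finset.sum_ite_eq, Finset.mem_univ, if_true, Finset.mul_sum]
  exact Finset.sum_congr rfl fun i _ => by push_cast; ring

theorem dt3K_real (hA : Admissible (n := 5) l v τ) (k : Fin 6) :
    dt3K realOps (ptOf l v τ a b) k.val = dt3 (jet0 l v) (qdir l v τ a b k) := by
  simp only [dt3K, trH_real hA, rmul, rcst, dt3, jet0, mul_ite, ite_mul, mul_zero, zero_mul,
    Finset.sum_add_distrib, Finset.sum_ite_eq, Finset.sum_ite_eq', Finset.mem_univ, if_true,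
    Finset.sum_ite_irrel, Finset.sum_const_zero]
  rw [Finset.mul_sum, ← Finset.sum_add_distrib, ← Finset.sum_add_distrib]
  exact Finset.sum_congr rfl fun i _ => by push_cast; ring

theorem dp0K_real (hA : Admissible (n := 5) l v τ) (k : Fin 6) :
    dp0K realOps (ptOf l v τ a b) k.val = dp0 (jet0 l v) (qdir l v τ a b k) := by
  simp only [dp0K, rmul, rcst, dp0, jet0, agk_real hA, mul_ite, mul_zero, Finset.sum_ite_eq,
    Finset.mem_univ, if_true]
  simp only [ptOf, vvar_val]
  push_cast
  ring

theorem dp1K_real (hA : Admissible (n := 5) l v τ) (k : Fin 6) :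
    dp1K realOps (ptOf l v τ a b) k.val = dp1 (jet0 l v) (qdir l v τ a b k) := by
  simp only [dp1K, radd, rmul, rcst, sum6_real, hav_real hA, dp1, jet0, agk_real hA, mul_ite,
    ite_mul, mul_zero, zero_mul, Finset.sum_add_distrib, Finset.sum_ite_eq, Finset.sum_ite_eq',
    Finset.sum_ite_irrel, Finset.sum_const_zero, Finset.mem_univ, if_true]
  simp only [ptOf, vvar_val, pow_zero, one_mul, Finset.mul_sum]
  have e : ∀ i m : Fin 6, v i * ((qdir l v τ a b k).1 i m * v m) =
      v i * (qdir l v τ a b k).1 i m * v m := fun i m => by ring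
  simp only [e]
  push_cast
  ring

theorem monG_real (a' b' c' e' : ℕ) :
    monG realOps (ptOf l v τ a b) a' b' c' e' =
      t3 (jet0 l v) ^ a' * p0 (jet0 l v) ^ b' * p1 (jet0 l v) ^ c' * v 5 ^ e' := by
  simp only [monG, rmul, pw_real, sum6_real, t3, p0, p1, jet0, mul_ite, ite_mul, mul_zero,
    zero_mul, Finset.sum_ite_eq, Finset.sum_ite_eq', Finset.sum_ite_irrel, Finset.sum_const_zero,
    Finset.mem_univ, if_true, ptOf, vvar_val, show vvar v 5 = v 5 from rfl]
  have h3 : ∀ i : Fin 6, l i * l i * l i = l i ^ 3 := fun i => by ring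
  have h1 : ∀ i : Fin 6, v i * l i * v i = l i * v i ^ 2 := fun i => by ring
  simp only [h3, h1]

theorem mem_forms (f : Form) : f ∈ forms := by cases f <;> simp [forms]

theorem fid_inj {f g : Form} (h : fid f = fid g) : f = g := by
  cases f <;> cases g <;> simp [fid] at h ⊢

/-- Grouping by form. -/
theorem fsumF_real (φ : ITerm → ℝ) (ψ : Form → ℝ) : ∀ T : List ITerm,
    fsumF realOps T φ ψ = (T.map fun t => φ t * ψ t.form).sum
  | [] => by simp [fsumF, gsumF, sumL_real, forms, rmul, rcst]
  | t :: T => by
    have ih := fsumF_real φ ψ T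
    simp only [fsumF, sumL_real] at ih ⊢
    rw [List.map_cons, List.sum_cons, ← ih]
    simp only [forms, List.map_cons, List.map_nil, List.sum_cons, List.sum_nil, rmul, gsumF]
    cases t.form <;> simp [fid, radd] <;> ring

/-- One direction. -/
theorem pieceG_real (hA : Admissible (n := 5) l v τ) (an : ℤ) (den : ℕ) (hden : 0 < den)
    (T : List ITerm) (k : Fin 6) :
    pieceG realOps (ptOf l v τ a b) an den T k.val = 40000 * den *
      (dOmV ((an : ℝ) / 100) (T.map (ITerm.term den)) (jet0 l v) (qdir l v τ a b k)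
          (qdir l v τ a b k)
        - ((an : ℝ) / 100 * dsqA (jet0 l v) (qdir l v τ a b k)) ^ 2 / 4) := by
  have hs : sqA (jet0 l v) = 1 := by
    simp [sqA, jet0, ite_pow, hA.l_sq]
  have hd : (den : ℝ) ≠ 0 := Nat.cast_ne_zero.2 hden.ne'
  simp only [pieceG, sumL_real, List.sum_cons, List.sum_nil, fsumF_real, rmul, radd, rcst,
    dsK_real hA, dt3K_real hA, dp0K_real hA, dp1K_real hA, dwK_real, valK_real hA, dvalK_real hA]
  induction T with
  | nil =>
    simp only [List.map_nil, List.sum_nil, dOmV]
    push_cast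
    ring
  | cons t T ih =>
    simp only [List.map_cons, List.sum_cons, dOmV] at ih ⊢
    have ht : 40000 * (den : ℝ) * (ITerm.term den t).dval ((an : ℝ) / 100) (jet0 l v)
        (qdir l v τ a b k) (qdir l v τ a b k) =
      dsqA (jet0 l v) (qdir l v τ a b k) * (cE realOps (ptOf l v τ a b) an t *
          t.form.val (jet0 l v) (qdir l v τ a b k))
      + dt3 (jet0 l v) (qdir l v τ a b k) * (c3 realOps (ptOf l v τ a b) t *
          t.form.val (jet0 l v) (qdir l v τ a b k))
      + dp0 (jet0 l v) (qdir l v τ a b k) * (c0 realOps (ptOf l v τ a b) t *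
          t.form.val (jet0 l v) (qdir l v τ a b k))
      + dp1 (jet0 l v) (qdir l v τ a b k) * (c1 realOps (ptOf l v τ a b) t *
          t.form.val (jet0 l v) (qdir l v τ a b k))
      + (qdir l v τ a b k).2.2 * (cW realOps (ptOf l v τ a b) t *
          t.form.val (jet0 l v) (qdir l v τ a b k))
      + cM realOps (ptOf l v τ a b) t *
          t.form.dval (jet0 l v) (qdir l v τ a b k) (qdir l v τ a b k) := by
      simp only [Term.dval, Term.dmon, Term.mon, Term.wt, ITerm.term, ITerm.wt, cE, c3, c0, c1, cW,
        cM, rmul, rcst, monG_real, hs, Real.one_rpow, show (jet0 l v).2.2 = v 5 from rfl]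
      push_cast
      field_simp
      ring
    linear_combination ih - ht

/-- **The closed form is the interior form.** -/
theorem QG_real (hA : Admissible (n := 5) l v τ) (an : ℤ) (den : ℕ) (hden : 0 < den)
    (T : List ITerm) :
    QG realOps (ptOf l v τ a b) an den T =
      40000 * den * Qval ((an : ℝ) / 100) (T.map (ITerm.term den)) l v τ a b := by
  have hs : sqA (jet0 l v) = 1 := by
    simp [sqA, jet0, ite_pow, hA.l_sq]
  have hd : (den : ℝ) ≠ 0 := Nat.cast_ne_zero.2 hden.ne'
  have hb : (ptOf l v τ a b).z 31 = b := rfl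
  simp only [QG, radd, sum6_real, lapG, rmul, rcst, pw_real, fsumF_real, valL_real, hb,
    pieceG_real hA an den hden]
  rw [Qval, mul_add (40000 * (den : ℝ)), Finset.mul_sum]
  congr 1
  have e : 40000 * (den : ℝ) * omV ((an : ℝ) / 100) (T.map (ITerm.term den)) (jet0 l v) (ljet0 l v) =
      (T.map fun t => cM realOps (ptOf l v τ a b) t * t.form.val (jet0 l v) (ljet0 l v)).sum := by
    induction T with
    | nil => simp [omV]
    | cons t T ih =>
      simp only [List.map_cons, List.sum_cons, omV] at ih ⊢
      rw [mul_add, ih]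
      congr 1
      simp only [Term.val, Term.mon, ITerm.term, cM, rmul, rcst, monG_real, hs, Real.one_rpow,
        show (jet0 l v).2.2 = v 5 from rfl]
      push_cast
      field_simp
  rw [← e]
  push_cast
  ring

end Vale.Agent.P098.Exact.Sos6
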