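import Vale.Agent.P098.Exact.Sos6.Target

/-!
Truncation of polynomials in three variables and of their products by total degree. The error is a
weighted sum of absolute values of the coefficients, each weight given by the number of degrees
still allowed at the coefficient.
-/

noncomputable section

namespace Vale.Agent.P098.Exact.Sos6

open Sos (pk base half npk)

variable {M X Y P : Type}

/-- Entries tagged with the number of degrees still allowed. -/
noncomputable def tagL (g : ℕ → X → List Y) (n : ℕ) (L : List X) : List Y :=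
  List.rec (motive := fun _ => ℕ → List Y) (fun _ => [])
    (fun x _ ih n => g n x ++ ih (Nat.sub n 1)) L n

theorem tagL_cons (g : ℕ → X → List Y) (n : ℕ) (x : X) (L : List X) :
    tagL g n (x :: L) = g n x ++ tagL g (n - 1) L := rfl

/-- Tags of one coefficient. -/
def tag0 (n : ℕ) (x : M) : List (ℕ × M) := [(n, x)]

/-- Tags in one variable. -/
noncomputable def tag1 (n : ℕ) (L : List M) : List (ℕ × M) := tagL tag0 n L

/-- Tags in two variables. -/
noncomputable def tag2 (n : ℕ) (L : List (List M)) : List (ℕ × M) := tagL tag1 n L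

/-- Tags in three variables. -/
noncomputable def tag3 (n : ℕ) (L : List (List (List M))) : List (ℕ × M) := tagL tag2 n L

/-- Weighted absolute sum of tagged coefficients. -/
noncomputable def wS (f : ℕ → ℕ) (L : List (ℕ × ℝ)) : ℝ :=
  (L.map fun p => (f p.1 : ℝ) * |p.2|).sum

theorem wS_append (f : ℕ → ℕ) (L K : List (ℕ × ℝ)) : wS f (L ++ K) = wS f L + wS f K := by
  simp [wS]

theorem wS_nonneg (f : ℕ → ℕ) (L : List (ℕ × ℝ)) : 0 ≤ wS f L :=
  List.sum_nonneg fun x hx => by
    obtain ⟨p, -, rfl⟩ := List.mem_map.1 hx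
    positivity

theorem wS_add (f g : ℕ → ℕ) : ∀ L : List (ℕ × ℝ),
    wS (fun m => f m + g m) L = wS f L + wS g L
  | [] => by simp [wS]
  | p :: L => by
    have ih := wS_add f g L
    simp only [wS, List.map_cons, List.sum_cons] at ih ⊢
    rw [ih]
    push_cast
    ring

theorem wS_mul (c : ℕ) (f : ℕ → ℕ) : ∀ L : List (ℕ × ℝ),
    wS (fun m => c * f m) L = c * wS f L
  | [] => by simp [wS]
  | p :: L => by
    have ih := wS_mul c f L
    simp only [wS, List.map_cons, List.sum_cons] at ih ⊢
    rw [ih]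
    push_cast
    ring

theorem wS_pred (f : ℕ → ℕ) (L : List (ℕ × ℝ)) :
    wS f (L.map fun p => (p.1 - 1, p.2)) = wS (fun m => f (m - 1)) L := by
  simp [wS, List.map_map, Function.comp_def]

theorem tagL_pred {g : ℕ → X → List (ℕ × M)}
    (hg : ∀ n x, g (n - 1) x = (g n x).map fun p => (p.1 - 1, p.2)) :
    ∀ (n : ℕ) (L : List X), tagL g (n - 1) L = (tagL g n L).map fun p => (p.1 - 1, p.2)
  | _, [] => rfl
  | n, x :: L => by
    rw [tagL_cons, tagL_cons, List.map_append, ← hg, ← tagL_pred hg (n - 1) L]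

theorem tag1_pred (n : ℕ) (L : List M) :
    tag1 (n - 1) L = (tag1 n L).map fun p => (p.1 - 1, p.2) :=
  tagL_pred (fun _ _ => rfl) n L

theorem tag2_pred (n : ℕ) (L : List (List M)) :
    tag2 (n - 1) L = (tag2 n L).map fun p => (p.1 - 1, p.2) :=
  tagL_pred tag1_pred n L

/-! ### The whole value -/

theorem abs_level {g : ℕ → X → List (ℕ × ℝ)} {φ : X → ℝ}
    (h : ∀ n x, |φ x| ≤ wS (fun _ => 1) (g n x)) (s : ℝ) (hs : |s| ≤ 1) :
    ∀ (n : ℕ) (L : List X), |evP φ s L| ≤ wS (fun _ => 1) (tagL g n L)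
  | _, [] => by simp [evP, tagL, wS]
  | n, x :: L => by
    rw [tagL_cons, wS_append]
    simp only [evP]
    refine (abs_add_le _ _).trans (add_le_add (h n x) ?_)
    rw [abs_mul]
    exact (mul_le_of_le_one_left (abs_nonneg _) hs).trans (abs_level h s hs (n - 1) L)

theorem abs3 (s t u : ℝ) (hs : |s| ≤ 1) (ht : |t| ≤ 1) (hu : |u| ≤ 1) (n : ℕ)
    (L : List (List (List ℝ))) : |ev3 id s t u L| ≤ wS (fun _ => 1) (tag3 n L) :=
  abs_level (abs_level (abs_level (fun n x => by simp [tag0, wS]) u hu) t ht) s hs n L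

/-! ### Truncation -/

/-- Keep the entries of positive allowance. -/
noncomputable def trL (g : ℕ → X → X) (n : ℕ) (L : List X) : List X :=
  List.rec (motive := fun _ => ℕ → List X) (fun _ => [])
    (fun x _ ih n => Bool.rec (g n x :: ih (Nat.sub n 1)) [] (Nat.beq n 0)) L n

theorem trL_zero (g : ℕ → X → X) : ∀ L : List X, trL g 0 L = []
  | [] => rfl
  | _ :: _ => rfl

theorem trL_succ (g : ℕ → X → X) (n : ℕ) (x : X) (L : List X) :
    trL g (n + 1) (x :: L) = g (n + 1) x :: trL g n L := rfl

/-- Truncation to total degree less than `n`. -/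
noncomputable def tr3 (n : ℕ) (L : List (List (List M))) : List (List (List M)) :=
  trL (trL (trL fun _ x => x)) n L

/-- Weight one for dropped coefficients. -/
noncomputable def fz (n : ℕ) : ℕ := Bool.rec 0 1 (Nat.beq n 0)

theorem tr_level {g : ℕ → X → List (ℕ × ℝ)} {t : ℕ → X → X} {φ : X → ℝ}
    (h0 : ∀ x, |φ x| ≤ wS fz (g 0 x)) (ht : ∀ n x, |φ x - φ (t n x)| ≤ wS fz (g n x))
    (s : ℝ) (hs : |s| ≤ 1) : ∀ (n : ℕ) (L : List X),
      |evP φ s L - evP φ s (trL t n L)| ≤ wS fz (tagL g n L)
  | _, [] => by simp [evP, trL, tagL, wS]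
  | 0, x :: L => by
    rw [trL_zero, tagL_cons, wS_append]
    have ih := tr_level h0 ht s hs 0 L
    rw [trL_zero] at ih
    simp only [evP, sub_zero] at ih ⊢
    refine (abs_add_le _ _).trans (add_le_add (h0 x) ?_)
    rw [abs_mul]
    exact (mul_le_of_le_one_left (abs_nonneg _) hs).trans ih
  | n + 1, x :: L => by
    rw [trL_succ, tagL_cons, wS_append]
    simp only [evP, Nat.add_sub_cancel]
    rw [show φ x + s * evP φ s L - (φ (t (n + 1) x) + s * evP φ s (trL t n L)) =
      (φ x - φ (t (n + 1) x)) + s * (evP φ s L - evP φ s (trL t n L)) by ring]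
    refine (abs_add_le _ _).trans (add_le_add (ht _ x) ?_)
    rw [abs_mul]
    exact (mul_le_of_le_one_left (abs_nonneg _) hs).trans (tr_level h0 ht s hs n L)

theorem tr3_err (s t u : ℝ) (hs : |s| ≤ 1) (ht : |t| ≤ 1) (hu : |u| ≤ 1) (n : ℕ)
    (L : List (List (List ℝ))) :
    |ev3 id s t u L - ev3 id s t u (tr3 n L)| ≤ wS fz (tag3 n L) := by
  have l1 : ∀ (n : ℕ) (L : List ℝ),
      |evP id u L - evP id u (trL (fun _ x => x) n L)| ≤ wS fz (tag1 n L) :=
    tr_level (fun x => by simp [tag0, wS, fz]) (fun n x => by simp [wS_nonneg]) u hu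
  have l2 : ∀ (n : ℕ) (L : List (List ℝ)),
      |evP (evP id u) t L - evP (evP id u) t (trL (trL fun _ x => x) n L)| ≤ wS fz (tag2 n L) :=
    tr_level (fun x => by simpa [trL_zero, evP] using l1 0 x) l1 t ht
  exact tr_level (fun x => by simpa [trL_zero, evP] using l2 0 x) l2 s hs n L

/-! ### Truncated product -/

/-- The entries of positive allowance times one coefficient. -/
noncomputable def mapT (μ : ℕ → P → X → X) (n : ℕ) (q : P) (L : List X) : List X :=
  List.rec (motive := fun _ => ℕ → List X) (fun _ => [])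
    (fun x _ ih n => Bool.rec (μ n q x :: ih (Nat.sub n 1)) [] (Nat.beq n 0)) L n

theorem mapT_zero (μ : ℕ → P → X → X) (q : P) : ∀ L : List X, mapT μ 0 q L = []
  | [] => rfl
  | _ :: _ => rfl

theorem mapT_succ (μ : ℕ → P → X → X) (n : ℕ) (q : P) (x : X) (L : List X) :
    mapT μ (n + 1) q (x :: L) = μ (n + 1) q x :: mapT μ n q L := rfl

/-- Product truncated to the allowance. -/
noncomputable def mulT (o : VOps X) (μ : ℕ → P → X → X) (n : ℕ) (p : List P) (L : List X) :
    List X :=
  List.rec (motive := fun _ => ℕ → List X) (fun _ => [])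
    (fun q _ ih n => add1 o (mapT μ n q L) (shiftP o (ih (Nat.sub n 1)))) p n

theorem mulT_cons (o : VOps X) (μ : ℕ → P → X → X) (n : ℕ) (q : P) (p : List P) (L : List X) :
    mulT o μ n (q :: p) L = add1 o (mapT μ n q L) (shiftP o (mulT o μ (n - 1) p L)) := rfl

theorem mulT_zero (o : VOps X) (μ : ℕ → P → X → X) : ∀ (p : List P) (L : List X),
    mulT o μ 0 p L = []
  | [], _ => rfl
  | q :: p, L => by
    rw [mulT_cons, mapT_zero, mulT_zero o μ p L]
    rfl

/-- Absolute sum of the dropped part of a factor. -/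
noncomputable def tailW (T : ℕ → P → ℕ) (n : ℕ) (p : List P) : ℕ :=
  List.rec (motive := fun _ => ℕ → ℕ) (fun _ => 0)
    (fun q _ ih n => Nat.add (T n q) (ih (Nat.sub n 1))) p n

/-- Dropped part of one coefficient. -/
noncomputable def tail0 (n : ℕ) (c : ℤ) : ℕ := Bool.rec 0 (Int.natAbs c) (Nat.beq n 0)

/-- Dropped part of a factor in three variables. -/
noncomputable def tail3 (n : ℕ) (p : List (List (List ℤ))) : ℕ := tailW (tailW (tailW tail0)) n p

/-- Product truncated to total degree less than `n`. -/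
noncomputable def mulT3 (o : VOps M) (n : ℕ) (p : List (List (List ℤ)))
    (L : List (List (List M))) : List (List (List M)) :=
  mulT o.poly2 (mulT o.poly (mulT o fun _ => o.smul)) n p L

theorem mulT_level {o : VOps X} {φ : X → ℝ} (H : VVal o φ) {μ : ℕ → P → X → X} {ψ : P → ℝ}
    {T : ℕ → P → ℕ} {g : ℕ → X → List (ℕ × ℝ)}
    (hg : ∀ n x, g (n - 1) x = (g n x).map fun p => (p.1 - 1, p.2))
    (h0 : ∀ q x, |ψ q * φ x| ≤ wS (fun m => T m q) (g 0 x))
    (hμ : ∀ n q x, |φ (μ n q x) - ψ q * φ x| ≤ wS (fun m => T m q) (g n x))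
    (s : ℝ) (hs : |s| ≤ 1) : ∀ (n : ℕ) (p : List P) (L : List X),
      |evP φ s (mulT o μ n p L) - evP ψ s p * evP φ s L| ≤
        wS (fun m => tailW T m p) (tagL g n L) := by
  have hmap : ∀ (q : P) (L : List X) (n : ℕ),
      |evP φ s (mapT μ n q L) - ψ q * evP φ s L| ≤ wS (fun m => T m q) (tagL g n L) := by
    intro q L
    induction L with
    | nil => intro n; simp [mapT, evP, tagL, wS]
    | cons x L ih =>
      intro n
      rw [tagL_cons, wS_append]
      cases n with
      | zero =>
        have e := ih 0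
        rw [mapT_zero] at e ⊢
        simp only [evP, zero_sub, abs_neg] at e ⊢
        rw [mul_add, mul_left_comm]
        refine (abs_add_le _ _).trans (add_le_add (h0 q x) ?_)
        rw [abs_mul]
        exact (mul_le_of_le_one_left (abs_nonneg _) hs).trans e
      | succ n =>
        rw [mapT_succ]
        simp only [evP, Nat.add_sub_cancel]
        rw [show φ (μ (n + 1) q x) + s * evP φ s (mapT μ n q L) - ψ q * (φ x + s * evP φ s L) =
          (φ (μ (n + 1) q x) - ψ q * φ x) + s * (evP φ s (mapT μ n q L) - ψ q * evP φ s L) by ring]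
        refine (abs_add_le _ _).trans (add_le_add (hμ _ q x) ?_)
        rw [abs_mul]
        exact (mul_le_of_le_one_left (abs_nonneg _) hs).trans (ih n)
  intro n p L
  induction p generalizing n with
  | nil => simp [mulT, evP, wS_nonneg]
  | cons q p ih =>
    have hsh : ∀ K : List X, evP φ s (shiftP o K) = s * evP φ s K := fun K => by
      cases K <;> simp [shiftP, evP, H.zero]
    rw [mulT_cons, evP_add1 H, hsh]
    simp only [evP]
    rw [show evP φ s (mapT μ n q L) + s * evP φ s (mulT o μ (n - 1) p L) -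
        (ψ q + s * evP ψ s p) * evP φ s L = (evP φ s (mapT μ n q L) - ψ q * evP φ s L) +
        s * (evP φ s (mulT o μ (n - 1) p L) - evP ψ s p * evP φ s L) by ring]
    show _ ≤ wS (fun m => T m q + tailW T (m - 1) p) (tagL g n L)
    rw [wS_add]
    refine (abs_add_le _ _).trans (add_le_add (hmap q L n) ?_)
    rw [abs_mul, ← wS_pred (fun m => tailW T m p), ← tagL_pred hg]
    exact (mul_le_of_le_one_left (abs_nonneg _) hs).trans (ih (n - 1))

theorem mulT3_err (s t u : ℝ) (hs : |s| ≤ 1) (ht : |t| ≤ 1) (hu : |u| ≤ 1) (n : ℕ)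
    (p : List (List (List ℤ))) (L : List (List (List ℝ))) :
    |ev3 id s t u (mulT3 rOps n p L) - ev3 (fun z : ℤ => (z : ℝ)) s t u p * ev3 id s t u L| ≤
      wS (fun m => tail3 m p) (tag3 n L) := by
  have l1 : ∀ (n : ℕ) (p : List ℤ) (L : List ℝ),
      |evP id u (mulT rOps (fun _ => rOps.smul) n p L) - evP (fun z : ℤ => (z : ℝ)) u p * evP id u L| ≤
        wS (fun m => tailW tail0 m p) (tag1 n L) :=
    mulT_level rOps_val (fun _ _ => rfl)
      (fun q x => by simp [tag0, wS, tail0, abs_mul, Int.cast_abs])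
      (fun n q x => by simp [rOps, wS_nonneg]) u hu
  have l2 : ∀ (n : ℕ) (p : List (List ℤ)) (L : List (List ℝ)),
      |evP (evP id u) t (mulT rOps.poly (mulT rOps fun _ => rOps.smul) n p L) -
          evP (evP (fun z : ℤ => (z : ℝ)) u) t p * evP (evP id u) t L| ≤
        wS (fun m => tailW (tailW tail0) m p) (tag2 n L) :=
    mulT_level (poly_val rOps_val u) tag1_pred
      (fun q x => by simpa [mulT_zero, evP] using l1 0 q x) l1 t ht
  exact mulT_level (poly_val (poly_val rOps_val u) t) tag2_pred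
    (fun q x => by simpa [mulT_zero, evP] using l2 0 q x) l2 s hs n p L

/-! ### Transfer -/

theorem tagL_rel {X' Y' : Type} {R : X → X' → Prop} {S : Y → Y' → Prop} {g : ℕ → X → List Y}
    {g' : ℕ → X' → List Y'} (h : ∀ n {x y}, R x y → List.Forall₂ S (g n x) (g' n y))
    {L : List X} {L' : List X'} (hL : List.Forall₂ R L L') :
    ∀ n, List.Forall₂ S (tagL g n L) (tagL g' n L') := by
  induction hL with
  | nil => intro n; exact .nil
  | cons hx _ ih => intro n; exact List.rel_append (h n hx) (ih (n - 1))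

/-- Related tagged coefficients. -/
def TRel {N : Type} (R : M → N → Prop) (p : ℕ × M) (q : ℕ × N) : Prop := p.1 = q.1 ∧ R p.2 q.2

theorem tag3_rel {N : Type} {R : M → N → Prop} (n : ℕ) {L : List (List (List M))}
    {L' : List (List (List N))} (h : Rel3 R L L') :
    List.Forall₂ (TRel R) (tag3 n L) (tag3 n L') :=
  tagL_rel (R := List.Forall₂ (List.Forall₂ R)) (fun n _ _ h2 =>
    tagL_rel (R := List.Forall₂ R) (fun n _ _ h1 =>
      tagL_rel (R := R) (fun _ _ _ h0 => .cons ⟨rfl, h0⟩ .nil) h1 n) h2 n) h n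

theorem trL_rel {X' : Type} {R : X → X' → Prop} {g : ℕ → X → X} {g' : ℕ → X' → X'}
    (h : ∀ n {x y}, R x y → R (g n x) (g' n y)) {L : List X} {L' : List X'}
    (hL : List.Forall₂ R L L') : ∀ n, List.Forall₂ R (trL g n L) (trL g' n L') := by
  induction hL with
  | nil => intro n; exact .nil
  | cons hx _ ih =>
    intro n
    cases n with
    | zero => exact .nil
    | succ n => exact .cons (h _ hx) (ih n)

theorem tr3_rel {N : Type} {R : M → N → Prop} (n : ℕ) {L : List (List (List M))}
    {L' : List (List (List N))} (h : Rel3 R L L') : Rel3 R (tr3 n L) (tr3 n L') :=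
  trL_rel (R := List.Forall₂ (List.Forall₂ R)) (fun n _ _ h2 =>
    trL_rel (R := List.Forall₂ R) (fun n _ _ h1 => trL_rel (R := R) (fun _ _ _ h0 => h0) h1 n)
      h2 n) h n

theorem mulT_rel {X' : Type} {o : VOps X} {p : VOps X'} {R : X → X' → Prop} (H : VRel o p R)
    {μ : ℕ → P → X → X} {ν : ℕ → P → X' → X'} (hμ : ∀ n q {x y}, R x y → R (μ n q x) (ν n q y))
    {L : List X} {L' : List X'} (hL : List.Forall₂ R L L') : ∀ (q : List P) (n : ℕ),
      List.Forall₂ R (mulT o μ n q L) (mulT p ν n q L')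
  | [], _ => .nil
  | a :: q, n => by
    rw [mulT_cons, mulT_cons]
    refine add1_rel H ?_ (shiftP_rel H (mulT_rel H hμ hL q (n - 1)))
    induction hL generalizing n with
    | nil => exact .nil
    | cons hx _ ih =>
      cases n with
      | zero => exact .nil
      | succ n => exact .cons (hμ _ a hx) (ih n)

theorem mulT3_rel {N : Type} {o : VOps M} {p : VOps N} {R : M → N → Prop} (H : VRel o p R) (n : ℕ)
    (q : List (List (List ℤ))) {L : List (List (List M))} {L' : List (List (List N))}
    (h : Rel3 R L L') : Rel3 R (mulT3 o n q L) (mulT3 p n q L') :=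
  mulT_rel (poly_rel (poly_rel H))
    (fun n q2 _ _ h2 => mulT_rel (poly_rel H)
      (fun n q1 _ _ h1 => mulT_rel H (fun _ c _ _ h0 => H.smul c h0) h1 q1 n) h2 q2 n) h q n

/-! ### Packed absolute sums -/

/-- Weighted sum of absolute vectors. -/
noncomputable def sumW (W len : ℕ) (f : ℕ → ℕ) (L : List (ℕ × PV)) : ℕ :=
  List.rec (motive := fun _ => ℕ) 0
    (fun p _ ih => Bool.rec (Nat.add (Nat.mul (f p.1) (absV W len p.2.1)) ih) ih
      (Nat.beq (f p.1) 0)) L

/-- Digit bound of a weighted sum. -/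
noncomputable def sumWB (f : ℕ → ℕ) (L : List (ℕ × PV)) : ℕ :=
  List.rec (motive := fun _ => ℕ) 0 (fun p _ ih => Nat.add (Nat.mul (f p.1) p.2.2) ih) L

theorem sumW_rel (W : ℕ) (hW : 0 < W) (gs : List ℝ) (f : ℕ → ℕ) :
    ∀ {L : List (ℕ × PV)} {L' : List (ℕ × ℝ)}, List.Forall₂ (TRel (PRel W gs)) L L' →
      sumWB f L < half W →
      ∃ a : ℕ → ℕ, sumW W gs.length f L = npk W gs.length a ∧ (∀ k, a k ≤ sumWB f L) ∧
        wS f L' ≤ ∑ k ∈ Finset.range gs.length, (a k : ℝ) * |gs.getD k 0| := by
  intro L L' h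
  induction h with
  | nil => intro _; exact ⟨fun _ => 0, by simp [sumW, npk], by simp, by simp [wS]⟩
  | @cons p q L L' hp _ ih =>
    intro hb
    obtain ⟨m, p⟩ := p
    obtain ⟨m', x⟩ := q
    obtain ⟨rfl, g, g1, g2, g3⟩ : m = m' ∧ PRel W gs p x := hp
    change f m * p.2 + sumWB f L < half W at hb
    obtain ⟨a, a1, a2, a3⟩ := ih (by omega)
    have hx : |x| ≤ ∑ k ∈ Finset.range gs.length, ((g k).natAbs : ℝ) * |gs.getD k 0| := by
      rw [g3]
      refine (Finset.abs_sum_le_sum_abs _ _).trans (le_of_eq ?_)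
      refine Finset.sum_congr rfl fun k _ => ?_
      rw [abs_mul, ← Int.cast_abs, ← Int.natCast_natAbs, Int.cast_natCast]
    refine ⟨fun k => f m * (g k).natAbs + a k, ?_, fun k => ?_, ?_⟩
    · show Bool.rec (motive := fun _ => ℕ) (f m * absV W gs.length p.1 + sumW W gs.length f L)
        (sumW W gs.length f L) (Nat.beq (f m) 0) = _
      rcases Nat.eq_zero_or_pos (f m) with h0 | h0
      · simp [h0, a1]
      · rw [show Nat.beq (f m) 0 = false by
          cases e : Nat.beq (f m) 0
          · rfl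
          · have := Nat.eq_of_beq_eq_true e; omega]
        show f m * absV W gs.length p.1 + sumW W gs.length f L = _
        rw [a1, g2, absV_eq W hW _ _ fun k => by
          rw [← Int.natCast_natAbs]
          have := g1 k
          have : p.2 ≤ f m * p.2 := Nat.le_mul_of_pos_left _ h0
          omega, npk_smul, npk_add]
    · exact Nat.add_le_add (Nat.mul_le_mul_left _ (g1 k)) (a2 k)
    · simp only [wS, List.map_cons, List.sum_cons] at a3 ⊢
      have h2 := mul_le_mul_of_nonneg_left hx (Nat.cast_nonneg (α := ℝ) (f m))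
      rw [Finset.mul_sum] at h2
      push_cast
      simp only [add_mul, mul_assoc, Finset.sum_add_distrib] at h2 ⊢
      linarith

end Vale.Agent.P098.Exact.Sos6
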